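import Vale.Agent.P284.H885.Trans

/-!
# P284, module COV (helper885): summary

1. `exists_quo`: for `p : E → X` Galois with group `Γ`, `X` compact, `G ≤ Γ` of finite index: a
   compact connected manifold `Y` (`= E / G`), `q : E → Y` Galois with group `G`, `π : Y → X` étale and
   a covering, `π ∘ q = p`.
2. `Etale.isKahler`, `Etale.isCanonicalMetric`, `Etale.pj`, `Etale.contMDiff`,
   `Etale.contMDiff_of_comp`, `Etale.surjective_iff`, `Dom.etale`, `Etale.hform`, `Etale.goodAt`,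
   `Etale.holB`, `Etale.reg_iff`, `Etale.alb`: transport from `X` to `Y`.
3. `E₁ = E / N` for `N` normal in `Γ`: `Quo E N`, `mk N : E → Quo E N`, `toX hp N : Quo E N → X`,
   `isGalois_mk`, `isGalois_toX` (group `Γ ⧸ N`), `quo_smul_mk`, `desc` (functions), `holB_desc`,
   `reg_desc`, `alb_desc`, `hform_desc`.
4. `exists_lift_at`, `Dom`, `Dom.lift`, `dom_of_dense`.
-/

open scoped Manifold ContDiff Topology ComplexOrder
open Filter Set Metric

noncomputable section

namespace Vale.Agent.P284.H885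

open Vale.Agent.P272.K Vale.Agent.P284.H894.G Vale.Agent.P284.H894.W

/-- **COV**, finite coverings -/
theorem exists_quo (n : ℕ) (X : Type) [TopologicalSpace X] [T2Space X] [CompactSpace X]
    [ChartedSpace (Cm n) X] [IsManifold 𝓘(ℂ, Cm n) ω X]
    (E Γ : Type) [TopologicalSpace E] [ConnectedSpace E] [Group Γ] [MulAction Γ E]
    (p : E → X) (hp : IsGalois Γ p) (G : Subgroup Γ) (hG : G.FiniteIndex) :
    ∃ (Y : Type) (_ : TopologicalSpace Y) (_ : T2Space Y) (_ : CompactSpace Y)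
      (_ : ConnectedSpace Y) (_ : ChartedSpace (Cm n) Y) (_ : IsManifold 𝓘(ℂ, Cm n) ω Y)
      (q : E → Y) (π : Y → X), Etale n π ∧ IsCoveringMap π ∧ IsGalois G q ∧ ∀ y, π (q y) = p y := by
  let cs := etaleCS (n := n) (isLocalHomeomorph_toX hp G)
  exact ⟨Quo E G, inferInstance, t2_quo hp G, compact_quo hp G hG, connected_quo G, cs,
    etale_isManifold inferInstance (etale_etaleCS (isLocalHomeomorph_toX hp G)), mk G, toX hp G,
    etale_etaleCS (isLocalHomeomorph_toX hp G), isCoveringMap_toX hp G hG, isGalois_mk hp G,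
    fun y => rfl⟩

section

variable {n : ℕ} {X : Type} [TopologicalSpace X] [ChartedSpace (Cm n) X]
  {E Γ : Type} [TopologicalSpace E] [Group Γ] [MulAction Γ E] {p : E → X}

lemma holB_desc (hp : IsGalois Γ p) (M : Subgroup Γ)
    {w : Chart n X → Cm n → Matrix (Fin n) (Fin n) ℂ} {N : ℕ} {F : E → Cm N} {B : ℝ}
    (hM : ∀ g ∈ M, ∀ y, F (g • y) = F y) (hF : HolB p w F B) :
    HolB (toX hp M) w (desc M F hM) B := by
  intro a e he
  obtain ⟨y, rfl⟩ := mk_surjective M a
  obtain ⟨f, h1, h2, h3⟩ := hF y e he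
  exact ⟨f, (eventually_mk hp M y).2 h1, h2, h3⟩

lemma reg_desc (hp : IsGalois Γ p) (M : Subgroup Γ) {N : ℕ} {F : E → Cm N}
    (hM : ∀ g ∈ M, ∀ y, F (g • y) = F y) (y : E) :
    Reg (n := n) (toX hp M) (desc M F hM) (mk M y) ↔ Reg (n := n) p F y := by
  constructor
  · intro h e f he hf
    exact h e f he ((eventually_mk hp M y).2 hf)
  · intro h e f he hf
    exact h e f he ((eventually_mk hp M y).1 hf)

/-- the Albanese data of `E / M`, `M` normal in `Γ` and contained in `K` -/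
theorem alb_desc [Nonempty E] (hp : IsGalois Γ p) (M : Subgroup Γ) [M.Normal]
    {w : Chart n X → Cm n → Matrix (Fin n) (Fin n) ℂ} {G K : Subgroup Γ} {N : ℕ}
    {F : E → Cm N} {c : Γ → Cm N} (hA : Alb p w G K F c) (hMK : M ≤ K) :
    Alb (Γ := Γ ⧸ M) (toX hp M) w (G.map (QuotientGroup.mk' M)) (K.map (QuotientGroup.mk' M))
      (desc M F fun g hg y => by
        obtain ⟨h1, h2⟩ := (hA.mem g).1 (hMK hg)
        rw [hA.equiv g h1, h2, add_zero]) (fun s => c s.out) := by
  have hKG : ∀ g ∈ K, g ∈ G := fun g hg => ((hA.mem g).1 hg).1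
  have hMG : ∀ g ∈ M, g ∈ G := fun g hg => hKG g (hMK hg)
  have hcM : ∀ g ∈ M, c g = 0 := fun g hg => ((hA.mem g).1 (hMK hg)).2
  have hout : ∀ g ∈ G, c ((g : Γ ⧸ M).out) = c g := by
    intro g hg
    obtain ⟨m, hm⟩ := QuotientGroup.mk_out_eq_mul M g
    rw [hm, alb_add hA g hg m (hMG m m.2), hcM m m.2, add_zero]
  have hmemG : ∀ g : Γ, ((g : Γ ⧸ M) ∈ G.map (QuotientGroup.mk' M)) ↔ g ∈ G := by
    intro g
    constructor
    · rintro ⟨g', hg', h1⟩
      have h2 : g'⁻¹ * g ∈ M := QuotientGroup.eq.1 h1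
      have h3 := G.mul_mem hg' (hMG _ h2)
      rwa [mul_inv_cancel_left] at h3
    · intro hg
      exact ⟨g, hg, rfl⟩
  constructor
  · have := hA.fi
    refine ⟨?_⟩
    have h1 := Subgroup.index_map_dvd (f := QuotientGroup.mk' M) G (QuotientGroup.mk'_surjective M)
    exact fun h0 => hA.fi.index_ne_zero (by rw [h0] at h1; exact zero_dvd_iff.1 h1)
  · obtain ⟨B, hB⟩ := hA.hol
    exact ⟨B, holB_desc hp M _ hB⟩
  · intro s hs a
    obtain ⟨y, rfl⟩ := mk_surjective M a
    obtain ⟨g, hg, rfl⟩ := hs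
    change F (g • y) = F y + c ((g : Γ ⧸ M).out)
    rw [hout g hg, hA.equiv g hg]
  · intro s
    obtain ⟨g, rfl⟩ := QuotientGroup.mk_surjective s
    rw [hmemG]
    constructor
    · rintro ⟨k, hk, h1⟩
      have h2 : k⁻¹ * g ∈ M := QuotientGroup.eq.1 h1
      have h3 := K.mul_mem hk (hMK h2)
      rw [mul_inv_cancel_left] at h3
      obtain ⟨h4, h5⟩ := (hA.mem g).1 h3
      exact ⟨h4, by rw [hout g h4, h5]⟩
    · rintro ⟨h1, h2⟩
      rw [hout g h1] at h2
      exact ⟨g, (hA.mem g).2 ⟨h1, h2⟩, rfl⟩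
  · intro R
    refine (hA.disc R).subset ?_
    rintro v ⟨⟨s, ⟨g, hg, rfl⟩, hv⟩, hR⟩
    refine ⟨⟨g, hg, ?_⟩, hR⟩
    rw [← hv]
    exact (hout g hg).symm
  · have h1 : (fun s : Γ ⧸ M => c s.out) '' (G.map (QuotientGroup.mk' M) : Set (Γ ⧸ M)) =
        c '' (G : Set Γ) := by
      ext v
      constructor
      · rintro ⟨s, ⟨g, hg, rfl⟩, hv⟩
        exact ⟨g, hg, by rw [← hv]; exact (hout g hg).symm⟩
      · rintro ⟨g, hg, hv⟩
        exact ⟨(g : Γ ⧸ M), ⟨g, hg, rfl⟩, by rw [← hv]; exact hout g hg⟩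
    rw [h1]; exact hA.span
  · intro G' hG' hle φ hφ s hs hc
    obtain ⟨g, rfl⟩ := QuotientGroup.mk_surjective s
    have hle' : G'.comap (QuotientGroup.mk' M) ≤ G := by
      intro a ha
      exact (hmemG a).1 (hle ha)
    have hfi : (G'.comap (QuotientGroup.mk' M)).FiniteIndex := by
      refine ⟨?_⟩
      rw [Subgroup.index_comap_of_surjective _ (QuotientGroup.mk'_surjective M)]
      exact hG'.index_ne_zero
    have hg : g ∈ G := hle' hs
    have h1 := hA.max _ hfi hle' (fun a => φ (a : Γ ⧸ M)) (fun a ha b hb => hφ _ ha _ hb) g hs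
      (by rw [← hout g hg]; exact hc)
    exact h1

/-- descent of Hilbert valued forms which are invariant under `M` -/
theorem hform_desc (hp : IsGalois Γ p) (M : Subgroup Γ) {R m : ℕ}
    {H : Type} [NormedAddCommGroup H] [InnerProductSpace ℂ H]
    {v : E → Chart n X → (Fin R → Cm n) → H} (hM : ∀ g ∈ M, ∀ y, v (g • y) = v y)
    (hv : H573.HForm n R m p H v) : H573.HForm n R m (toX hp M) H (desc M v hM) where
  hol a e he := by
    obtain ⟨y, rfl⟩ := mk_surjective M a
    obtain ⟨F, h1, h2⟩ := hv.hol y e he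
    exact ⟨F, h1, (eventually_mk hp M y).2 h2⟩
  change a e e' he he' := by
    obtain ⟨y, rfl⟩ := mk_surjective M a
    exact hv.change y e e' he he'
  det a e he := by
    obtain ⟨y, rfl⟩ := mk_surjective M a
    exact hv.det y e he
  inv a b e he hab := by
    obtain ⟨y, rfl⟩ := mk_surjective M a
    obtain ⟨y', rfl⟩ := mk_surjective M b
    exact hv.inv y y' e he hab

end

end Vale.Agent.P284.H885
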