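import Vale.Agent.P272.K.Inv.Chart

/-!
# P284, module COV (helper885), part 1: étale maps `π : Y → X` of complex manifolds

The charts of `Y` are exactly the charts `e ∘ f`, where `e` is a chart of `X` and `f` is a local
homeomorphism with `f = π` on the whole of `Y` (so its source is an open set on which `π` is
injective). `base π e'` is a chart of `X` with `e' = base π e' ∘ π`. Every object which is given by
its expressions in the charts of `X` is pulled back to `Y` by `e' ↦ base π e'`.
-/

open scoped Manifold ContDiff Topology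
open Filter Set

noncomputable section

namespace Vale.Agent.P284.H885

open Vale.Agent.P272.K

variable {n : ℕ} {X Y : Type} [TopologicalSpace X] [TopologicalSpace Y]

/-- `e'` is the chart `e ∘ π` of `Y`, on an open set on which `π` is a homeomorphism to its image
(contained in the domain of the chart `e` of `X`). -/
def IsBranch [ChartedSpace (Cm n) X] (π : Y → X) (e' : Chart n Y) (e : Chart n X) : Prop :=
  e ∈ atlas (Cm n) X ∧ ∃ f : OpenPartialHomeomorph Y X, ⇑f = π ∧ e' = f ≫ₕ e

variable (n) in
/-- `π : Y → X` is étale, and the charts of `Y` are exactly the charts `e ∘ π` -/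
structure Etale [ChartedSpace (Cm n) X] [ChartedSpace (Cm n) Y] (π : Y → X) : Prop where
  loc : IsLocalHomeomorph π
  mem_iff : ∀ e' : Chart n Y, e' ∈ atlas (Cm n) Y ↔ ∃ e, IsBranch π e' e

/-- the empty chart -/
def emptyChart (π : Y → X) (e' : Chart n Y) : Chart n X where
  toFun _ := 0
  invFun z := π (e'.symm z)
  source := ∅
  target := ∅
  map_source' _ h := h.elim
  map_target' _ h := h.elim
  left_inv' _ h := h.elim
  right_inv' _ h := h.elim
  open_source := isOpen_empty
  open_target := isOpen_empty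
  continuousOn_toFun := continuousOn_empty _
  continuousOn_invFun := continuousOn_empty _

open Classical in
/-- a chart of `X` with `e' = base π e' ∘ π` -/
def base [ChartedSpace (Cm n) X] (π : Y → X) (e' : Chart n Y) : Chart n X :=
  if h : ∃ e, IsBranch π e' e then h.choose else emptyChart π e'

section branch

variable [ChartedSpace (Cm n) X] {π : Y → X} {e' : Chart n Y} {e : Chart n X}

lemma IsBranch.apply (h : IsBranch π e' e) (y : Y) : e' y = e (π y) := by
  obtain ⟨-, f, hf, rfl⟩ := h
  rw [OpenPartialHomeomorph.trans_apply, hf]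

lemma IsBranch.source (h : IsBranch π e' e) {y : Y} (hy : y ∈ e'.source) : π y ∈ e.source := by
  obtain ⟨-, f, hf, rfl⟩ := h
  rw [OpenPartialHomeomorph.trans_source] at hy
  rw [← hf]; exact hy.2

lemma IsBranch.target (h : IsBranch π e' e) {z : Cm n} (hz : z ∈ e'.target) : z ∈ e.target := by
  obtain ⟨-, f, hf, rfl⟩ := h
  rw [OpenPartialHomeomorph.trans_target] at hz
  exact hz.1

lemma IsBranch.symm_apply (h : IsBranch π e' e) {z : Cm n} (hz : z ∈ e'.target) :
    π (e'.symm z) = e.symm z := by
  obtain ⟨-, f, hf, rfl⟩ := h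
  rw [OpenPartialHomeomorph.trans_target] at hz
  have h1 : (f ≫ₕ e).symm z = f.symm (e.symm z) := rfl
  rw [h1, ← hf]
  exact f.right_inv hz.2

lemma IsBranch.injOn (h : IsBranch π e' e) : InjOn π e'.source := by
  obtain ⟨-, f, hf, rfl⟩ := h
  rw [OpenPartialHomeomorph.trans_source, ← hf]
  exact f.injOn.mono inter_subset_left

end branch

/-- the complex structure of `Y` -/
@[reducible] def etaleCS [ChartedSpace (Cm n) X] {π : Y → X} (hπ : IsLocalHomeomorph π) :
    ChartedSpace (Cm n) Y where
  atlas := {e' | ∃ e, IsBranch π e' e}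
  chartAt y := (hπ y).choose ≫ₕ chartAt (Cm n) (π y)
  mem_chart_source y := by
    rw [OpenPartialHomeomorph.trans_source]
    refine ⟨(hπ y).choose_spec.1, ?_⟩
    have h1 : (hπ y).choose y = π y := by rw [← (hπ y).choose_spec.2]
    rw [mem_preimage, h1]
    exact mem_chart_source _ _
  chart_mem_atlas y := ⟨chartAt (Cm n) (π y), chart_mem_atlas _ _, (hπ y).choose,
    (hπ y).choose_spec.2.symm, rfl⟩

lemma etale_etaleCS [ChartedSpace (Cm n) X] {π : Y → X} (hπ : IsLocalHomeomorph π) :
    letI := etaleCS (n := n) hπ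
    Etale n π := by
  let := etaleCS (n := n) hπ
  exact ⟨hπ, fun e' => Iff.rfl⟩

section

variable [ChartedSpace (Cm n) X] [ChartedSpace (Cm n) Y] {π : Y → X} {e' e'' : Chart n Y}
  {e : Chart n X} {y : Y}

lemma Etale.base_spec (h : Etale n π) (he' : e' ∈ atlas (Cm n) Y) :
    IsBranch π e' (base π e') := by
  have h1 := (h.mem_iff e').1 he'
  unfold base
  rw [dif_pos h1]
  exact h1.choose_spec

lemma Etale.continuous (h : Etale n π) : Continuous π := h.loc.continuous

lemma Etale.at_base (h : Etale n π) (he : At e' y) : At (base π e') (π y) :=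
  ⟨(h.base_spec he.1).1, (h.base_spec he.1).source he.2⟩

lemma Etale.at_branch (h : IsBranch π e' e) (he : At e' y) : At e (π y) :=
  ⟨h.1, h.source he.2⟩

lemma Etale.apply_base (h : Etale n π) (he : At e' y) (y' : Y) : e' y' = base π e' (π y') :=
  (h.base_spec he.1).apply y'

lemma Etale.symm_base (h : Etale n π) (he : At e' y) {z : Cm n} (hz : z ∈ e'.target) :
    π (e'.symm z) = (base π e').symm z := (h.base_spec he.1).symm_apply hz

/-- every chart of `X` around `π y` lifts to a chart around `y` -/
lemma Etale.exists_branch (h : Etale n π) (he : At e (π y)) :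
    ∃ e' : Chart n Y, At e' y ∧ IsBranch π e' e := by
  obtain ⟨f, hf, hfπ⟩ := h.loc y
  have hb : IsBranch π (f ≫ₕ e) e := ⟨he.1, f, hfπ.symm, rfl⟩
  refine ⟨f ≫ₕ e, ⟨(h.mem_iff _).2 ⟨e, hb⟩, ?_⟩, hb⟩
  rw [OpenPartialHomeomorph.trans_source]
  refine ⟨hf, ?_⟩
  rw [mem_preimage, ← hfπ]
  exact he.2

omit [ChartedSpace (Cm n) Y] in
/-- the transition maps of `Y` are those of `X` -/
lemma IsBranch.transition {e₁ : Chart n X} (hb : IsBranch π e' e) (hb' : IsBranch π e'' e₁)
    {z : Cm n} (hz : z ∈ e'.target) : e'' (e'.symm z) = e₁ (e.symm z) := by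
  rw [hb'.apply, hb.symm_apply hz]

omit [ChartedSpace (Cm n) Y] in
lemma IsBranch.transition_eventually {e₁ : Chart n X} (hb : IsBranch π e' e)
    (hb' : IsBranch π e'' e₁) (hy : y ∈ e'.source) :
    (fun z => e'' (e'.symm z)) =ᶠ[𝓝 (e (π y))] fun z => e₁ (e.symm z) := by
  rw [← hb.apply]
  filter_upwards [e'.open_target.mem_nhds (e'.map_source hy)] with z hz
  exact hb.transition hb' hz

lemma IsBranch.jacM {e₁ : Chart n X} (hb : IsBranch π e' e) (hb' : IsBranch π e'' e₁)
    (hy : y ∈ e'.source) : jacM e' e'' y = jacM e e₁ (π y) := by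
  rw [jacM_eq, jacM_eq, hb.apply]
  exact jmat_congr (hb.transition_eventually hb' hy)

omit [ChartedSpace (Cm n) Y] in
lemma IsBranch.fderiv_transition {e₁ : Chart n X} (hb : IsBranch π e' e)
    (hb' : IsBranch π e'' e₁) (hy : y ∈ e'.source) :
    fderiv ℂ (fun z => e'' (e'.symm z)) (e' y) =
      fderiv ℂ (fun z => e₁ (e.symm z)) (e (π y)) := by
  rw [hb.apply]
  exact (hb.transition_eventually hb' hy).fderiv_eq

lemma Etale.jacM (h : Etale n π) (he : At e' y) (he' : At e'' y) :
    jacM e' e'' y = jacM (base π e') (base π e'') (π y) :=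
  (h.base_spec he.1).jacM (h.base_spec he'.1) he.2

lemma Etale.fderiv_transition (h : Etale n π) (he : At e' y) (he' : At e'' y) :
    fderiv ℂ (fun z => e'' (e'.symm z)) (e' y) =
      fderiv ℂ (fun z => base π e'' ((base π e').symm z)) (base π e' (π y)) :=
  (h.base_spec he.1).fderiv_transition (h.base_spec he'.1) he.2

omit [ChartedSpace (Cm n) Y] in
/-- two charts `e`, `e₁` of `X` with `e' = e ∘ π = e₁ ∘ π` have the same germ -/
lemma IsBranch.germ {e₁ : Chart n X} (hb : IsBranch π e' e) (hb' : IsBranch π e' e₁)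
    (hy : y ∈ e'.source) : (fun z => e₁ (e.symm z)) =ᶠ[𝓝 (e (π y))] fun z => z := by
  have h1 := hb.transition_eventually hb' hy
  refine h1.symm.trans ?_
  rw [← hb.apply]
  filter_upwards [e'.open_target.mem_nhds (e'.map_source hy)] with z hz
  exact e'.right_inv hz

lemma etale_isManifold (hX : IsManifold 𝓘(ℂ, Cm n) ω X) (h : Etale n π) :
    IsManifold 𝓘(ℂ, Cm n) ω Y := by
  refine isManifold_of_contDiffOn 𝓘(ℂ, Cm n) ω Y fun e' e'' he' he'' z hz => ?_
  have hz' : z ∈ (e'.symm ≫ₕ e'').source := by simpa using hz.1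
  rw [OpenPartialHomeomorph.trans_source] at hz'
  have hz1 : z ∈ e'.target := hz'.1
  have hz2 : e'.symm z ∈ e''.source := hz'.2
  have h1 : At e' (e'.symm z) := ⟨he', e'.map_target hz1⟩
  have h2 : At e'' (e'.symm z) := ⟨he'', hz2⟩
  have h3 := transition (h.at_base h1) (h.at_base h2)
  have h4 := (h.base_spec he').transition_eventually (h.base_spec he'') h1.2
  have h5 := h3.congr_of_eventuallyEq h4
  rw [← (h.base_spec he').apply, e'.right_inv hz1] at h5
  exact h5.contDiffWithinAt

end

end Vale.Agent.P284.H885
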