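import Vale.Agent.P284.H894.G.Defs
import Mathlib.Topology.Covering.Quotient

/-!
# P284, module COV (helper885), part 3: the quotients `E / G` of a Galois covering `p : E → X` with
group `Γ`, `G` a subgroup of `Γ`

* `IsGalois G (mk G : E → E / G)`;
* `toX hp G : E / G → X` is a local homeomorphism, and `E / G` is Hausdorff, connected, compact if `X`
  is Hausdorff, `E` is connected, `X` is compact and `G` has finite index;
* for `N` normal the group `Γ ⧸ N` acts on `E / N`, and `IsGalois (Γ ⧸ N) (toX hp N)`.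
-/

open scoped Topology Pointwise
open Topology
open Filter Set

noncomputable section

namespace Vale.Agent.P284.H885

open Vale.Agent.P284.H894.G

/-- `E / G` -/
def Quo (E : Type) {Γ : Type} [Group Γ] [MulAction Γ E] (G : Subgroup Γ) : Type :=
  Quotient (MulAction.orbitRel G E)

section

variable {X E Γ : Type} [TopologicalSpace X] [TopologicalSpace E] [Group Γ] [MulAction Γ E]

instance (G : Subgroup Γ) : TopologicalSpace (Quo E G) :=
  inferInstanceAs (TopologicalSpace (Quotient (MulAction.orbitRel G E)))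

/-- the projection `E → E / G` -/
def mk (G : Subgroup Γ) : E → Quo E G := Quotient.mk (MulAction.orbitRel G E)

lemma mk_isQuotientMap (G : Subgroup Γ) : IsQuotientMap (mk G : E → Quo E G) :=
  isQuotientMap_quotient_mk'

omit [TopologicalSpace E] in
lemma mk_surjective (G : Subgroup Γ) : Function.Surjective (mk G : E → Quo E G) :=
  Quotient.mk_surjective

omit [TopologicalSpace E] in
lemma mk_eq {G : Subgroup Γ} {y y' : E} : mk G y = mk G y' ↔ ∃ g ∈ G, g • y = y' := by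
  constructor
  · intro h
    have h1 : y ∈ MulAction.orbit G y' := Quotient.exact h
    obtain ⟨s, hs⟩ := h1
    refine ⟨((s : Γ))⁻¹, G.inv_mem s.2, ?_⟩
    rw [← hs]
    exact inv_smul_smul (s : Γ) (y' : E)
  · rintro ⟨s, hs, h⟩
    refine Quotient.sound (?_ : y ∈ MulAction.orbit G y')
    refine ⟨⟨s⁻¹, G.inv_mem hs⟩, ?_⟩
    change s⁻¹ • (y' : E) = y
    rw [← h, inv_smul_smul]

omit [TopologicalSpace E] in
lemma mk_smul {G : Subgroup Γ} {g : Γ} (hg : g ∈ G) (y : E) : mk G (g • y) = mk G y :=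
  (mk_eq.2 ⟨g, hg, rfl⟩).symm

variable {p : E → X}

lemma exists_inj (hp : IsGalois Γ p) (y : E) : ∃ U : Set E, IsOpen U ∧ y ∈ U ∧ InjOn p U := by
  obtain ⟨e, he, rfl⟩ := hp.cov.isLocalHomeomorph y
  exact ⟨e.source, e.open_source, he, e.injOn⟩

lemma map_smul (hp : IsGalois Γ p) (g : Γ) (y : E) : p (g • y) = p y :=
  ((hp.orb _ _).2 ⟨g, rfl⟩).symm

/-- a quotient covering map is Galois -/
lemma isGalois_of_quotient (h : IsQuotientCoveringMap p Γ) : IsGalois Γ p := by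
  refine ⟨h.isCoveringMap, h.surjective, fun s => ?_, fun s y hy => ?_, fun y y' => ?_⟩
  · exact h.toContinuousConstSMul.continuous_const_smul s
  · have := h.isCancelSMul
    exact IsCancelSMul.right_cancel s 1 y (by rw [hy, one_smul])
  · rw [h.apply_eq_iff_mem_orbit]
    constructor
    · rintro ⟨g, hg⟩
      refine ⟨g⁻¹, ?_⟩
      rw [← hg]
      exact inv_smul_smul g y'
    · rintro ⟨g, hg⟩
      refine ⟨g⁻¹, ?_⟩
      rw [← hg]
      exact inv_smul_smul g y

lemma isQuotientCoveringMap_mk (hp : IsGalois Γ p) (G : Subgroup Γ) :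
    IsQuotientCoveringMap (mk G : E → Quo E G) G := by
  refine (isQuotientCoveringMap_iff ..).2 ⟨mk_isQuotientMap G, ⟨fun s => ?_⟩, ?_, fun y => ?_⟩
  · exact hp.cont s
  · intro y y'
    rw [mk_eq]
    constructor
    · rintro ⟨s, hs, h⟩
      refine ⟨⟨s⁻¹, G.inv_mem hs⟩, ?_⟩
      change s⁻¹ • (y' : E) = y
      rw [← h, inv_smul_smul]
    · rintro ⟨s, hs⟩
      refine ⟨((s : Γ))⁻¹, G.inv_mem s.2, ?_⟩
      rw [← hs]
      exact inv_smul_smul (s : Γ) (y' : E)
  · obtain ⟨U, hU, hy, hinj⟩ := exists_inj hp (y : E)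
    refine ⟨U, hU.mem_nhds hy, ?_⟩
    rintro g ⟨_, ⟨x, hx, rfl⟩, hgx⟩
    have h3 : (g : Γ) • (x : E) = x := hinj hgx hx (map_smul hp _ _)
    exact Subtype.ext (hp.free _ _ h3)

/-- `E → E / G` is a Galois covering with group `G` -/
theorem isGalois_mk (hp : IsGalois Γ p) (G : Subgroup Γ) : IsGalois G (mk G : E → Quo E G) :=
  isGalois_of_quotient (isQuotientCoveringMap_mk hp G)

lemma isOpenMap_mk (hp : IsGalois Γ p) (G : Subgroup Γ) : IsOpenMap (mk G : E → Quo E G) :=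
  (isGalois_mk hp G).cov.isLocalHomeomorph.isOpenMap

/-- the map `E / G → X` induced by `p` -/
def toX (hp : IsGalois Γ p) (G : Subgroup Γ) : Quo E G → X :=
  Quotient.lift p (by
    intro y y' h
    obtain ⟨s, hs, h1⟩ := mk_eq.1 (Quotient.sound h : mk G y = mk G y')
    exact (hp.orb _ _).2 ⟨s, h1⟩)

@[simp] lemma toX_mk (hp : IsGalois Γ p) (G : Subgroup Γ) (y : E) : toX hp G (mk G y) = p y := rfl

lemma continuous_toX (hp : IsGalois Γ p) (G : Subgroup Γ) : Continuous (toX hp G) :=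
  (mk_isQuotientMap G).continuous_iff.2 hp.cov.continuous

lemma surjective_toX (hp : IsGalois Γ p) (G : Subgroup Γ) : Function.Surjective (toX hp G) :=
  fun x => by
    obtain ⟨y, hy⟩ := hp.surj x
    exact ⟨mk G y, hy⟩

lemma isLocalHomeomorph_toX (hp : IsGalois Γ p) (G : Subgroup Γ) :
    IsLocalHomeomorph (toX hp G) := by
  refine IsLocalHomeomorph.mk _ fun a => ?_
  obtain ⟨y, rfl⟩ := mk_surjective G a
  obtain ⟨f₁, h₁, hf₁⟩ := (isGalois_mk hp G).cov.isLocalHomeomorph y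
  obtain ⟨f₂, h₂, hf₂⟩ := hp.cov.isLocalHomeomorph y
  have ha : f₁ y = mk G y := by rw [← hf₁]
  refine ⟨f₁.symm.trans f₂, ?_, ?_⟩
  · rw [OpenPartialHomeomorph.trans_source]
    refine ⟨?_, ?_⟩
    · rw [← ha]; exact f₁.map_source h₁
    · rw [mem_preimage, ← ha, f₁.left_inv h₁]; exact h₂
  · intro b hb
    rw [OpenPartialHomeomorph.trans_source] at hb
    rw [OpenPartialHomeomorph.trans_apply, ← hf₂]
    have h3 : mk G (f₁.symm b) = b := by
      have := f₁.right_inv hb.1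
      rwa [← hf₁] at this
    conv_lhs => rw [← h3]
    rfl

lemma t2_quo [T2Space X] (hp : IsGalois Γ p) (G : Subgroup Γ) : T2Space (Quo E G) := by
  refine ⟨fun a b hab => ?_⟩
  obtain ⟨y, rfl⟩ := mk_surjective G a
  obtain ⟨y', rfl⟩ := mk_surjective G b
  by_cases h : p y = p y'
  · obtain ⟨γ, hγ⟩ := (hp.orb _ _).1 h
    have hγS : γ ∉ G := fun hs => hab (mk_eq.2 ⟨γ, hs, hγ⟩)
    obtain ⟨U, hU, hy, hinj⟩ := exists_inj hp (y : E)
    have hopen := isOpenMap_mk hp G
    have hU' : IsOpen ((fun x : E => γ⁻¹ • x) ⁻¹' U) := hU.preimage (hp.cont _)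
    refine ⟨mk G '' U, mk G '' ((fun x : E => γ⁻¹ • x) ⁻¹' U), hopen _ hU, hopen _ hU',
      ⟨y, hy, rfl⟩, ⟨y', ?_, rfl⟩, ?_⟩
    · change γ⁻¹ • (y' : E) ∈ U
      rw [← hγ, inv_smul_smul]
      exact hy
    · rw [Set.disjoint_left]
      rintro _ ⟨u, hu, rfl⟩ ⟨u', hu', hEq⟩
      obtain ⟨s, hs, h1⟩ := mk_eq.1 hEq
      have hu'' : γ⁻¹ • (u' : E) ∈ U := hu'
      have h2 : p (γ⁻¹ • (u' : E)) = p u := by
        rw [← h1, map_smul hp, map_smul hp]
      have h3 : γ⁻¹ • (u' : E) = u := hinj hu'' hu h2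
      have h4 : (s⁻¹ * γ⁻¹) • (u' : E) = u' := by
        rw [mul_smul, h3, ← h1, inv_smul_smul]
      have h5 := hp.free _ _ h4
      apply hγS
      have h6 : γ = s⁻¹ := by
        rw [mul_eq_one_iff_eq_inv, inv_inv] at h5
        exact h5.symm
      rw [h6]
      exact G.inv_mem hs
  · obtain ⟨A, B, hA, hB, hyA, hyB, hAB⟩ := t2_separation h
    exact ⟨toX hp G ⁻¹' A, toX hp G ⁻¹' B, hA.preimage (continuous_toX hp G),
      hB.preimage (continuous_toX hp G), hyA, hyB, hAB.preimage _⟩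

lemma connected_quo [ConnectedSpace E] (G : Subgroup Γ) : ConnectedSpace (Quo E G) :=
  (mk_isQuotientMap G).surjective.connectedSpace (mk_isQuotientMap G).continuous

/-- a compact subset of `E` whose translates cover `E` -/
lemma exists_fund [T2Space X] [CompactSpace X] (hp : IsGalois Γ p) :
    ∃ Q : Set E, IsCompact Q ∧ p '' Q = univ ∧ ∀ y, ∃ g : Γ, g • y ∈ Q := by
  have h1 : ∀ x : X, ∃ Q : Set E, IsCompact Q ∧ p '' Q ∈ 𝓝 x := by
    intro x
    obtain ⟨y, rfl⟩ := hp.surj x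
    obtain ⟨f, hf, hfp⟩ := hp.cov.isLocalHomeomorph y
    have h2 : f.target ∈ 𝓝 (p y) := by
      rw [hfp]; exact f.open_target.mem_nhds (f.map_source hf)
    obtain ⟨V, hV, hV1, hV2⟩ := local_compact_nhds h2
    refine ⟨f.symm '' V, hV2.image_of_continuousOn (f.continuousOn_symm.mono hV1), ?_⟩
    have h3 : p '' (f.symm '' V) = V := by
      rw [hfp, image_image]
      have : ∀ v ∈ V, f (f.symm v) = v := fun v hv => f.right_inv (hV1 hv)
      ext v
      constructor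
      · rintro ⟨u, hu, rfl⟩
        simpa only [this u hu] using hu
      · intro hv
        exact ⟨v, hv, this v hv⟩
    rw [h3]; exact hV
  choose Q hQ hQx using h1
  obtain ⟨t, ht⟩ := CompactSpace.elim_nhds_subcover (fun x => p '' Q x) hQx
  have h4 : p '' (⋃ x ∈ t, Q x) = univ := by
    rw [image_iUnion₂, ht]
    rfl
  refine ⟨⋃ x ∈ t, Q x, t.isCompact_biUnion fun x _ => hQ x, h4, fun y => ?_⟩
  have h5 : p y ∈ p '' (⋃ x ∈ t, Q x) := by rw [h4]; trivial
  obtain ⟨y', hy', h6⟩ := h5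
  obtain ⟨g, hg⟩ := (hp.orb y y').1 h6.symm
  exact ⟨g, by rwa [hg]⟩

/-- a compact subset of `E` whose translates by a subgroup of finite index cover `E` -/
lemma exists_fund_fi [T2Space X] [CompactSpace X] (hp : IsGalois Γ p) (G : Subgroup Γ)
    (hG : G.FiniteIndex) : ∃ Q : Set E, IsCompact Q ∧ ∀ y, ∃ g ∈ G, g • y ∈ Q := by
  obtain ⟨Q, hQ, -, hQ'⟩ := exists_fund hp
  have : Finite (Γ ⧸ G) := inferInstance
  have := Fintype.ofFinite (Γ ⧸ G)
  refine ⟨⋃ q : Γ ⧸ G, (fun y : E => (q.out)⁻¹ • y) '' Q,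
    isCompact_iUnion fun q => hQ.image (hp.cont _), fun y => ?_⟩
  obtain ⟨g, hg⟩ := hQ' y
  refine ⟨((g : Γ ⧸ G).out)⁻¹ * g, ?_, ?_⟩
  · rw [← QuotientGroup.eq]
    exact QuotientGroup.out_eq' _
  · rw [mem_iUnion]
    refine ⟨(g : Γ ⧸ G), g • y, hg, ?_⟩
    rw [mul_smul]

lemma compact_quo [T2Space X] [CompactSpace X] (hp : IsGalois Γ p) (G : Subgroup Γ)
    (hG : G.FiniteIndex) : CompactSpace (Quo E G) := by
  obtain ⟨Q, hQ, hQ'⟩ := exists_fund_fi hp G hG
  have h2 : mk G '' Q = univ := by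
    refine eq_univ_of_forall fun a => ?_
    obtain ⟨y, rfl⟩ := mk_surjective G a
    obtain ⟨s, hs, h3⟩ := hQ' y
    exact ⟨s • (y : E), h3, mk_smul hs y⟩
  exact ⟨h2 ▸ hQ.image (mk_isQuotientMap G).continuous⟩

/-- `E / G → X` is a covering if `G` has finite index -/
lemma isCoveringMap_toX [T2Space X] [CompactSpace X] (hp : IsGalois Γ p) (G : Subgroup Γ)
    (hG : G.FiniteIndex) : IsCoveringMap (toX hp G) := by
  have := t2_quo hp G
  have := compact_quo hp G hG
  exact isLocalHomeomorph_iff_isCoveringMap.1 (isLocalHomeomorph_toX hp G)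

/-! ### normal subgroups -/

/-- the action of `Γ ⧸ N` on `E / N` -/
instance quoAction (N : Subgroup Γ) [N.Normal] : MulAction (Γ ⧸ N) (Quo E N) where
  smul q a := Quotient.liftOn₂ q a (fun g y => mk N (g • y)) (by
    intro g y g' y' hg hy
    have hg1 : g⁻¹ * g' ∈ N := QuotientGroup.leftRel_apply.1 hg
    obtain ⟨s, hs, h1⟩ := mk_eq.1 (Quotient.sound hy : mk N y = mk N y')
    refine mk_eq.2 ⟨g' * s * g⁻¹, ?_, ?_⟩
    · have h2 : g' * s * g⁻¹ = (g' * s * g'⁻¹) * (g * (g⁻¹ * g') * g⁻¹) := by group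
      rw [h2]
      exact N.mul_mem (‹N.Normal›.conj_mem s hs g') (‹N.Normal›.conj_mem _ hg1 g)
    · rw [← mul_smul, inv_mul_cancel_right, mul_smul, h1])
  one_smul a := by
    obtain ⟨y, rfl⟩ := mk_surjective N a
    change mk N ((1 : Γ) • y) = mk N y
    rw [one_smul]
  mul_smul q r a := by
    obtain ⟨y, rfl⟩ := mk_surjective N a
    obtain ⟨g, rfl⟩ := QuotientGroup.mk_surjective q
    obtain ⟨h, rfl⟩ := QuotientGroup.mk_surjective r
    change mk N ((g * h) • y) = mk N (g • h • y)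
    rw [mul_smul]

omit [TopologicalSpace E] in
lemma quo_smul_mk (N : Subgroup Γ) [N.Normal] (g : Γ) (y : E) :
    ((g : Γ ⧸ N)) • mk N y = mk N (g • y) := rfl

lemma isQuotientCoveringMap_toX (hp : IsGalois Γ p) (N : Subgroup Γ) [N.Normal] :
    IsQuotientCoveringMap (toX hp N) (Γ ⧸ N) := by
  have hq : IsQuotientMap (toX hp N) :=
    (isLocalHomeomorph_toX hp N).isOpenMap.isQuotientMap (continuous_toX hp N) (surjective_toX hp N)
  refine (isQuotientCoveringMap_iff ..).2 ⟨hq, ⟨fun s => ?_⟩, ?_, fun a => ?_⟩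
  · obtain ⟨g, rfl⟩ := QuotientGroup.mk_surjective s
    refine (mk_isQuotientMap N).continuous_iff.2 ?_
    exact (mk_isQuotientMap N).continuous.comp (hp.cont g)
  · intro a b
    obtain ⟨y, rfl⟩ := mk_surjective N a
    obtain ⟨y', rfl⟩ := mk_surjective N b
    rw [toX_mk, toX_mk, hp.orb]
    constructor
    · rintro ⟨g, hg⟩
      refine ⟨((g⁻¹ : Γ) : Γ ⧸ N), ?_⟩
      change mk N (g⁻¹ • y') = mk N y
      rw [← hg, inv_smul_smul]
    · rintro ⟨q, hq⟩
      obtain ⟨g, rfl⟩ := QuotientGroup.mk_surjective q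
      have h1 : mk N (g • y') = mk N y := hq
      obtain ⟨s, hs, h2⟩ := mk_eq.1 h1
      refine ⟨(s * g)⁻¹, ?_⟩
      rw [← h2, ← mul_smul s g y', inv_smul_smul]
  · obtain ⟨y, rfl⟩ := mk_surjective N a
    obtain ⟨U, hU, hy, hinj⟩ := exists_inj hp (y : E)
    refine ⟨mk N '' U, (isOpenMap_mk hp N _ hU).mem_nhds ⟨y, hy, rfl⟩, ?_⟩
    rintro q ⟨_, ⟨_, ⟨u, hu, rfl⟩, rfl⟩, ⟨u', hu', h1⟩⟩
    obtain ⟨g, rfl⟩ := QuotientGroup.mk_surjective q
    have h2 : mk N u' = mk N (g • u) := h1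
    obtain ⟨s, hs, h3⟩ := mk_eq.1 h2
    have h4 : p u' = p u := by rw [← map_smul hp s u', h3, map_smul hp]
    have h5 : u' = u := hinj hu' hu h4
    rw [h5] at h3
    have h6 : g⁻¹ * s = 1 := hp.free _ u (by rw [mul_smul, h3, inv_smul_smul])
    rw [QuotientGroup.eq_one_iff]
    have h7 : g = s := (inv_mul_eq_one.1 h6)
    rw [h7]; exact hs

/-- `E / N → X` is a Galois covering with group `Γ ⧸ N` -/
theorem isGalois_toX (hp : IsGalois Γ p) (N : Subgroup Γ) [N.Normal] :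
    IsGalois (Γ ⧸ N) (toX hp N) := isGalois_of_quotient (isQuotientCoveringMap_toX hp N)

/-- functions on `E` which are invariant under `G` descend to `E / G` -/
def desc {α : Sort*} (G : Subgroup Γ) (F : E → α) (hF : ∀ g ∈ G, ∀ y, F (g • y) = F y) :
    Quo E G → α :=
  Quotient.lift F (by
    intro y y' h
    obtain ⟨s, hs, h1⟩ := mk_eq.1 (Quotient.sound h : mk G y = mk G y')
    rw [← h1, hF s hs])

omit [TopologicalSpace E] in
@[simp] lemma desc_mk {α : Sort*} (G : Subgroup Γ) (F : E → α)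
    (hF : ∀ g ∈ G, ∀ y, F (g • y) = F y) (y : E) : desc G F hF (mk G y) = F y := rfl

lemma nhds_mk (hp : IsGalois Γ p) (G : Subgroup Γ) (y : E) : 𝓝 (mk G y) = map (mk G) (𝓝 y) :=
  ((isGalois_mk hp G).cov.isLocalHomeomorph.map_nhds_eq y).symm

lemma eventually_mk (hp : IsGalois Γ p) (G : Subgroup Γ) (y : E) {P : Quo E G → Prop} :
    (∀ᶠ a in 𝓝 (mk G y), P a) ↔ ∀ᶠ y' in 𝓝 y, P (mk G y') := by
  rw [nhds_mk hp, eventually_map]

end

end Vale.Agent.P284.H885
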