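import Vale.Agent.P284.H885.Ker1
import Vale.Agent.P284.H494.PerL

/-!
# P284 (helper885), (H3) kernel remark: generic fibres

`Θ` is a relative holomorphic 1-form on the regular points of `F : E → ℂ^q`, equivariant under `Γ`, with
potentials along the fibres. For `t` outside a meagre set no element `k ≠ 1` of `K` acts trivially on
the values of `Θ` along the fibre `E_t`.
-/

open scoped Manifold ContDiff Topology InnerProductSpace ComplexConjugate
open Filter Set Metric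

noncomputable section

namespace Vale.Agent.P284.H885.Ker

open Vale.Agent.P272.K Vale.Agent.P284.H894.G Vale.Agent.P284.H894.V Vale.Agent.P284.H894.W
  Vale.Agent.P284.H213.Grp Vale.Agent.P284.H619

theorem countable_of_fg {A : Type*} [Group A] (h : Group.FG A) : Countable A := by
  obtain ⟨S, hS, hfin⟩ := Group.fg_iff.1 h
  have : Countable S := hfin.countable
  have h1 : Function.Surjective (FreeGroup.lift (fun s : S => (s : A))) := by
    rw [← MonoidHom.range_eq_top, FreeGroup.range_lift_eq_closure, Subtype.range_coe, hS]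
  have : Countable (FreeGroup S) := by
    unfold FreeGroup
    infer_instance
  exact h1.countable

section
variable {n q : ℕ} {X : Type} [TopologicalSpace X] [ChartedSpace (Cm n) X]
  {E Γ : Type} [TopologicalSpace E] [Group Γ] [MulAction Γ E] {p : E → X}
  {w : Chart n X → Cm n → Matrix (Fin n) (Fin n) ℂ} {B : ℝ} {F : E → Cm q} {c : Γ → Cm q}
  {K : Subgroup Γ} {W : Type} [NormedAddCommGroup W] [InnerProductSpace ℂ W] [CompleteSpace W]

/-- `Θ` is a relative holomorphic 1-form on the regular points of `F`: only the values of `Θ y e` on the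
vertical vectors matter. -/
structure RelT (p : E → X) (F : E → Cm q) (W : Type) [NormedAddCommGroup W]
    [InnerProductSpace ℂ W] (Θ : E → Chart n X → (Cm n →L[ℂ] W)) : Prop where
  hol : ∀ y e, Reg (n := n) p F y → At e (p y) → ∃ A : Cm n → (Cm n →L[ℂ] W),
    AnalyticAt ℂ A (e (p y)) ∧ ∀ᶠ y' in 𝓝 y, ∀ ξ ∈ VS p F y' e, Θ y' e ξ = A (e (p y')) ξ
  change : ∀ y e e', Reg (n := n) p F y → At e (p y) → At e' (p y) → ∀ ξ ∈ VS p F y e,
    Θ y e ξ = Θ y e' (fderiv ℂ (fun z => e' (e.symm z)) (e (p y)) ξ)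

/-- the regular points where `π k` fixes the values of `Θ` on vertical vectors -/
def Fix (p : E → X) (F : E → Cm q) (π : Γ →* (W ≃ₗᵢ[ℂ] W))
    (Θ : E → Chart n X → (Cm n →L[ℂ] W)) (k : Γ) : Set E :=
  {y | Reg (n := n) p F y ∧ ∀ e, At e (p y) → ∀ ξ ∈ VS p F y e, π k (Θ y e ξ) = Θ y e ξ}

/-- vertical vectors in two charts -/
theorem vs_change [IsManifold 𝓘(ℂ, Cm n) ω X] (hp : IsCoveringMap p) (hF : HolB p w F B) {y : E}
    {e e' : Chart n X} (he : At e (p y)) (he' : At e' (p y)) {ξ : Cm n} (hξ : ξ ∈ VS p F y e) :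
    fderiv ℂ (fun z => e' (e.symm z)) (e (p y)) ξ ∈ VS p F y e' := by
  obtain ⟨f', h1, h2⟩ := H221.holB_an hF y he'
  rw [mem_VS hp he' h2]
  have h3 : ∀ᶠ y' in 𝓝 y, F y' = (fun z => f' (e' (e.symm z))) (e (p y')) := by
    filter_upwards [h2, (hp.continuous.continuousAt).eventually (e.open_source.mem_nhds he.2)]
      with y' a b
    show F y' = f' (e' (e.symm (e (p y'))))
    rw [e.left_inv b, a]
  have h4 := (mem_VS hp he (f := fun z => f' (e' (e.symm z))) h3).1 hξ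
  have h0 : e' (e.symm (e (p y))) = e' (p y) := by rw [e.left_inv he.2]
  have hd : DifferentiableAt ℂ f' (e' (e.symm (e (p y)))) := by
    rw [h0]; exact h1.differentiableAt
  have h5 : fderiv ℂ (fun z => f' (e' (e.symm z))) (e (p y)) =
      (fderiv ℂ f' (e' (e.symm (e (p y))))).comp (fderiv ℂ (fun z => e' (e.symm z)) (e (p y))) :=
    fderiv_comp (g := f') (f := fun z => e' (e.symm z)) _ hd (transition_differentiableAt he he')
  rw [h5, h0] at h4
  exact h4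

/-- local description of `Fix` -/
theorem loc_fix [IsManifold 𝓘(ℂ, Cm n) ω X] (hp : IsGalois Γ p) (hF : HolB p w F B)
    {Θ : E → Chart n X → (Cm n →L[ℂ] W)} (hΘ : RelT p F W Θ) (π : Γ →* (W ≃ₗᵢ[ℂ] W)) (k : Γ)
    {y₀ : E} (hy₀ : Reg (n := n) p F y₀) {e : Chart n X} (he : At e (p y₀)) :
    ∃ G : Cm n → (Cm n →L[ℂ] W), AnalyticAt ℂ G (e (p y₀)) ∧ ∀ᶠ y in 𝓝 y₀,
      Reg (n := n) p F y ∧ At e (p y) ∧ (y ∈ Fix p F π Θ k ↔ G (e (p y)) = 0) := by
  obtain ⟨f, hf1, hf2⟩ := H221.holB_an hF y₀ he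
  obtain ⟨A, hA1, hA2⟩ := hΘ.hol y₀ e hy₀ he
  obtain ⟨P, hP1, hP2⟩ := vert_proj hf1 (hy₀ e f he hf2)
  set L : W →L[ℂ] W := ((π k).toLinearIsometry.toContinuousLinearMap) -
    ContinuousLinearMap.id ℂ W with hL
  have hLv : ∀ v, L v = π k v - v := fun v => rfl
  have hcomp : AnalyticAt ℂ (fun z => (A z).comp (P z)) (e (p y₀)) := by
    have h0 : AnalyticAt ℂ (fun x : (Cm n →L[ℂ] W) × (Cm n →L[ℂ] Cm n) => x.1.comp x.2)
        (A (e (p y₀)), P (e (p y₀))) :=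
      (ContinuousLinearMap.compL ℂ (Cm n) (Cm n) W).analyticAt_bilinear _
    exact AnalyticAt.comp (f := fun z => (A z, P z)) h0 (hA1.prod hP1)
  refine ⟨fun z => L.comp ((A z).comp (P z)),
    ((ContinuousLinearMap.compL ℂ (Cm n) W W L).analyticAt _).comp hcomp, ?_⟩
  have hAt : ∀ᶠ y in 𝓝 y₀, At e (p y) := by
    filter_upwards [(hp.cov.continuous.continuousAt).eventually (e.open_source.mem_nhds he.2)]
      with y hy
    exact ⟨he.1, hy⟩
  have hP3 : ∀ᶠ y in 𝓝 y₀, (∀ ξ, fderiv ℂ f (e (p y)) (P (e (p y)) ξ) = 0) ∧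
      ∀ ξ, fderiv ℂ f (e (p y)) ξ = 0 → P (e (p y)) ξ = ξ :=
    (H221.ev_iff' hp.cov he (Q := fun z => (∀ ξ, fderiv ℂ f z (P z ξ) = 0) ∧
      ∀ ξ, fderiv ℂ f z ξ = 0 → P z ξ = ξ)).2 hP2
  have hreg := (H10.reg_open (n := n) hp.cov hF).mem_nhds hy₀
  filter_upwards [hAt, hP3, hreg, hf2.eventually_nhds, hA2] with y a1 a2 a3 a4 a5
  refine ⟨a3, a1, ?_⟩
  have hVS : ∀ ξ, ξ ∈ VS p F y e ↔ fderiv ℂ f (e (p y)) ξ = 0 := fun ξ => mem_VS hp.cov a1 a4
  constructor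
  · rintro ⟨-, h2⟩
    ext1 ξ
    have h3 : P (e (p y)) ξ ∈ VS p F y e := (hVS _).2 (a2.1 ξ)
    have h4 := h2 e a1 _ h3
    rw [a5 _ h3] at h4
    show L (A (e (p y)) (P (e (p y)) ξ)) = 0
    rw [hLv, h4, sub_self]
  · intro h2
    refine ⟨a3, fun e' he' ξ' hξ' => ?_⟩
    have h3 := vs_change hp.cov hF he' a1 hξ'
    rw [hΘ.change y e' e a3 he' a1 ξ' hξ', a5 _ h3]
    set η := fderiv ℂ (fun z => e (e'.symm z)) (e' (p y)) ξ'
    have h4 : P (e (p y)) η = η := a2.2 η ((hVS η).1 h3)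
    have h5 : L (A (e (p y)) (P (e (p y)) η)) = 0 := congrArg (fun M => M η) h2
    rw [h4, hLv, sub_eq_zero] at h5
    exact h5

/-- `Fix` is closed in the set of regular points -/
theorem fix_closed [IsManifold 𝓘(ℂ, Cm n) ω X] (hp : IsGalois Γ p) (hF : HolB p w F B)
    {Θ : E → Chart n X → (Cm n →L[ℂ] W)} (hΘ : RelT p F W Θ) (π : Γ →* (W ≃ₗᵢ[ℂ] W)) (k : Γ)
    {y₀ : E} (hy₀ : Reg (n := n) p F y₀) (hcl : y₀ ∈ closure (Fix p F π Θ k)) :
    y₀ ∈ Fix p F π Θ k := by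
  have he : At (chartAt (Cm n) (p y₀) : Chart n X) (p y₀) :=
    ⟨chart_mem_atlas _ _, mem_chart_source _ _⟩
  obtain ⟨G, hG, hev⟩ := loc_fix hp hF hΘ π k hy₀ he
  refine (hev.self_of_nhds.2.2).2 ?_
  have h1 : Tendsto (fun y => G ((chartAt (Cm n) (p y₀) : Chart n X) (p y))) (𝓝 y₀)
      (𝓝 (G ((chartAt (Cm n) (p y₀) : Chart n X) (p y₀)))) :=
    hG.continuousAt.tendsto.comp (H221.map_ep' hp.cov he).le
  have h2 : ∃ᶠ y in 𝓝 y₀, G ((chartAt (Cm n) (p y₀) : Chart n X) (p y)) = 0 := by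
    have h3 := mem_closure_iff_frequently.1 hcl
    exact (h3.and_eventually hev).mono fun y hy => (hy.2.2.2).1 hy.1
  by_contra h4
  exact h2 (h1.eventually_ne h4)

/-- identity theorem -/
theorem fix_ident [IsManifold 𝓘(ℂ, Cm n) ω X] (hp : IsGalois Γ p) (hF : HolB p w F B)
    (hconn : IsPreconnected {y : E | Reg (n := n) p F y})
    {Θ : E → Chart n X → (Cm n →L[ℂ] W)} (hΘ : RelT p F W Θ) (π : Γ →* (W ≃ₗᵢ[ℂ] W)) (k : Γ)
    (hne : (interior (Fix p F π Θ k)).Nonempty) :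
    ∀ y, Reg (n := n) p F y → y ∈ Fix p F π Θ k := by
  have h1 : {y : E | Reg (n := n) p F y} ⊆ interior (Fix p F π Θ k) := by
    refine hconn.subset_of_closure_inter_subset isOpen_interior ?_ ?_
    · obtain ⟨y, hy⟩ := hne
      exact ⟨y, (interior_subset hy).1, hy⟩
    · rintro y₀ ⟨hcl, hy₀⟩
      have he : At (chartAt (Cm n) (p y₀) : Chart n X) (p y₀) :=
        ⟨chart_mem_atlas _ _, mem_chart_source _ _⟩
      set e : Chart n X := chartAt (Cm n) (p y₀) with hedef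
      obtain ⟨G, hG, hev⟩ := loc_fix hp hF hΘ π k hy₀ he
      obtain ⟨r, hr, hball⟩ := Metric.eventually_nhds_iff_ball.1 hG.eventually_analyticAt
      have h2 : ∀ᶠ y in 𝓝 y₀, e (p y) ∈ ball (e (p y₀)) r :=
        (H221.ev_iff' hp.cov he (Q := fun z => z ∈ ball (e (p y₀)) r)).2 (ball_mem_nhds _ hr)
      obtain ⟨N, hN1, hN2, hN3⟩ := _root_.eventually_nhds_iff.1 (hev.and h2)
      obtain ⟨y₁, hy₁N, hy₁⟩ := mem_closure_iff.1 hcl N hN2 hN3
      have hy₁' := hN1 y₁ hy₁N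
      have h3 : ∀ᶠ z in 𝓝 (e (p y₁)), G z = 0 := by
        rw [← H221.ev_iff' hp.cov hy₁'.1.2.1]
        filter_upwards [hN2.mem_nhds hy₁N, isOpen_interior.mem_nhds hy₁] with y h4 h5
        exact ((hN1 y h4).1.2.2).1 (interior_subset h5)
      have h4 : EqOn G 0 (ball (e (p y₀)) r) :=
        AnalyticOnNhd.eqOn_zero_of_preconnected_of_eventuallyEq_zero
          (fun z hz => hball z hz) (convex_ball _ _).isPreconnected hy₁'.2 h3
      refine mem_interior.2 ⟨N, fun y hy => ?_, hN2, hN3⟩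
      exact ((hN1 y hy).1.2.2).2 (h4 (hN1 y hy).2)
  exact fun y hy => interior_subset (h1 hy)

omit [Group Γ] [MulAction Γ E] in
/-- `F` is open at the regular points -/
theorem reg_map (hp : IsCoveringMap p) (hF : HolB p w F B) {y : E}
    (hy : Reg (n := n) p F y) : map F (𝓝 y) = 𝓝 (F y) := by
  have he : At (chartAt (Cm n) (p y) : Chart n X) (p y) :=
    ⟨chart_mem_atlas _ _, mem_chart_source _ _⟩
  obtain ⟨f, hf1, hf2⟩ := H221.holB_an hF y he
  have h1 : Function.Surjective (fderiv ℂ f ((chartAt (Cm n) (p y) : Chart n X) (p y))) :=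
    hy _ f he hf2
  have h2 := hf1.hasStrictFDerivAt.map_nhds_eq_of_surj (LinearMap.range_eq_top.2 h1)
  rw [← H221.map_ep' hp he, Filter.map_map] at h2
  have h3 : map F (𝓝 y) = map (f ∘ fun y' => (chartAt (Cm n) (p y) : Chart n X) (p y')) (𝓝 y) :=
    Filter.map_congr hf2
  rw [h3, h2, hf2.self_of_nhds]

theorem reg_conn [IsManifold 𝓘(ℂ, Cm n) ω X] [ConnectedSpace E] (hp : IsCoveringMap p)
    (hF : HolB p w F B) (hex : ∃ y, Reg (n := n) p F y) :
    IsPreconnected {y : E | Reg (n := n) p F y} := by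
  rcases Nat.eq_zero_or_pos q with h0 | h0
  · subst h0
    have : {y : E | Reg (n := n) p F y} = univ := by
      ext y
      simp only [mem_univ, iff_true]
      intro e f _ _ v
      exact ⟨0, Subsingleton.elim _ _⟩
    rw [this]
    exact isPreconnected_univ
  · exact H494.reg_preconnected h0 hp hF hex

/-- **(H3) Kernel remark, generic fibres.** -/
theorem ker_generic [T2Space X] [CompactSpace X] [IsManifold 𝓘(ℂ, Cm n) ω X] [ConnectedSpace E]
    (hp : IsGalois Γ p) (hF : HolB p w F B) (hFe : ∀ g y, F (g • y) = F y + c g)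
    (hK : NPkg Γ q c K) {T : Set (Cm q)} (hTc : IsClosed T) (hT : interior T = ∅)
    (hfib : ∀ t ∉ T, IsConnected (F ⁻¹' {t}) ∧ ∀ y, F y = t → Reg (n := n) p F y)
    (π : Γ →* (W ≃ₗᵢ[ℂ] W)) {Θ : E → Chart n X → (Cm n →L[ℂ] W)} (hΘ : RelT p F W Θ)
    (hequi : ∀ g y e, Reg (n := n) p F y → At e (p y) → ∀ ξ ∈ VS p F y e,
      Θ (g • y) e ξ = π g (Θ y e ξ))
    (hpot : Dense {t | t ∉ T ∧ ∃ u : E → W, VPot p F t W Θ u ∧
      ∀ k ∈ K, ∃ b : W, ∀ y, F y = t → u (k • y) = π k (u y) + b})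
    (hne : ∃ y e, Reg (n := n) p F y ∧ At e (p y) ∧ ∃ ξ ∈ VS p F y e, Θ y e ξ ≠ 0) :
    ∃ M : Set (Cm q), IsMeagre M ∧ T ⊆ M ∧ ∀ t ∉ M, ∀ k ∈ K,
      (∀ y e, F y = t → At e (p y) → ∀ ξ ∈ VS p F y e, π k (Θ y e ξ) = Θ y e ξ) → k = 1 := by
  classical
  have hPer : H494.Per p w F c := ⟨⟨B, hF⟩, hFe, hK.lat.disc⟩
  have hFc : Continuous F := H221.holB_cont hp.cov hF
  obtain ⟨y₁, e₁, hy₁, he₁, ξ₁, hξ₁, hne₁⟩ := hne
  have hconn : IsPreconnected {y : E | Reg (n := n) p F y} := reg_conn hp.cov hF ⟨y₁, hy₁⟩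
  have hVSg : ∀ (g : Γ) (y : E) (e : Chart n X), At e (p y) → ∀ ξ, ξ ∈ VS p F y e →
      ξ ∈ VS p F (g • y) e := by
    intro g y e he ξ hξ
    obtain ⟨f, h1, h2⟩ := H221.holB_an hF y he
    have h3 : ∀ᶠ y' in 𝓝 (g • y), F y' = (fun z => f z + c g) (e (p y')) := by
      have h4 : Tendsto (fun y' => g⁻¹ • y') (𝓝 (g • y)) (𝓝 y) := by
        have := (hp.cont g⁻¹).tendsto (g • y)
        simpa using this
      filter_upwards [h4.eventually h2] with y' hy'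
      have h5 := hFe g (g⁻¹ • y')
      rw [smul_inv_smul] at h5
      rw [h5, hy', H10.p_smul' hp]
    rw [mem_VS hp.cov (by rw [H10.p_smul' hp]; exact he) (f := fun z => f z + c g) h3,
      H10.p_smul' hp, fderiv_add_const]
    exact (mem_VS hp.cov he h2).1 hξ
  -- the generic kernel
  let N₀ : Subgroup Γ :=
    { carrier := {k | k ∈ K ∧ ∀ y, Reg (n := n) p F y → y ∈ Fix p F π Θ k}
      mul_mem' := by
        rintro a b ⟨ha, ha'⟩ ⟨hb, hb'⟩
        refine ⟨K.mul_mem ha hb, fun y hy => ⟨hy, fun e he ξ hξ => ?_⟩⟩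
        rw [map_mul]
        show π a (π b (Θ y e ξ)) = Θ y e ξ
        rw [(hb' y hy).2 e he ξ hξ, (ha' y hy).2 e he ξ hξ]
      one_mem' := ⟨K.one_mem, fun y hy => ⟨hy, fun e he ξ hξ => by rw [map_one]; rfl⟩⟩
      inv_mem' := by
        rintro a ⟨ha, ha'⟩
        refine ⟨K.inv_mem ha, fun y hy => ⟨hy, fun e he ξ hξ => ?_⟩⟩
        have h1 := (ha' y hy).2 e he ξ hξ
        have h2 : π a⁻¹ (π a (Θ y e ξ)) = Θ y e ξ := by
          have h3 : (π a⁻¹ * π a) (Θ y e ξ) = Θ y e ξ := by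
            rw [← map_mul, inv_mul_cancel, map_one]; rfl
          exact h3
        rw [h1] at h2
        exact h2 }
  have hN₀ : ∀ k, k ∈ N₀ ↔ k ∈ K ∧ ∀ y, Reg (n := n) p F y → y ∈ Fix p F π Θ k := fun k => Iff.rfl
  have hnormal : N₀.Normal := by
    refine ⟨fun k hk g => ?_⟩
    rw [hN₀] at hk ⊢
    refine ⟨hK.normal.conj_mem k hk.1 g, fun y hy => ⟨hy, fun e he ξ hξ => ?_⟩⟩
    have hy' : Reg (n := n) p F (g⁻¹ • y) := (hPer.reg_smul_iff hp g⁻¹ y).2 hy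
    have he' : At e (p (g⁻¹ • y)) := by rw [H10.p_smul' hp]; exact he
    have hξ' : ξ ∈ VS p F (g⁻¹ • y) e := hVSg g⁻¹ y e he ξ hξ
    have h1 := (hk.2 _ hy').2 e he' ξ hξ'
    have h2 : Θ y e ξ = π g (Θ (g⁻¹ • y) e ξ) := by
      rw [← hequi g (g⁻¹ • y) e hy' he' ξ hξ', smul_inv_smul]
    have h3 : π (g * k * g⁻¹) (π g (Θ (g⁻¹ • y) e ξ)) = π g (π k (Θ (g⁻¹ • y) e ξ)) := by
      have h4 : (π (g * k * g⁻¹) * π g) (Θ (g⁻¹ • y) e ξ) = (π g * π k) (Θ (g⁻¹ • y) e ξ) := by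
        rw [← map_mul, ← map_mul]
        congr 2
        group
      exact h4
    rw [h2, h3, h1]
  have hle : N₀ ≤ K := fun k hk => hk.1
  -- the generic kernel is trivial
  have hbot : N₀ = ⊥ := by
    by_contra hb
    have hfi := hK.just N₀ hnormal hle hb
    -- nonzero values near `y₁`
    obtain ⟨f, hf1, hf2⟩ := H221.holB_an hF y₁ he₁
    obtain ⟨A, hA1, hA2⟩ := hΘ.hol y₁ e₁ hy₁ he₁
    obtain ⟨P, hP1, hP2⟩ := vert_proj hf1 (hy₁ e₁ f he₁ hf2)
    have hVS₁ : ∀ ξ, ξ ∈ VS p F y₁ e₁ ↔ fderiv ℂ f (e₁ (p y₁)) ξ = 0 :=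
      fun ξ => mem_VS hp.cov he₁ hf2
    have h1 : ∀ᶠ y in 𝓝 y₁, A (e₁ (p y)) (P (e₁ (p y)) ξ₁) ≠ 0 := by
      have h2 : ContinuousAt (fun z => A z (P z ξ₁)) (e₁ (p y₁)) :=
        hA1.continuousAt.clm_apply (hP1.continuousAt.clm_apply continuousAt_const)
      have h3 : A (e₁ (p y₁)) (P (e₁ (p y₁)) ξ₁) ≠ 0 := by
        rw [hP2.self_of_nhds.2 ξ₁ ((hVS₁ ξ₁).1 hξ₁), ← hA2.self_of_nhds ξ₁ hξ₁]
        exact hne₁
      exact (H221.ev_iff' hp.cov he₁ (Q := fun z => A z (P z ξ₁) ≠ 0)).2 (h2.eventually_ne h3)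
    have hP3 : ∀ᶠ y in 𝓝 y₁, fderiv ℂ f (e₁ (p y)) (P (e₁ (p y)) ξ₁) = 0 :=
      (H221.ev_iff' hp.cov he₁ (Q := fun z => fderiv ℂ f z (P z ξ₁) = 0)).2
        (hP2.mono fun z hz => hz.1 ξ₁)
    have hAt : ∀ᶠ y in 𝓝 y₁, At e₁ (p y) := by
      filter_upwards [(hp.cov.continuous.continuousAt).eventually
        (e₁.open_source.mem_nhds he₁.2)] with y hy
      exact ⟨he₁.1, hy⟩
    have h2 : ∀ᶠ y in 𝓝 y₁, At e₁ (p y) ∧ ∃ ξ ∈ VS p F y e₁, Θ y e₁ ξ ≠ 0 := by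
      filter_upwards [hAt, hP3, hf2.eventually_nhds, hA2, h1] with y a1 a2 a3 a4 a5
      have h3 : P (e₁ (p y)) ξ₁ ∈ VS p F y e₁ := (mem_VS hp.cov a1 a3).2 a2
      exact ⟨a1, _, h3, by rw [a4 _ h3]; exact a5⟩
    have h3 : F '' {y | At e₁ (p y) ∧ ∃ ξ ∈ VS p F y e₁, Θ y e₁ ξ ≠ 0} ∈ 𝓝 (F y₁) := by
      rw [← reg_map hp.cov hF hy₁]
      exact image_mem_map h2
    obtain ⟨t, ht1, ⟨y, ⟨hy, ξ, hξ, hΘne⟩, hyt⟩⟩ := (hpot.inter_nhds_nonempty h3)
    obtain ⟨htT, u, hu1, hu2⟩ := ht1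
    refine hΘne (ker_fin hp hF hFe hK (hfib t htT).1 (hfib t htT).2 π hu1 hu2 hle hfi ?_ y e₁
      hyt hy ξ hξ)
    intro k hk y' e' hy' he' ξ' hξ'
    exact (((hN₀ k).1 hk).2 y' ((hfib t htT).2 y' hy')).2 e' he' ξ' hξ'
  -- the bad sets
  set S : K → Set (Cm q) := fun k => {t | t ∉ T ∧ (k : Γ) ≠ 1 ∧ ∀ y, F y = t →
    y ∈ Fix p F π Θ (k : Γ)} with hS
  have hSn : ∀ k : K, IsNowhereDense (S k) := by
    intro k
    by_cases hk1 : (k : Γ) = 1
    · have : S k = ∅ := by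
        refine eq_empty_of_forall_notMem fun t ht => ht.2.1 hk1
      rw [this]
      exact isNowhereDense_empty
    by_contra hnd
    have h1 : (interior (closure (S k))).Nonempty := nonempty_iff_ne_empty.2 hnd
    -- `S k` is closed in the complement of `T`
    have hcl : ∀ t, t ∉ T → t ∈ closure (S k) → ∀ y, F y = t → y ∈ Fix p F π Θ (k : Γ) := by
      intro t htT htc y hyt
      have hyr := (hfib t htT).2 y hyt
      refine fix_closed hp hF hΘ π k hyr ?_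
      rw [_root_.mem_closure_iff_nhds]
      intro V hV
      have h2 : F '' V ∈ 𝓝 t := by
        rw [← hyt, ← reg_map hp.cov hF hyr]
        exact image_mem_map hV
      obtain ⟨t', ht'1, ht'2⟩ := mem_closure_iff_nhds.1 htc _ h2
      obtain ⟨y', hy'1, hy'2⟩ := ht'1
      exact ⟨y', hy'1, ht'2.2.2 y' hy'2⟩
    have hTd : Dense Tᶜ := interior_eq_empty_iff_dense_compl.1 hT
    obtain ⟨t, ht1, ht2⟩ := hTd.inter_open_nonempty _ isOpen_interior h1
    obtain ⟨y, hy⟩ := (hfib t ht2).1.nonempty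
    have hyt : F y = t := hy
    have h2 : (interior (Fix p F π Θ (k : Γ))).Nonempty := by
      refine ⟨y, mem_interior.2 ⟨F ⁻¹' (interior (closure (S k)) ∩ Tᶜ), ?_,
        (isOpen_interior.inter hTc.isOpen_compl).preimage hFc, ?_⟩⟩
      · rintro y' ⟨h3, h4⟩
        exact hcl (F y') h4 (interior_subset h3) y' rfl
      · show F y ∈ interior (closure (S k)) ∩ Tᶜ
        rw [hyt]
        exact ⟨ht1, ht2⟩
    have h3 : (k : Γ) ∈ N₀ := (hN₀ _).2 ⟨k.2, fix_ident hp hF hconn hΘ π k h2⟩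
    rw [hbot] at h3
    exact hk1 h3
  have : Countable K := countable_of_fg hK.fg
  refine ⟨T ∪ ⋃ k : K, S k, ?_, subset_union_left, ?_⟩
  · refine IsMeagre.union ?_ (isMeagre_iUnion fun k => (hSn k).isMeagre)
    refine IsNowhereDense.isMeagre ?_
    rw [IsNowhereDense, hTc.closure_eq, hT]
  · intro t ht k hk hfix
    by_contra hk1
    apply ht
    have htT : t ∉ T := fun h => ht (Or.inl h)
    refine Or.inr (mem_iUnion.2 ⟨⟨k, hk⟩, htT, hk1, fun y hyt => ⟨(hfib t htT).2 y hyt, ?_⟩⟩)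
    intro e he ξ hξ
    exact hfix y e hyt he ξ hξ

end

end Vale.Agent.P284.H885.Ker
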