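import Vale.Agent.P284.H885.Dom
import Vale.Agent.P284.H573.HForm
import Vale.Agent.P284.H998.ZS
import Vale.Agent.P284.H894.W.Spec

/-!
# P284, module COV (helper885), part 5: transport of tensors on `E`, of projective immersions and of
the Albanese data

The situation: `p : E → X`, `q : E → Y`, `π : Y → X` étale, `π ∘ q = p`. A tensor on `E` with respect
to `X` is a function `v : E → Chart n X → …`; the same tensor with respect to `Y` is
`fun y e' => v y (base π e')`.
-/

open scoped Manifold ContDiff Topology ComplexOrder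
open Filter Set Metric

noncomputable section

namespace Vale.Agent.P284.H885

open Vale.Agent.P272.K Vale.Agent.P284.H894.G Vale.Agent.P284.H894.W

variable {n : ℕ} {X Y : Type} [TopologicalSpace X] [TopologicalSpace Y]
  [ChartedSpace (Cm n) X] [ChartedSpace (Cm n) Y] {π : Y → X}

/-- the differential of a change between two charts with the same composition with `π` -/
lemma Etale.fderiv_base (h : Etale n π) {e' : Chart n Y} {e : Chart n X} (hb : IsBranch π e' e)
    {y : Y} (he : At e' y) :
    fderiv ℂ (fun z => e ((base π e').symm z)) (base π e' (π y)) =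
      ContinuousLinearMap.id ℂ (Cm n) := by
  rw [((h.base_spec he.1).germ hb he.2).fderiv_eq]
  exact fderiv_fun_id

/-- holomorphic functions on `X` -/
lemma Etale.holAt (h : Etale n π) {F : Type*} [NormedAddCommGroup F] [NormedSpace ℂ F]
    {g : X → F} {y : Y} (hg : P299.H908.HolAt n g (π y)) :
    P299.H908.HolAt n (fun y => g (π y)) y := by
  intro e' he
  have h1 := hg _ (h.at_base he)
  rw [← h.apply_base he] at h1
  refine h1.congr ?_
  filter_upwards [he.nhds_target] with z hz
  rw [h.symm_base he hz]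

/-- the pull-back of a projective immersion -/
def Etale.pj (h : Etale n π) {ι : Type} [Fintype ι] (P : H998.PJ n X ι) : H998.PJ n Y ι where
  Z y := P.Z (π y)
  ne y := P.ne (π y)
  opn i := (P.opn i).preimage h.continuous
  hol y i hi j := h.holAt (P.hol (π y) i hi j)
  imm e' y he i hi v hv := by
    refine P.imm _ _ (h.at_base he) i hi v fun j => ?_
    rw [← h.apply_base he, ← hv j]
    congr 1
    refine Filter.EventuallyEq.fderiv_eq ?_
    filter_upwards [he.nhds_target] with z hz
    rw [h.symm_base he hz]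

section tensors

variable {E : Type} [TopologicalSpace E] {p : E → X} {q : E → Y}

/-- a tensor (any value, with a change of charts) does not depend on the choice of the chart `e` with
`e' = e ∘ π` -/
lemma Etale.tensor_base (h : Etale n π) {α : Type*} {k : ℕ} {v : Chart n X → (Fin k → Cm n) → α}
    {e' : Chart n Y} {e : Chart n X} (hb : IsBranch π e' e) {y : Y} (he : At e' y)
    (hv : ∀ ξ, v (base π e') ξ =
      v e (fun i => fderiv ℂ (fun z => e ((base π e').symm z)) (base π e' (π y)) (ξ i)))
    (ξ : Fin k → Cm n) : v (base π e') ξ = v e ξ := by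
  rw [hv, h.fderiv_base hb he]
  rfl

/-- transport of Hilbert valued forms: from `(E, X)` to `(E, Y)` -/
theorem Etale.hform (h : Etale n π) (hpq : ∀ y, π (q y) = p y) {R m : ℕ}
    {H : Type} [NormedAddCommGroup H] [InnerProductSpace ℂ H]
    {v : E → Chart n X → (Fin R → Cm n) → H}
    (hol : ∀ y e, At e (p y) → ∃ F : Cm n × (Fin R → Cm n) → H,
      (∀ ξ, AnalyticAt ℂ F (e (p y), ξ)) ∧ ∀ᶠ y' in 𝓝 y, ∀ ξ, v y' e ξ = F (e (p y'), ξ))
    (change : ∀ y e e', At e (p y) → At e' (p y) → ∀ ξ, v y e ξ =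
      v y e' (fun i => fderiv ℂ (fun z => e' (e.symm z)) (e (p y)) (ξ i)))
    (det : ∀ y e, At e (p y) → ∀ (A : Matrix (Fin R) (Fin R) ℂ) (ξ : Fin R → Cm n),
      v y e (fun i => ∑ j, A i j • ξ j) = A.det ^ m • v y e ξ)
    (inv : ∀ y y₁ e, At e (p y) → q y = q y₁ → ∀ ξ, ‖v y e ξ‖ = ‖v y₁ e ξ‖) :
    H573.HForm n R m q H (fun y e' ξ => v y (base π e') ξ) where
  hol y e' he := by
    have hb := h.at_base he
    rw [hpq] at hb
    obtain ⟨F, hF, hF'⟩ := hol y _ hb
    refine ⟨F, fun ξ => ?_, ?_⟩
    · rw [h.apply_base he, hpq]; exact hF ξ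
    · filter_upwards [hF'] with y' hy' ξ
      rw [hy' ξ, h.apply_base he, hpq]
  change y e' e'' he he' ξ := by
    have hb := h.at_base he
    have hb' := h.at_base he'
    rw [hpq] at hb hb'
    rw [change y _ _ hb hb' ξ, h.fderiv_transition he he', hpq]
  det y e' he A ξ := by
    have hb := h.at_base he
    rw [hpq] at hb
    exact det y _ hb A ξ
  inv y y₁ e' he hy ξ := by
    have hb := h.at_base he
    rw [hpq] at hb
    exact inv y y₁ _ hb hy ξ

theorem Etale.hform' (h : Etale n π) (hpq : ∀ y, π (q y) = p y) {R m : ℕ}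
    {H : Type} [NormedAddCommGroup H] [InnerProductSpace ℂ H]
    {v : E → Chart n X → (Fin R → Cm n) → H} (hv : H573.HForm n R m p H v) :
    H573.HForm n R m q H (fun y e' ξ => v y (base π e') ξ) :=
  h.hform hpq hv.hol hv.change hv.det fun y y₁ e he hy ξ =>
    hv.inv y y₁ e he (by rw [← hpq, ← hpq, hy]) ξ

/-- transport of good points -/
theorem Etale.goodAt (h : Etale n π) (hq : Continuous q) (hpq : ∀ y, π (q y) = p y) {R m : ℕ}
    {H : Type} [NormedAddCommGroup H] [InnerProductSpace ℂ H]
    {v : E → Chart n X → (Fin R → Cm n) → H}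
    (change : ∀ y e e', At e (p y) → At e' (p y) → ∀ ξ, v y e ξ =
      v y e' (fun i => fderiv ℂ (fun z => e' (e.symm z)) (e (p y)) (ξ i))) {y₀ : E}
    (hg : H573.GoodAt p R m v y₀) :
    H573.GoodAt q R m (fun y e' ξ => v y (base π e') ξ) y₀ := by
  obtain ⟨e, b, γ, hN⟩ := hg
  have hmem := hN.mem
  rw [← hpq] at hmem
  obtain ⟨e', he', hb⟩ := h.exists_branch hmem
  have h1 : ∀ y, e' (q y) = e (p y) := fun y => by rw [hb.apply, hpq]
  refine ⟨e', b, γ, ?_, ?_, ?_, ?_, ?_, ?_⟩
  · exact he'
  · rw [h1]; exact hN.ban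
  · rw [h1]; exact hN.bsurj
  · rw [h1]; exact hN.γan
  · rw [h1]; exact hN.imm
  · filter_upwards [hN.nf, hq.continuousAt.eventually (e'.open_source.mem_nhds he'.2)]
      with y hy hys ξ
    have he2 : At e' (q y) := ⟨he'.1, hys⟩
    have hb1 := h.at_base he2
    have hb2 : At e (p y) := by rw [← hpq]; exact Etale.at_branch hb he2
    rw [hpq] at hb1
    have h2 := h.tensor_base (v := v y) hb he2 (fun ξ => by
      rw [hpq]; exact change y _ _ hb1 hb2 ξ) ξ
    show v y (base π e') ξ = _
    rw [h2, hy ξ, h1]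

/-- transport of holomorphic maps with bounded derivative -/
theorem Etale.holB (h : Etale n π) (hpq : ∀ y, π (q y) = p y)
    {w : Chart n X → Cm n → Matrix (Fin n) (Fin n) ℂ} {N : ℕ} {F : E → Cm N} {B : ℝ}
    (hF : HolB p w F B) : HolB q (pull π w) F B := by
  intro y e' he
  have hb := h.at_base he
  rw [hpq] at hb
  obtain ⟨f, h1, h2, h3⟩ := hF y _ hb
  refine ⟨f, ?_, ?_, ?_⟩
  · filter_upwards [h1] with y' hy'
    rw [hy', h.apply_base he, hpq]
  · rw [h.apply_base he, hpq]; exact h2
  · rw [h.apply_base he, hpq]; exact h3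

/-- transport of regular points -/
theorem Etale.reg_iff (h : Etale n π) (hpq : ∀ y, π (q y) = p y)
    {N : ℕ} {F : E → Cm N} {y : E} : Reg (n := n) q F y ↔ Reg (n := n) p F y := by
  constructor
  · intro hR e f he hf
    rw [← hpq] at he
    obtain ⟨e', he', hb⟩ := h.exists_branch he
    have h1 : ∀ y, e' (q y) = e (p y) := fun y => by rw [hb.apply, hpq]
    have h2 := hR e' f he' (by filter_upwards [hf] with y' hy'; rw [hy', h1])
    rwa [h1] at h2
  · intro hR e' f he hf
    have hb := h.at_base he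
    rw [hpq] at hb
    have h2 := hR _ f hb (by filter_upwards [hf] with y' hy'; rw [hy', h.apply_base he, hpq])
    rw [h.apply_base he, hpq]
    exact h2

/-- transport of the Albanese data to the finite covering `Y = E / G` -/
theorem Etale.alb (h : Etale n π) (hpq : ∀ y, π (q y) = p y) {Γ : Type} [Group Γ] [MulAction Γ E]
    {w : Chart n X → Cm n → Matrix (Fin n) (Fin n) ℂ} {G K : Subgroup Γ} {N : ℕ}
    {F : E → Cm N} {c : Γ → Cm N} (hA : Alb p w G K F c) :
    Alb (Γ := G) q (pull π w) ⊤ (K.subgroupOf G) F (fun g => c g) where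
  fi := inferInstance
  hol := by
    obtain ⟨B, hB⟩ := hA.hol
    exact ⟨B, h.holB hpq hB⟩
  equiv g _ y := hA.equiv g g.2 y
  mem g := by
    rw [Subgroup.mem_subgroupOf, hA.mem]
    simp
  disc R := by
    refine (hA.disc R).subset ?_
    rintro v ⟨⟨g, -, hg⟩, hR⟩
    exact ⟨⟨g, g.2, hg⟩, hR⟩
  span := by
    have h1 : (fun g : G => c g) '' ((⊤ : Subgroup G) : Set G) = c '' (G : Set Γ) := by
      ext v
      constructor
      · rintro ⟨g, -, hg⟩
        exact ⟨g, g.2, hg⟩
      · rintro ⟨g, hg, hv⟩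
        exact ⟨⟨g, hg⟩, trivial, hv⟩
    rw [h1]; exact hA.span
  max := by
    classical
    intro G' hG' _ φ hφ g hg hc
    have := hA.fi
    have hfi : (G'.map G.subtype).FiniteIndex := by
      have h2 := Subgroup.index_map_subtype G'
      refine ⟨?_⟩
      rw [h2]
      exact mul_ne_zero hG'.index_ne_zero hA.fi.index_ne_zero
    have h3 := hA.max (G'.map G.subtype) hfi (by
      rintro _ ⟨g, -, rfl⟩; exact g.2)
      (fun g => if hg : g ∈ G then φ ⟨g, hg⟩ else 0) (by
        rintro _ ⟨a, ha, rfl⟩ _ ⟨b, hb, rfl⟩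
        have h4 : (G.subtype a * G.subtype b) ∈ G := (a * b).2
        have h5 : G.subtype a ∈ G := a.2
        have h6 : G.subtype b ∈ G := b.2
        rw [dif_pos h4, dif_pos h5, dif_pos h6]
        exact hφ a ha b hb) (G.subtype g) ⟨g, hg, rfl⟩ hc
    have h5 : G.subtype g ∈ G := g.2
    rw [dif_pos h5] at h3
    exact h3

end tensors

end Vale.Agent.P284.H885
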