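import Vale.Agent.P284.H885.Pull
import Vale.Agent.P284.H885.Quo
import Mathlib.Topology.Homotopy.Lifting
import Mathlib.Analysis.Convex.Contractible
import Mathlib.Analysis.Analytic.Uniqueness
import Mathlib.Analysis.Calculus.ContDiff.Basic

/-!
# P284, module COV (helper885), part 4: domination by `ℂᴺ`, in the form which lifts to coverings
-/

open scoped Manifold ContDiff Topology
open Filter Set Metric

noncomputable section

namespace Vale.Agent.P284.H885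

open Vale.Agent.P272.K Vale.Agent.P284.H894.G

/-- `X` is dominated by `ℂᴺ`: every nonempty open set contains the value `Φ ζ` of a holomorphic map
`Φ : ℂᴺ → X` which is a submersion at `ζ`. -/
def Dom (N n : ℕ) (X : Type) [TopologicalSpace X] [ChartedSpace (Cm n) X] : Prop :=
  ∀ U : Set X, IsOpen U → U.Nonempty → ∃ Φ : Cm N → X, ContMDiff 𝓘(ℂ, Cm N) 𝓘(ℂ, Cm n) ω Φ ∧
    ∃ ζ, Φ ζ ∈ U ∧ Function.Surjective (mfderiv 𝓘(ℂ, Cm N) 𝓘(ℂ, Cm n) Φ ζ)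

/-- lift of a map `ℂᴺ → X` to a covering, through a given point -/
theorem exists_lift_at {X E : Type} [TopologicalSpace X] [TopologicalSpace E] {p : E → X}
    (hp : IsCoveringMap p) {N : ℕ} {Φ : Cm N → X} (hΦ : Continuous Φ) {y : E} {ζ : Cm N}
    (hy : p y = Φ ζ) : ∃ Φl : Cm N → E, Continuous Φl ∧ (∀ z, p (Φl z) = Φ z) ∧ Φl ζ = y := by
  obtain ⟨F, hF, -⟩ := hp.existsUnique_continuousMap_lifts ⟨Φ, hΦ⟩ ζ y hy
  exact ⟨F, F.continuous, fun z => congrFun hF.2 z, hF.1⟩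

variable {n N : ℕ} {X : Type} [TopologicalSpace X] [ChartedSpace (Cm n) X]

/-- domination, lifted to a covering space -/
theorem Dom.lift (hD : Dom N n X) {E : Type} [TopologicalSpace E] {p : E → X}
    (hp : IsCoveringMap p) (U : Set E) (hU : IsOpen U) (hne : U.Nonempty) :
    ∃ (Φ : Cm N → X) (Φl : Cm N → E) (ζ : Cm N), ContMDiff 𝓘(ℂ, Cm N) 𝓘(ℂ, Cm n) ω Φ ∧
      Continuous Φl ∧ (∀ z, p (Φl z) = Φ z) ∧ Φl ζ ∈ U ∧
      Function.Surjective (mfderiv 𝓘(ℂ, Cm N) 𝓘(ℂ, Cm n) Φ ζ) := by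
  obtain ⟨Φ, hΦ, ζ, ⟨y, hy, hyζ⟩, hs⟩ := hD (p '' U) (hp.isLocalHomeomorph.isOpenMap U hU)
    (hne.image p)
  obtain ⟨Φl, h1, h2, h3⟩ := exists_lift_at hp hΦ.continuous hyζ
  exact ⟨Φ, Φl, ζ, hΦ, h1, h2, by rwa [h3], hs⟩

/-- domination lifts to étale coverings -/
theorem Dom.etale [IsManifold 𝓘(ℂ, Cm n) ω X] (hD : Dom N n X) {Y : Type} [TopologicalSpace Y]
    [ChartedSpace (Cm n) Y] [IsManifold 𝓘(ℂ, Cm n) ω Y] {π : Y → X} (h : Etale n π)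
    (hp : IsCoveringMap π) : Dom N n Y := by
  intro U hU hne
  obtain ⟨Φ, Φl, ζ, hΦ, h1, h2, h3, h4⟩ := hD.lift hp U hU hne
  have h5 : (fun t => π (Φl t)) = Φ := funext h2
  have h6 : ContMDiff 𝓘(ℂ, Cm N) 𝓘(ℂ, Cm n) ω Φl :=
    h.contMDiff_of_comp h1 (by rw [h5]; exact hΦ)
  refine ⟨Φl, h6, ζ, h3, ?_⟩
  rw [← h.surjective_iff ((h6 ζ).mdifferentiableAt (by simp)), h5]
  exact h4

/-! ### dense range -/

/-- rank of a map to `X` in a chart -/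
lemma surj_mfderiv_iff [IsManifold 𝓘(ℂ, Cm n) ω X] {Φ : Cm N → X} {ζ : Cm N}
    (hΦ : MDifferentiableAt 𝓘(ℂ, Cm N) 𝓘(ℂ, Cm n) Φ ζ) {e : Chart n X} (he : At e (Φ ζ)) :
    Function.Surjective (mfderiv 𝓘(ℂ, Cm N) 𝓘(ℂ, Cm n) Φ ζ) ↔
      Function.Surjective (fderiv ℂ (fun z => e (Φ z)) ζ) := by
  have h1 : MDifferentiableAt 𝓘(ℂ, Cm n) 𝓘(ℂ, Cm n) e (Φ ζ) :=
    (chart_contMDiffAt he).mdifferentiableAt (by simp)
  have h2 : fderiv ℂ (fun z => e (Φ z)) ζ = (mfderiv 𝓘(ℂ, Cm n) 𝓘(ℂ, Cm n) e (Φ ζ)).comp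
      (mfderiv 𝓘(ℂ, Cm N) 𝓘(ℂ, Cm n) Φ ζ) := by
    rw [← mfderiv_eq_fderiv]
    exact mfderiv_comp ζ (g := e) h1 hΦ
  have h3 : Function.Bijective (mfderiv 𝓘(ℂ, Cm n) 𝓘(ℂ, Cm n) e (Φ ζ)) := by
    have h4 : MDifferentiableAt 𝓘(ℂ, Cm n) 𝓘(ℂ, Cm n) e.symm (e (Φ ζ)) :=
      (chart_symm_contMDiffAt he.1 he.mem_target).mdifferentiableAt (by simp)
    constructor
    · have h5 : (fun x => e.symm (e x)) =ᶠ[𝓝 (Φ ζ)] id := by
        filter_upwards [e.open_source.mem_nhds he.2] with x hx using e.left_inv hx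
      have h6 : mfderiv 𝓘(ℂ, Cm n) 𝓘(ℂ, Cm n) (fun x => e.symm (e x)) (Φ ζ) =
          ContinuousLinearMap.id ℂ _ := by rw [h5.mfderiv_eq]; exact mfderiv_id
      have h7 := mfderiv_comp (Φ ζ) (g := e.symm) h4 h1
      have h8 : ∀ v, mfderiv 𝓘(ℂ, Cm n) 𝓘(ℂ, Cm n) e.symm (e (Φ ζ))
          (mfderiv 𝓘(ℂ, Cm n) 𝓘(ℂ, Cm n) e (Φ ζ) v) = v := fun v =>
        (congrArg (fun L => L v) h7).symm.trans (congrArg (fun L => L v) h6)
      exact Function.LeftInverse.injective h8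
    · have h1' : MDifferentiableAt 𝓘(ℂ, Cm n) 𝓘(ℂ, Cm n) e (e.symm (e (Φ ζ))) := by
        rw [he.left_inv]; exact h1
      have h5 : (fun z => e (e.symm z)) =ᶠ[𝓝 (e (Φ ζ))] id := by
        filter_upwards [he.nhds_target] with z hz using e.right_inv hz
      have h6 : mfderiv 𝓘(ℂ, Cm n) 𝓘(ℂ, Cm n) (fun z => e (e.symm z)) (e (Φ ζ)) =
          ContinuousLinearMap.id ℂ _ := by rw [h5.mfderiv_eq]; exact mfderiv_id
      have h7 := mfderiv_comp (e (Φ ζ)) (g := e) (f := e.symm) h1' h4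
      intro v
      refine ⟨mfderiv 𝓘(ℂ, Cm n) 𝓘(ℂ, Cm n) e.symm (e (Φ ζ)) v, ?_⟩
      have h13 : mfderiv 𝓘(ℂ, Cm n) 𝓘(ℂ, Cm n) e (e.symm (e (Φ ζ)))
          (mfderiv 𝓘(ℂ, Cm n) 𝓘(ℂ, Cm n) e.symm (e (Φ ζ)) v) = v :=
        (congrArg (fun L => L v) h7).symm.trans (congrArg (fun L => L v) h6)
      have h14 : ∀ y₂, y₂ = Φ ζ → (mfderiv 𝓘(ℂ, Cm n) 𝓘(ℂ, Cm n) e y₂ : Cm n → Cm n)
        = mfderiv 𝓘(ℂ, Cm n) 𝓘(ℂ, Cm n) e (Φ ζ) := by
        rintro y₂ rfl; rfl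
      rw [← h14 _ he.left_inv]
      exact h13
  rw [h2]
  constructor
  · intro hs
    exact h3.2.comp hs
  · intro hs v
    obtain ⟨u, hu⟩ := hs (mfderiv 𝓘(ℂ, Cm n) 𝓘(ℂ, Cm n) e (Φ ζ) v)
    exact ⟨u, h3.1 hu⟩

lemma surj_iff_exists_det {L : Cm N →L[ℂ] Cm n} :
    Function.Surjective L ↔ ∃ B : Cm n →L[ℂ] Cm N, (L.comp B).det ≠ 0 := by
  constructor
  · intro h
    obtain ⟨B, hB⟩ := (L : Cm N →ₗ[ℂ] Cm n).exists_rightInverse_of_surjective
      (LinearMap.range_eq_top.2 h)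
    refine ⟨LinearMap.toContinuousLinearMap B, ?_⟩
    have h1 : L.comp (LinearMap.toContinuousLinearMap B) = ContinuousLinearMap.id ℂ (Cm n) := by
      ext1 v
      exact LinearMap.congr_fun hB v
    rw [h1]
    simp [ContinuousLinearMap.det]
  · rintro ⟨B, hB⟩
    have h1 : IsUnit (L.comp B : Cm n →ₗ[ℂ] Cm n) := by
      rw [LinearMap.isUnit_iff_isUnit_det]
      exact isUnit_iff_ne_zero.2 hB
    have h2 : Function.Surjective (L.comp B) := ((Module.End.isUnit_iff _).1 h1).2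
    exact Function.Surjective.of_comp (g := B) h2

/-- the points of maximal rank are dense -/
theorem dense_rank [IsManifold 𝓘(ℂ, Cm n) ω X] {Φ : Cm N → X}
    (hΦ : ContMDiff 𝓘(ℂ, Cm N) 𝓘(ℂ, Cm n) ω Φ)
    (h : ∃ ζ, Function.Surjective (mfderiv 𝓘(ℂ, Cm N) 𝓘(ℂ, Cm n) Φ ζ)) :
    Dense {ζ | Function.Surjective (mfderiv 𝓘(ℂ, Cm N) 𝓘(ℂ, Cm n) Φ ζ)} := by
  set R : Set (Cm N) := {ζ | Function.Surjective (mfderiv 𝓘(ℂ, Cm N) 𝓘(ℂ, Cm n) Φ ζ)} with hR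
  -- `Z` : the interior of the complement
  set Z : Set (Cm N) := interior Rᶜ with hZ
  -- local statement
  have key : ∀ ζ : Cm N, ∃ V ∈ 𝓝 ζ, IsOpen V ∧ (∀ a ∈ V, a ∈ Z → V ⊆ Z) := by
    intro ζ
    set e := chartAt (Cm n) (Φ ζ) with he
    have hAt : At e (Φ ζ) := ⟨chart_mem_atlas _ _, mem_chart_source _ _⟩
    have hO : IsOpen (Φ ⁻¹' e.source) := e.open_source.preimage hΦ.continuous
    obtain ⟨r, hr, hrs⟩ := Metric.isOpen_iff.1 hO ζ hAt.2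
    have hAt' : ∀ a ∈ ball ζ r, At e (Φ a) := fun a ha => ⟨hAt.1, hrs ha⟩
    have hg : ∀ a ∈ ball ζ r, AnalyticAt ℂ (fun z => e (Φ z)) a := by
      intro a ha
      have h1 : ContMDiffAt 𝓘(ℂ, Cm N) 𝓘(ℂ, Cm n) ω (fun z => e (Φ z)) a :=
        ContMDiffAt.comp a (g := e) (chart_contMDiffAt (hAt' a ha)) (hΦ a)
      exact (contMDiffAt_iff_contDiffAt.1 h1).analyticAt
    have hd : ∀ B : Cm n →L[ℂ] Cm N, AnalyticOnNhd ℂ
        (fun a => ((fderiv ℂ (fun z => e (Φ z)) a).comp B).det) (ball ζ r) := by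
      intro B a ha
      have h1 : AnalyticAt ℂ (fun a => (fderiv ℂ (fun z => e (Φ z)) a)) a := (hg a ha).fderiv
      have h2 : (fun a => ((fderiv ℂ (fun z => e (Φ z)) a).comp B).det) = fun a =>
          ∑ σ : Equiv.Perm (Fin n), (Equiv.Perm.sign σ : ℂ) *
            ∏ i, (fderiv ℂ (fun z => e (Φ z)) a) (B (Pi.single i 1)) (σ i) := by
        funext a
        rw [ContinuousLinearMap.det, ← LinearMap.det_toMatrix' , Matrix.det_apply']
        refine Finset.sum_congr rfl fun σ _ => ?_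
        rfl
      rw [h2]
      refine Finset.analyticAt_fun_sum _ fun σ _ => analyticAt_const.mul
        (Finset.analyticAt_fun_prod _ fun i _ => ?_)
      have h3 : AnalyticAt ℂ (fun a => (fderiv ℂ (fun z => e (Φ z)) a) (B (Pi.single i 1))) a :=
        ((ContinuousLinearMap.apply ℂ (Cm n) (B (Pi.single i 1))).analyticAt _).comp h1
      exact (analyticAt_pi_iff.1 h3) (σ i)
    refine ⟨ball ζ r, ball_mem_nhds ζ hr, isOpen_ball, fun a ha haZ => ?_⟩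
    have h0 : ∀ b ∈ ball ζ r, b ∉ R := by
      intro b hb hbR
      have hb1 : Function.Surjective (fderiv ℂ (fun z => e (Φ z)) b) :=
        (surj_mfderiv_iff ((hΦ b).mdifferentiableAt (by simp)) (hAt' b hb)).1 hbR
      obtain ⟨B, hB⟩ := surj_iff_exists_det.1 hb1
      have h4 : ∀ᶠ c in 𝓝 a, ((fderiv ℂ (fun z => e (Φ z)) c).comp B).det = 0 := by
        filter_upwards [isOpen_interior.mem_nhds haZ, isOpen_ball.mem_nhds ha] with c hc hcb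
        by_contra hne
        have h5 : Function.Surjective (fderiv ℂ (fun z => e (Φ z)) c) :=
          surj_iff_exists_det.2 ⟨B, hne⟩
        exact interior_subset hc
          ((surj_mfderiv_iff ((hΦ c).mdifferentiableAt (by simp)) (hAt' c hcb)).2 h5)
      have h6 := (hd B).eqOn_zero_of_preconnected_of_eventuallyEq_zero
        (convex_ball ζ r).isPreconnected ha h4
      exact hB (h6 hb)
    exact interior_maximal (fun b hb => h0 b hb) isOpen_ball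
  have hclopen : IsClopen Z := by
    refine ⟨⟨?_⟩, isOpen_interior⟩
    rw [isOpen_iff_mem_nhds]
    intro ζ hζ
    obtain ⟨V, hV, hVo, hV2⟩ := key ζ
    filter_upwards [hV] with a ha haZ
    exact hζ (hV2 a ha haZ (mem_of_mem_nhds hV))
  obtain ⟨ζ₀, hζ₀⟩ := h
  have hne : Z ≠ univ := by
    intro hu
    have : ζ₀ ∈ Z := by rw [hu]; trivial
    exact interior_subset this hζ₀
  have hemp : Z = ∅ := (isClopen_iff.1 hclopen).resolve_right hne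
  rw [dense_iff_closure_eq, closure_eq_compl_interior_compl, ← hZ, hemp, compl_empty]

/-- a holomorphic map with dense range which is a submersion at some point -/
theorem dom_of_dense [IsManifold 𝓘(ℂ, Cm n) ω X] {Φ : Cm N → X}
    (hΦ : ContMDiff 𝓘(ℂ, Cm N) 𝓘(ℂ, Cm n) ω Φ) (hd : DenseRange Φ)
    (h : ∃ ζ, Function.Surjective (mfderiv 𝓘(ℂ, Cm N) 𝓘(ℂ, Cm n) Φ ζ)) : Dom N n X := by
  intro U hU hne
  obtain ⟨ζ, hζ⟩ := hd.exists_mem_open hU hne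
  obtain ⟨ζ', h1, h2⟩ := (dense_rank hΦ h).exists_mem_open (hU.preimage hΦ.continuous) ⟨ζ, hζ⟩
  exact ⟨Φ, hΦ, ζ', h2, h1⟩

end Vale.Agent.P284.H885
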