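import Mathlib.Analysis.InnerProductSpace.Basic
import Mathlib.Analysis.Normed.Operator.LinearIsometry
import Mathlib.Topology.Sequences
import Mathlib.Topology.MetricSpace.Sequences
import Mathlib.Analysis.Normed.Group.Completeness
import Mathlib.Topology.Bases

/-!
# P284, module [C], (C4) (helper885): strong limits of isometries

`a i` are linear isometries of a complete space `W`. If for every `w` in a separable set `S` the
sequence `a i w` stays in a compact set, then a subsequence converges strongly on the closed span of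
`S`, to an isometry. Applied to `S = v(B)`, when `a i (v x)` is a multiple of one of the vectors
`u t ≠ 0`, `t` in a compact set.
-/

open Filter Set Topology

noncomputable section

namespace Vale.Agent.P284.H885

section

variable {W : Type*} [NormedAddCommGroup W] [NormedSpace ℂ W]

/-- convergence on `S` gives convergence on the closed span -/
lemma cauchy_of_span [CompleteSpace W] (a : ℕ → W →ₗᵢ[ℂ] W) (S : Set W)
    (h : ∀ w ∈ S, CauchySeq fun i => a i w) :
    ∀ w ∈ (Submodule.span ℂ S).topologicalClosure, CauchySeq fun i => a i w := by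
  have h1 : ∀ w ∈ Submodule.span ℂ S, CauchySeq fun i => a i w := by
    intro w hw
    induction hw using Submodule.span_induction with
    | mem w hw => exact h w hw
    | zero =>
      simp only [map_zero]
      exact cauchySeq_const 0
    | add x y _ _ hx hy =>
      simp only [map_add]
      exact hx.add hy
    | smul c x _ hx =>
      simp only [map_smul]
      exact hx.map (uniformContinuous_const_smul c)
  intro w hw
  have hw' : w ∈ closure (Submodule.span ℂ S : Set W) := hw
  rw [Metric.cauchySeq_iff]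
  intro ε hε
  obtain ⟨u, hu, hwu⟩ := Metric.mem_closure_iff.1 hw' (ε / 3) (by positivity)
  obtain ⟨N, hN⟩ := Metric.cauchySeq_iff.1 (h1 u hu) (ε / 3) (by positivity)
  refine ⟨N, fun m hm k hk => ?_⟩
  calc dist (a m w) (a k w) ≤ dist (a m w) (a m u) + dist (a m u) (a k u) +
        dist (a k u) (a k w) := dist_triangle4 _ _ _ _
    _ < ε / 3 + ε / 3 + ε / 3 := by
        rw [(a m).dist_map, (a k).dist_map, dist_comm u w]
        have := hN m hm k hk
        linarith
    _ = ε := by ring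

/-- the strong limit -/
theorem exists_limit [CompleteSpace W] (a : ℕ → W →ₗᵢ[ℂ] W) (S : Set W)
    (h : ∀ w ∈ S, CauchySeq fun i => a i w) :
    ∃ A : (Submodule.span ℂ S).topologicalClosure →ₗᵢ[ℂ] W,
      ∀ w : (Submodule.span ℂ S).topologicalClosure,
        Tendsto (fun i => a i w) atTop (𝓝 (A w)) := by
  have h1 := cauchy_of_span a S h
  have h2 : ∀ w : (Submodule.span ℂ S).topologicalClosure, ∃ b, Tendsto (fun i => a i w) atTop (𝓝 b) :=
    fun w => cauchySeq_tendsto_of_complete (h1 w w.2)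
  choose A hA using h2
  refine ⟨⟨⟨⟨A, fun x y => ?_⟩, fun c x => ?_⟩, fun x => ?_⟩, hA⟩
  · refine tendsto_nhds_unique (hA (x + y)) ?_
    have := (hA x).add (hA y)
    simpa using this
  · refine tendsto_nhds_unique (hA (c • x)) ?_
    have := (hA x).const_smul c
    simpa using this
  · have h3 : Tendsto (fun i => ‖a i x‖) atTop (𝓝 ‖A x‖) := (hA x).norm
    have h4 : (fun i => ‖a i (x : W)‖) = fun _ => ‖(x : W)‖ := funext fun i => (a i).norm_map _
    rw [h4] at h3
    exact tendsto_nhds_unique tendsto_const_nhds h3 |>.symm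

/-- **strong compactness**: a subsequence converges strongly on the closed span of `S` -/
theorem exists_strong [CompleteSpace W] (a : ℕ → W →ₗᵢ[ℂ] W) {S : Set W}
    (hS : TopologicalSpace.IsSeparable S)
    (hc : ∀ w ∈ S, ∃ K : Set W, IsCompact K ∧ ∀ i, a i w ∈ K) :
    ∃ φ : ℕ → ℕ, StrictMono φ ∧ ∃ A : (Submodule.span ℂ S).topologicalClosure →ₗᵢ[ℂ] W,
      ∀ w : (Submodule.span ℂ S).topologicalClosure,
        Tendsto (fun k => a (φ k) w) atTop (𝓝 (A w)) := by
  obtain ⟨D, hDS, hDc, hSD⟩ := hS.exists_countable_dense_subset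
  have := hDc.to_subtype
  choose! K hK hKa using hc
  -- the diagonal sequence
  have hcomp : IsCompact (Set.pi univ fun d : D => K d) :=
    isCompact_univ_pi fun d => hK d (hDS d.2)
  obtain ⟨b, -, φ, hφ, hb⟩ := hcomp.tendsto_subseq (x := fun i (d : D) => a i d)
    (fun i d _ => hKa d (hDS d.2) i)
  refine ⟨φ, hφ, ?_⟩
  have h1 : ∀ d ∈ D, CauchySeq fun k => a (φ k) d := by
    intro d hd
    have := (tendsto_pi_nhds.1 hb ⟨d, hd⟩)
    exact this.cauchySeq
  have h2 : ∀ w ∈ S, CauchySeq fun k => a (φ k) w := by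
    intro w hw
    refine cauchy_of_span (fun k => a (φ k)) D h1 w ?_
    exact closure_mono Submodule.subset_span (hSD hw)
  exact exists_limit (fun k => a (φ k)) S h2

/-- **(C4)**: `a i (v x)` is a multiple of one of the vectors `u t ≠ 0`, `t ∈ K'` compact. -/
theorem strong_limit [CompleteSpace W] {B T : Type*} [TopologicalSpace B]
    [TopologicalSpace.SeparableSpace B] [TopologicalSpace T] {v : B → W} (hv : Continuous v)
    {u : T → W} {K' : Set T} (hK : IsCompact K') (hu : ContinuousOn u K') (hu0 : ∀ t ∈ K', u t ≠ 0)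
    (a : ℕ → W →ₗᵢ[ℂ] W) (h : ∀ i x, ∃ c : ℂ, ∃ t ∈ K', a i (v x) = c • u t) :
    ∃ φ : ℕ → ℕ, StrictMono φ ∧ ∃ A : (Submodule.span ℂ (range v)).topologicalClosure →ₗᵢ[ℂ] W,
      (∀ w : (Submodule.span ℂ (range v)).topologicalClosure,
        Tendsto (fun k => a (φ k) w) atTop (𝓝 (A w))) ∧
      ∀ (x : B) (hx : v x ∈ (Submodule.span ℂ (range v)).topologicalClosure),
        ∃ c : ℂ, ∃ t ∈ K', A ⟨v x, hx⟩ = c • u t := by
  have hkey : ∀ x, ∃ K : Set W, IsCompact K ∧ (∀ i, a i (v x) ∈ K) ∧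
      ∀ w ∈ K, ∃ c : ℂ, ∃ t ∈ K', w = c • u t := by
    intro x
    rcases K'.eq_empty_or_nonempty with he | hne
    · exfalso
      obtain ⟨c, t, ht, -⟩ := h 0 x
      rw [he] at ht
      exact ht
    obtain ⟨t₀, ht₀, hmin⟩ := hK.exists_isMinOn hne hu.norm
    have hpos : 0 < ‖u t₀‖ := norm_pos_iff.2 (hu0 t₀ ht₀)
    have hcomp : IsCompact ((fun q : ℂ × T => q.1 • u q.2) ''
        (Metric.closedBall (0 : ℂ) (‖v x‖ / ‖u t₀‖) ×ˢ K')) := by
      refine ((isCompact_closedBall _ _).prod hK).image_of_continuousOn ?_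
      refine ContinuousOn.smul continuous_fst.continuousOn ?_
      exact hu.comp continuous_snd.continuousOn fun q hq => hq.2
    refine ⟨_, hcomp, fun i => ?_, ?_⟩
    · obtain ⟨c, t, ht, hct⟩ := h i x
      refine ⟨(c, t), ⟨?_, ht⟩, hct.symm⟩
      rw [mem_closedBall_zero_iff, le_div_iff₀ hpos]
      have h1 : ‖v x‖ = ‖c‖ * ‖u t‖ := by
        rw [← (a i).norm_map (v x), hct, norm_smul]
      have h2 : ‖u t₀‖ ≤ ‖u t‖ := hmin ht
      rw [h1]
      exact mul_le_mul_of_nonneg_left h2 (norm_nonneg c)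
    · rintro _ ⟨⟨c, t⟩, ⟨-, ht⟩, rfl⟩
      exact ⟨c, t, ht, rfl⟩
  choose K hK1 hK2 hK3 using hkey
  have hsep : TopologicalSpace.IsSeparable (range v) :=
    TopologicalSpace.isSeparable_range hv
  obtain ⟨φ, hφ, A, hA⟩ := exists_strong a hsep (by
    rintro _ ⟨x, rfl⟩
    exact ⟨K x, hK1 x, hK2 x⟩)
  refine ⟨φ, hφ, A, hA, fun x hx => ?_⟩
  have h1 : A ⟨v x, hx⟩ ∈ K x :=
    (hK1 x).isClosed.mem_of_tendsto (hA ⟨v x, hx⟩) (Eventually.of_forall fun k => hK2 x _)
  exact hK3 x _ h1

/-- the quotients `(a (φ i))⁻¹ a (φ j)` tend to `1` strongly -/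
theorem quot_tendsto {a : ℕ → W ≃ₗᵢ[ℂ] W} {w : W} (h : CauchySeq fun i => a i w) {ε : ℝ}
    (hε : 0 < ε) : ∃ N, ∀ i ≥ N, ∀ j ≥ N, ‖(a i).symm (a j w) - w‖ < ε := by
  obtain ⟨N, hN⟩ := Metric.cauchySeq_iff.1 h ε hε
  refine ⟨N, fun i hi j hj => ?_⟩
  have h1 : (a i).symm (a j w) - w = (a i).symm (a j w - a i w) := by
    rw [map_sub, LinearIsometryEquiv.symm_apply_apply]
  rw [h1, LinearIsometryEquiv.norm_map, ← dist_eq_norm]
  exact hN j hj i hi

end

end Vale.Agent.P284.H885
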