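import Vale.Agent.P284.H378.CS
import Mathlib.Geometry.Manifold.IsManifold.Basic

/-!
# P284 (helper885), D_K: the statement on the fibre `M`, following helper573's interface
-/

open scoped Manifold ContDiff Topology InnerProductSpace ComplexConjugate
open Filter Set Metric

noncomputable section

namespace Vale.Agent.P284.H885.DK

open Vale.Agent.P272.K Vale.Agent.P284.H894.G Vale.Agent.P284.H894.V

/-- `f : M → V` is analytic at `x`, in the preferred chart at `x`. -/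
def AnM (d : ℕ) {M V : Type} [TopologicalSpace M] [ChartedSpace (Cm d) M] [NormedAddCommGroup V]
    [NormedSpace ℂ V] (f : M → V) (x : M) : Prop :=
  AnalyticAt ℂ (fun s => f ((chartAt (Cm d) x).symm s)) (chartAt (Cm d) x x)

/-- the derivative of `f` at `x`, in the preferred chart at `x` -/
def dM (d : ℕ) {M V : Type} [TopologicalSpace M] [ChartedSpace (Cm d) M] [NormedAddCommGroup V]
    [NormedSpace ℂ V] (f : M → V) (x : M) : Cm d →L[ℂ] V :=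
  fderiv ℂ (fun s => f ((chartAt (Cm d) x).symm s)) (chartAt (Cm d) x x)

/-- Local primitives of a holomorphic 1-form on `M` with values in `W`: `Fp x y = ∫_x^y Θ` for `y` near
`x`. -/
structure Prim (d : ℕ) {M W : Type} [TopologicalSpace M] [ChartedSpace (Cm d) M]
    [NormedAddCommGroup W] [NormedSpace ℂ W] (Fp : M → M → W) : Prop where
  self : ∀ x, Fp x x = 0
  hol : ∀ x, ∀ᶠ y in 𝓝 x, AnM d (Fp x) y
  add : ∀ x, ∀ᶠ x' in 𝓝 x, ∀ᶠ y in 𝓝 x', Fp x y = Fp x x' + Fp x' y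

/-- near `x` the isometries `F ↦ U j F + c j` slide the sheet in itself -/
def Sl {M W ι : Type} [TopologicalSpace M] [NormedAddCommGroup W] [InnerProductSpace ℂ W]
    (Fp : M → M → W) (l : Filter ι) (U : ι → (W →ₗᵢ[ℂ] W)) (x : M) (c : ι → W) : Prop :=
  ∃ N ∈ 𝓝 x, ∀ x₁ ∈ N, ∀ B ∈ 𝓝 x₁, ∃ N₁ ∈ 𝓝 x₁, ∀ᶠ j in l, ∀ x' ∈ N₁, ∃ x'' ∈ B,
    Fp x x'' = U j (Fp x x') + c j

/-- **D_K on the fibre.** -/
def DKMStmt : Prop :=
  ∀ (d : ℕ) (M K : Type) [TopologicalSpace M] [T2Space M] [ConnectedSpace M]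
    [ChartedSpace (Cm d) M] [IsManifold 𝓘(ℂ, Cm d) ω M] [Group K] [MulAction K M],
    (∀ k : K, ContMDiff 𝓘(ℂ, Cm d) 𝓘(ℂ, Cm d) ω fun x : M => k • x) →
    Group.FG K → Folner K → ¬ VirtIndicable K →
    (∃ C : Set M, IsCompact C ∧ ∀ x : M, ∃ k : K, k • x ∈ C) →
    ∀ (W : Type) [NormedAddCommGroup W] [InnerProductSpace ℂ W] [CompleteSpace W]
      (π : K →* (W ≃ₗᵢ[ℂ] W)) (Fp : M → M → W), Prim d Fp →
      (∀ (k : K) (x : M), ∀ᶠ y in 𝓝 x, Fp (k • x) (k • y) = π k (Fp x y)) →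
      (∀ (v : W) (x₀ : M), (∀ᶠ x in 𝓝 x₀, ∃ η, dM d (Fp x) x η = v) → v = 0) →
    ∀ (G : Set M), IsOpen G → (∀ (k : K), ∀ x ∈ G, k • x ∈ G) →
      (∀ x : M, ∃ h : M → ℂ, AnM d h x ∧ (∃ᶠ y in 𝓝 x, h y ≠ 0) ∧ ∀ᶠ y in 𝓝 x, h y ≠ 0 → y ∈ G) →
    ∀ r : ℕ, (∀ x ∈ G, ∃ (b : M → Cm r) (Gx : Cm r → W), AnM d b x ∧
        Function.Surjective (dM d b x) ∧ AnalyticAt ℂ Gx (b x) ∧
        Function.Injective (fderiv ℂ Gx (b x)) ∧ ∀ᶠ y in 𝓝 x, Fp x y = Gx (b y) - Gx (b x)) →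
    ∀ (ι : Type) (l : Filter ι) (U : ι → (W →ₗᵢ[ℂ] W)),
      (∀ x ∈ G, ∃ c : ι → W, Sl Fp l U x c) →
    ∀ᶠ j in l, ∀ x, ∀ᶠ y in 𝓝 x, U j (Fp x y) = Fp x y

end Vale.Agent.P284.H885.DK
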