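import Vale.Agent.P284.H885.DK4
import Vale.Agent.P284.H573.DK.Fin
import Vale.Agent.P284.H619.NulP
import Vale.Agent.P284.H446.FolSub
import Vale.Agent.P284.H35.S4b

/-!
# P284 (helper885), module D_K: transport to the fibre, `dk2 : DK2Stmt`
-/

open scoped Manifold ContDiff Topology InnerProductSpace ComplexConjugate
open Filter Set Metric

noncomputable section

namespace Vale.Agent.P284.H885.DK

open Vale.Agent.P272.K Vale.Agent.P284.H894.G Vale.Agent.P284.H894.V Vale.Agent.P284.H894.W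
  Vale.Agent.P284.H213.Grp Vale.Agent.P284.H619 Vale.Agent.P284.H10

section
variable {n q d : ℕ} {X : Type} [TopologicalSpace X] [ChartedSpace (Cm n) X]
  {E : Type} [TopologicalSpace E] {p : E → X} {F : E → Cm q} {t : Cm q}
  {w : Chart n X → Cm n → Matrix (Fin n) (Fin n) ℂ} {B : ℝ}
  {W : Type} [NormedAddCommGroup W] [InnerProductSpace ℂ W] [CompleteSpace W]
  {Θ : E → Chart n X → (Cm n →L[ℂ] W)} {u : E → W}

/-- from the primitives back to `Θ` -/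
theorem fix_of_fib [IsManifold 𝓘(ℂ, Cm n) ω X] (hp : IsCoveringMap p) (hF : HolB p w F B)
    (h : HCh d n p F t) (hpot : VPot p F t W Θ u) (V : W →ₗᵢ[ℂ] W)
    (hV : ∀ x : F ⁻¹' {t}, ∀ᶠ y in 𝓝 x, V (Fp h hpot x y) = Fp h hpot x y) (y : E)
    (e : Chart n X) (hy : F y = t) (he : At e (p y)) (ξ : Cm n) (hξ : ξ ∈ VS p F y e) :
    V (Θ y e ξ) = Θ y e ξ := by
  set x : F ⁻¹' {t} := ⟨y, hy⟩ with hx
  have hfc := ka_fc h x
  have h0 := ka_zero_mem h x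
  have hx0 : (ka h x).symm 0 = x := ka_symm_zero h x
  have he' : At e (p ((ka h x).symm 0 : E)) := by rw [hx0]; exact he
  have hξ' : ξ ∈ VS p F ((ka h x).symm 0 : E) e := by rw [hx0]; exact hξ
  obtain ⟨η, hη⟩ := al_sur hp hF hfc h0 he' hξ'
  have h1 := th_ch hfc hpot h0 he' η
  rw [hη, hx0] at h1
  have hc : Tendsto (ka h x).symm (𝓝 0) (𝓝 x) := by
    have := (ka h x).continuousAt_symm h0
    unfold ContinuousAt at this
    rwa [hx0] at this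
  have h2 := (Fp_deriv h hpot x hfc h0 (by rw [hx0]; exact ka_mem h x)).1
  have h3 : HasFDerivAt (fun s => V (Fp h hpot x ((ka h x).symm s)))
      (V.toContinuousLinearMap.comp (th p (ka h x) (ee h x) Θ 0)) 0 :=
    V.toContinuousLinearMap.hasFDerivAt.comp (0 : Cm d) h2
  have h4 : (fun s => V (Fp h hpot x ((ka h x).symm s))) =ᶠ[𝓝 0]
      fun s => Fp h hpot x ((ka h x).symm s) := hc.eventually (hV x)
  have h5 := (h3.congr_of_eventuallyEq h4.symm).unique h2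
  have h6 : V (th p (ka h x) (ee h x) Θ 0 η) = th p (ka h x) (ee h x) Θ 0 η :=
    congrArg (fun M => M η) h5
  rw [h1] at h6
  exact h6

variable {Γ : Type} [Group Γ] [MulAction Γ E] {K : Subgroup Γ}

/-- **D_K on a regular fibre**, for a group `K` whose finite dimensional real representations have
finite range, and with NUL as a hypothesis. -/
theorem dk_fib [T2Space X] [IsManifold 𝓘(ℂ, Cm n) ω X] (hp : IsGalois Γ p) (hF : HolB p w F B)
    (hK : ∀ k ∈ K, ∀ y, F (k • y) = F y) (hconn : IsConnected (F ⁻¹' {t}))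
    (hreg : ∀ y, F y = t → Reg (n := n) p F y)
    (hd : n = q + d) (hfr : H573.DK.FinRep K)
    (hC : ∃ C : Set E, IsCompact C ∧ ∀ y, F y = t → ∃ k ∈ K, k • y ∈ C)
    (hpot : VPot p F t W Θ u) {π : Γ →* (W ≃ₗᵢ[ℂ] W)}
    (hform : ∀ k ∈ K, ∀ y e, F y = t → At e (p y) → ∀ ξ ∈ VS p F y e, Θ (k • y) e ξ = π k (Θ y e ξ))
    (hnul : ∀ y₀ : E, F y₀ = t → ∀ v : W,
      (∀ᶠ y in 𝓝 y₀, F y = t → ∃ e, At e (p y) ∧ ∃ ξ ∈ VS p F y e, Θ y e ξ = v) → v = 0)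
    {𝒢 : Set E} (hGo : IsOpen 𝒢) (hGK : ∀ k ∈ K, ∀ y ∈ 𝒢, k • y ∈ 𝒢)
    (hth : ∀ (y : E) (e : Chart n X), F y = t → At e (p y) → ∃ h : Cm n → ℂ,
      AnalyticAt ℂ h (e (p y)) ∧ (∃ᶠ y' in 𝓝 y, F y' = t ∧ h (e (p y')) ≠ 0) ∧
      ∀ᶠ y' in 𝓝 y, h (e (p y')) ≠ 0 → y' ∈ 𝒢)
    {r : ℕ} {U : ℕ → (W →ₗᵢ[ℂ] W)}
    (hs : ∀ z ∈ 𝒢, F z = t → H378.SlideAt n p F Θ r U z) :
    ∀ᶠ j in atTop, ∀ y e, F y = t → At e (p y) → ∀ ξ ∈ VS p F y e, U j (Θ y e ξ) = Θ y e ξ := by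
  have h : HCh d n p F t := hch_of hd hp.cov hF hreg
  letI := fibCS h
  letI := fibAct (t := t) hK
  haveI : IsManifold 𝓘(ℂ, Cm d) ω (F ⁻¹' {t}) := fib_manifold h
  haveI : T2Space E := H35.S4.t2_of_cov hp.cov
  haveI : ConnectedSpace (F ⁻¹' {t}) := isConnected_iff_connectedSpace.1 hconn
  obtain ⟨C, hCc, hCK⟩ := hC
  have hclosed : IsClosed (F ⁻¹' {t}) :=
    isClosed_singleton.preimage ((Ker.holE_of hF).continuous hp.cov)
  have hC' : ∃ C' : Set (F ⁻¹' {t}), IsCompact C' ∧ ∀ x, ∃ k : K, k • x ∈ C' := by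
    refine ⟨Subtype.val ⁻¹' C, hclosed.isClosedEmbedding_subtypeVal.isCompact_preimage hCc,
      fun x => ?_⟩
    obtain ⟨k, hk, hkx⟩ := hCK x x.2
    exact ⟨⟨k, hk⟩, hkx⟩
  have h1 := H573.DK.dkmF d (F ⁻¹' {t}) K (fun k => act_smooth h hp hK k) hfr hC' W
    (π.comp K.subtype) (Fp h hpot) (prim_Fp h hpot)
    (fun k x => Fp_smul h hpot hp hK hform k x) ?_ {x | (x : E) ∈ 𝒢}
    (hGo.preimage continuous_subtype_val) (fun k x hx => hGK k k.2 x hx)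
    (fun x => thin_fib h hth x) r (fun x hx => (sl_fib hp.cov hF h hpot x (hs x hx x.2)).1)
    (l := atTop) U (fun x hx => (sl_fib hp.cov hF h hpot x (hs x hx x.2)).2)
  · filter_upwards [h1] with j hj y e hy he ξ hξ
    exact fix_of_fib hp.cov hF h hpot (U j) hj y e hy he ξ hξ
  · intro v x₀ hv
    refine hnul x₀ x₀.2 v ?_
    have h2 : ∀ᶠ x : F ⁻¹' {t} in 𝓝 x₀, (fun y : E => ∃ e : Chart n X, At e (p y) ∧
        ∃ ξ ∈ VS p F y e, Θ y e ξ = v) x := by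
      filter_upwards [hv] with x hx
      obtain ⟨η, hη⟩ := hx
      rw [dM_Fp] at hη
      have h3 := (ka_fc h x).tan' (ka_zero_mem h x) η
      rw [ka_symm_zero] at h3
      exact ⟨ee h x, (ka_fc h x).mem x (ka_mem h x), _, h3, hη⟩
    exact ev_fib.1 h2

end

/-- **module D_K**, second form -/
theorem dk2 : H378.DK2Stmt := by
  intro n q X _ _ _ _ _ E Γ _ _ _ p hp hFol w F c K ⟨B, hF⟩ hper hN t hconn hreg W _ _ _ π Θ u
    hpot hequi 𝒢 hGo hGΓ hth r U hs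
  obtain ⟨y₀, hy₀⟩ := hconn.nonempty
  haveI : Nonempty E := ⟨y₀⟩
  have hK : ∀ k ∈ K, ∀ y, F (k • y) = F y := fun k hk y => by
    rw [hper, hN.sub k hk, add_zero]
  have hle : q ≤ n := by
    have he : At (chartAt (Cm n) (p y₀)) (p y₀) := ⟨chart_mem_atlas _ _, mem_chart_source _ _⟩
    obtain ⟨f, h1, h2⟩ := H221.holB_an hF y₀ he
    exact N_le_n (hreg y₀ hy₀ _ f he h2)
  obtain ⟨d, hd⟩ := Nat.exists_eq_add_of_le hle
  have hfr : H573.DK.FinRep K := H573.DK.finRep_of hN.fg (H446.QC.folner_subgroup hFol K) hN.nvi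
  have hC : ∃ C : Set E, IsCompact C ∧ ∀ y, F y = t → ∃ k ∈ K, k • y ∈ C := by
    obtain ⟨C, h1, h2⟩ := H221.exists_fund_K hp ((Ker.holE_of hF).continuous hp.cov) hper
      hN.lat.disc K hN.fi ‖t‖
    exact ⟨C, h1, fun y hy => h2 y (by rw [hy])⟩
  exact dk_fib hp hF hK hconn hreg hd hfr hC hpot hequi.form
    (fun y₀ hy₀ v hv => H619.nulStmt n q X E Γ p hp hFol F c K (Ker.holE_of hF) hper hN t hconn
      hreg W π Θ u hpot hequi y₀ hy₀ v hv) hGo (fun k _ y hy => hGΓ k y hy) hth hs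

end Vale.Agent.P284.H885.DK
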