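import Vale.Agent.P284.H885.Ker2
import Vale.Agent.P284.H378.CS

/-!
# P284 (helper885), (H3): `KerStmt` of H378/CS.lean
-/

open scoped Manifold ContDiff Topology InnerProductSpace ComplexConjugate
open Filter Set Metric

noncomputable section

namespace Vale.Agent.P284.H885.Ker

open Vale.Agent.P272.K Vale.Agent.P284.H894.G Vale.Agent.P284.H894.V Vale.Agent.P284.H894.W
  Vale.Agent.P284.H213.Grp Vale.Agent.P284.H619 Vale.Agent.P284.H378

/-- **(H3).** -/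
theorem kerStmt : KerStmt := by
  intro n q X _ _ _ _ _ E Γ _ _ _ _ p hp _ w F c K hF hFe hK hG W _ _ _ π Θ M₀ hM₀ hΘ hne
  obtain ⟨B, hB⟩ := hF
  obtain ⟨T, hT1, hT2, hT3⟩ := hG
  have hTm : IsMeagre T := IsNowhereDense.isMeagre (by
    rw [IsNowhereDense, hT1.closure_eq, hT2])
  have hd : Dense {t | t ∉ T ∧ ∃ u : E → W, VPot p F t W Θ u ∧
      ∀ k ∈ K, ∃ b : W, ∀ y, F y = t → u (k • y) = π k (u y) + b} := by
    have h1 : IsMeagre (T ∪ M₀) := hTm.union hM₀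
    refine (dense_of_mem_residual h1).mono fun t ht => ?_
    have ht1 : t ∉ T := fun h => ht (Or.inl h)
    have ht2 : t ∉ M₀ := fun h => ht (Or.inr h)
    obtain ⟨u, h2, h3⟩ := hΘ.pot t ht2
    exact ⟨ht1, u, h2, h3.pot⟩
  obtain ⟨M, h1, -, h2⟩ := ker_generic hp hB hFe hK hT1 hT2 hT3 π ⟨hΘ.hol, hΘ.change⟩ hΘ.equi hd hne
  exact ⟨M, h1, h2⟩

end Vale.Agent.P284.H885.Ker
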