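import Vale.Agent.P284.H619.NulS
import Vale.Agent.P284.H221.C7
import Vale.Agent.P284.H221.C6

/-!
# P284 (helper885), (H3) kernel remark, first part: one fibre

`K'` a subgroup of finite index of `K` acting trivially on the values of `Θ` along a regular connected
fibre: then `Θ = 0` along the fibre.
-/

open scoped Manifold ContDiff Topology InnerProductSpace ComplexConjugate
open Filter Set Metric

noncomputable section

namespace Vale.Agent.P284.H885.Ker

open Vale.Agent.P272.K Vale.Agent.P284.H894.G Vale.Agent.P284.H894.V Vale.Agent.P284.H894.W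
  Vale.Agent.P284.H213.Grp Vale.Agent.P284.H619

/-- analytic projectors onto the kernels of the differential of a submersion -/
theorem vert_proj {n q : ℕ} {f : Cm n → Cm q} {z₀ : Cm n} (hf : AnalyticAt ℂ f z₀)
    (hs : Function.Surjective (fderiv ℂ f z₀)) :
    ∃ P : Cm n → (Cm n →L[ℂ] Cm n), AnalyticAt ℂ P z₀ ∧
      ∀ᶠ z in 𝓝 z₀, (∀ ξ, fderiv ℂ f z (P z ξ) = 0) ∧ ∀ ξ, fderiv ℂ f z ξ = 0 → P z ξ = ξ := by
  obtain ⟨R₀, hR₀⟩ := LinearMap.exists_rightInverse_of_surjective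
    (fderiv ℂ f z₀ : Cm n →ₗ[ℂ] Cm q) (LinearMap.range_eq_top.2 hs)
  set R : Cm q →L[ℂ] Cm n := LinearMap.toContinuousLinearMap R₀ with hR
  have hR1 : (fderiv ℂ f z₀).comp R = 1 := by
    ext1 v
    exact LinearMap.congr_fun hR₀ v
  have hd : AnalyticAt ℂ (fderiv ℂ f) z₀ := hf.fderiv
  set A : Cm n → (Cm q →L[ℂ] Cm q) := fun z => (fderiv ℂ f z).comp R with hA
  have hAan : AnalyticAt ℂ A z₀ :=
    (((ContinuousLinearMap.compL ℂ (Cm q) (Cm n) (Cm q)).flip R).analyticAt _).comp hd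
  have hA0 : A z₀ = ((1 : (Cm q →L[ℂ] Cm q)ˣ) : Cm q →L[ℂ] Cm q) := hR1
  have hinv : AnalyticAt ℂ (fun z => Ring.inverse (A z)) z₀ := by
    have h1 : AnalyticAt ℂ Ring.inverse (A z₀) := by
      rw [hA0]
      exact analyticAt_inverse (𝕜 := ℂ) 1
    exact h1.comp hAan
  have hunit : ∀ᶠ z in 𝓝 z₀, IsUnit (A z) := by
    refine hAan.continuousAt.eventually (Units.isOpen.mem_nhds ?_)
    rw [hA0]
    exact (1 : (Cm q →L[ℂ] Cm q)ˣ).isUnit
  refine ⟨fun z => ContinuousLinearMap.id ℂ _ - (R.comp ((Ring.inverse (A z)).comp (fderiv ℂ f z))),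
    ?_, ?_⟩
  · refine analyticAt_const.sub ?_
    have h0 : AnalyticAt ℂ (fun x : (Cm q →L[ℂ] Cm q) × (Cm n →L[ℂ] Cm q) => x.1.comp x.2)
        (Ring.inverse (A z₀), fderiv ℂ f z₀) :=
      (ContinuousLinearMap.compL ℂ (Cm n) (Cm q) (Cm q)).analyticAt_bilinear _
    have h2 : AnalyticAt ℂ (fun z => (Ring.inverse (A z)).comp (fderiv ℂ f z)) z₀ :=
      AnalyticAt.comp (f := fun z => (Ring.inverse (A z), fderiv ℂ f z)) h0 (hinv.prod hd)
    exact ((ContinuousLinearMap.compL ℂ (Cm n) (Cm q) (Cm n) R).analyticAt _).comp h2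
  · filter_upwards [hunit] with z hz
    constructor
    · intro ξ
      have h3 : A z (Ring.inverse (A z) (fderiv ℂ f z ξ)) = fderiv ℂ f z ξ := by
        have h4 := Ring.mul_inverse_cancel _ hz
        exact congrArg (fun L => L (fderiv ℂ f z ξ)) h4
      show fderiv ℂ f z (ξ - R (Ring.inverse (A z) (fderiv ℂ f z ξ))) = 0
      rw [map_sub]
      have h5 : fderiv ℂ f z (R (Ring.inverse (A z) (fderiv ℂ f z ξ))) = fderiv ℂ f z ξ := h3
      rw [h5, sub_self]
    · intro ξ hξ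
      show ξ - R (Ring.inverse (A z) (fderiv ℂ f z ξ)) = ξ
      rw [hξ, map_zero, map_zero, sub_zero]

/-- a holomorphic function with constant real part has derivative zero -/
theorem fderiv_zero_of_re {S : Type*} [NormedAddCommGroup S] [NormedSpace ℂ S] {g : S → ℂ} {x : S}
    (hg : DifferentiableAt ℂ g x) {a : ℝ} (h : ∀ᶠ y in 𝓝 x, (g y).re = a) (v : S) :
    fderiv ℂ g x v = 0 := by
  have key : ∀ v, (fderiv ℂ g x v).re = 0 := by
    intro v
    have h1 : HasFDerivAt (fun y => (g y).re) (Complex.reCLM.comp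
        ((fderiv ℂ g x).restrictScalars ℝ)) x :=
      Complex.reCLM.hasFDerivAt.comp x (hg.hasFDerivAt.restrictScalars ℝ)
    have h2 : HasFDerivAt (fun y => (g y).re) (0 : S →L[ℝ] ℝ) x :=
      (hasFDerivAt_const a x).congr_of_eventuallyEq h
    have h3 := h1.unique h2
    exact congrArg (fun L => L v) h3
  have h4 := key (Complex.I • v)
  rw [_root_.map_smul, smul_eq_mul] at h4
  simp only [Complex.mul_re, Complex.I_re, Complex.I_im, zero_mul, one_mul, zero_sub,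
    neg_eq_zero] at h4
  exact Complex.ext (key v) h4

section
variable {n q : ℕ} {X : Type} [TopologicalSpace X] [T2Space X] [CompactSpace X]
  [ChartedSpace (Cm n) X] {E Γ : Type} [TopologicalSpace E] [Group Γ] [MulAction Γ E] {p : E → X}
  {w : Chart n X → Cm n → Matrix (Fin n) (Fin n) ℂ} {B : ℝ} {F : E → Cm q} {c : Γ → Cm q}
  {K : Subgroup Γ}

omit [T2Space X] [CompactSpace X] in
theorem holE_of (hF : HolB p w F B) : HolE n p F := fun y e he => by
  obtain ⟨f, h1, h2⟩ := H221.holB_an hF y he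
  exact ⟨f, h2, h1⟩

/-- **Kernel remark, one fibre.** -/
theorem ker_fin (hp : IsGalois Γ p) (hF : HolB p w F B) (hFe : ∀ g y, F (g • y) = F y + c g)
    (hK : NPkg Γ q c K) {t : Cm q} (hconn : IsConnected (F ⁻¹' {t}))
    (hreg : ∀ y, F y = t → Reg (n := n) p F y) {W : Type} [NormedAddCommGroup W]
    [InnerProductSpace ℂ W] (π : Γ →* (W ≃ₗᵢ[ℂ] W)) {Θ : E → Chart n X → (Cm n →L[ℂ] W)}
    {u : E → W} (hpot : VPot p F t W Θ u)
    (hupot : ∀ k ∈ K, ∃ b : W, ∀ y, F y = t → u (k • y) = π k (u y) + b)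
    {K' : Subgroup Γ} (hle : K' ≤ K)
    (hfi : (K'.subgroupOf K).FiniteIndex)
    (htriv : ∀ k ∈ K', ∀ y e, F y = t → At e (p y) → ∀ ξ ∈ VS p F y e, π k (Θ y e ξ) = Θ y e ξ) :
    ∀ y e, F y = t → At e (p y) → ∀ ξ ∈ VS p F y e, Θ y e ξ = 0 := by
  intro y₀ e₀ hy₀ he₀ ξ₀ hξ₀
  set v : W := Θ y₀ e₀ ξ₀ with hv
  have hvK : ∀ k ∈ K', π k v = v := fun k hk => htriv k hk y₀ e₀ hy₀ he₀ ξ₀ hξ₀
  have hFK : ∀ k ∈ K, ∀ y, F y = t → F (k • y) = t := by
    intro k hk y hy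
    rw [hFe, hK.sub k hk, add_zero, hy]
  -- the function `Re ⟪v', u⟫` is constant along the fibre if `v'` is invariant
  have hconst : ∀ v' : W, (∀ k ∈ K', π k v' = v') → ∀ y y', F y = t → F y' = t →
      (⟪v', u y⟫_ℂ).re = (⟪v', u y'⟫_ℂ).re := by
    intro v' hv'
    choose! b hb using hupot
    -- the translations
    have hmul : ∀ k ∈ K', ∀ k' ∈ K', (⟪v', b (k * k')⟫_ℂ).re = (⟪v', b k⟫_ℂ).re + (⟪v', b k'⟫_ℂ).re := by
      intro k hk k' hk'
      have h1 := hb (k * k') (K.mul_mem (hle hk) (hle hk')) y₀ hy₀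
      rw [mul_smul, hb k (hle hk) _ (hFK k' (hle hk') y₀ hy₀), hb k' (hle hk') y₀ hy₀, map_add,
        map_mul] at h1
      have h2 : b (k * k') = π k (b k') + b k := by
        have h3 : (π k * π k') (u y₀) = π k (π k' (u y₀)) := rfl
        rw [h3, add_assoc] at h1
        exact (add_left_cancel h1).symm
      rw [h2, inner_add_right]
      have h4 : ⟪v', π k (b k')⟫_ℂ = ⟪v', b k'⟫_ℂ := by
        conv_lhs => rw [← hv' k hk]
        exact (π k).inner_map_map _ _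
      rw [h4, Complex.add_re, add_comm]
    have hzero : ∀ k ∈ K', (⟪v', b k⟫_ℂ).re = 0 := fun k hk =>
      H221.hom_zero_sub hK.fg hK.nvi hle hfi (fun k => (⟪v', b k⟫_ℂ).re) hmul k hk
    have hFc : Continuous F := H221.holB_cont hp.cov hF
    refine H221.const_on_fib_re hp hF hFe hK.lat.disc K' (fun k hk => hK.sub k (hle hk))
      (H221.fi_trans hK.fi hfi) hconn.isPreconnected hreg (φ := fun y => (⟪v', u y⟫_ℂ).re) ?_ ?_ ?_
    · -- continuity
      intro y hy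
      have hy' : F y = t := hy
      obtain ⟨e, he⟩ : ∃ e : Chart n X, At e (p y) :=
        ⟨chartAt (Cm n) (p y), chart_mem_atlas _ _, mem_chart_source _ _⟩
      obtain ⟨g, h, hg, hh, hev⟩ := hpot.pot y e hy' he v'
      have hgc : ContinuousAt (fun y' => (g (e (p y')) + conj (h (e (p y')))).re) y := by
        have h1 : Tendsto (fun y' => e (p y')) (𝓝 y) (𝓝 (e (p y))) := (H221.map_ep' hp.cov he).le
        have h2 : ContinuousAt (fun y' => g (e (p y'))) y :=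
          hg.continuousAt.tendsto.comp h1
        have h3 : ContinuousAt (fun y' => h (e (p y'))) y :=
          hh.continuousAt.tendsto.comp h1
        exact Complex.continuous_re.continuousAt.comp
          (h2.add (Complex.continuous_conj.continuousAt.comp h3))
      refine (hgc.continuousWithinAt (s := F ⁻¹' {t})).congr_of_eventuallyEq ?_ ?_
      · filter_upwards [mem_nhdsWithin_of_mem_nhds hev, self_mem_nhdsWithin] with y' h1 h2
        show (⟪v', u y'⟫_ℂ).re = _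
        rw [(h1 h2).1]
      · show (⟪v', u y⟫_ℂ).re = _
        rw [(hev.self_of_nhds hy').1]
    · -- locally the real part of a holomorphic function
      intro y hy
      obtain ⟨e, he⟩ : ∃ e : Chart n X, At e (p y) :=
        ⟨chartAt (Cm n) (p y), chart_mem_atlas _ _, mem_chart_source _ _⟩
      obtain ⟨g, h, hg, hh, hev⟩ := hpot.pot y e hy he v'
      refine ⟨e, he, fun z => g z + h z, ?_, ?_⟩
      · filter_upwards [(hg.add hh).eventually_analyticAt] with z hz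
        exact hz.differentiableAt
      · filter_upwards [hev] with y' h1 h2
        show (⟪v', u y'⟫_ℂ).re = (g (e (p y')) + h (e (p y'))).re
        rw [(h1 (h2.trans hy)).1]
        simp
    · intro k hk y hy
      show (⟪v', u (k • y)⟫_ℂ).re = (⟪v', u y⟫_ℂ).re
      rw [hb k (hle hk) y hy, inner_add_right, Complex.add_re, hzero k hk, add_zero]
      have h4 : ⟪v', π k (u y)⟫_ℂ = ⟪v', u y⟫_ℂ := by
        conv_lhs => rw [← hv' k hk]
        exact (π k).inner_map_map _ _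
      rw [h4]
  -- the two real functions
  obtain ⟨g, h, hg, hh, hev⟩ := hpot.pot y₀ e₀ hy₀ he₀ v
  obtain ⟨f, ψ, φ, hf, hfan, hψ, hφ, hψ0, hφ0, hfψ, hvert⟩ :=
    exists_fib hp.cov (holE_of hF) he₀ (hreg y₀ hy₀)
  have hcI : ∀ k ∈ K', π k (Complex.I • v) = Complex.I • v := fun k hk => by
    rw [_root_.map_smul, hvK k hk]
  have hF0 : F y₀ = f (e₀ (p y₀)) := hf.self_of_nhds
  -- the points near `e₀ (p y₀)` on the fibre
  have hpull : ∀ Q : Cm n → Prop, (∀ᶠ y' in 𝓝 y₀, F y' = t → Q (e₀ (p y'))) →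
      ∀ᶠ s in 𝓝 (0 : Cm n), Q (ψ s) := by
    intro Q hQ
    have h1 : ∀ᶠ z in 𝓝 (e₀ (p y₀)), f z = t → Q z := by
      rw [← H221.ev_iff' hp.cov he₀]
      filter_upwards [hQ, hf] with y' h1 h2 h3
      exact h1 (by rw [h2, h3])
    have h2 : Tendsto ψ (𝓝 0) (𝓝 (e₀ (p y₀))) := by
      have := hψ.continuousAt.tendsto
      rwa [hψ0] at this
    filter_upwards [h2.eventually h1, hfψ] with s h3 h4
    exact h3 (h4.trans hy₀)
  have hre : ∀ᶠ s in 𝓝 (0 : Cm n), (g (ψ s) + h (ψ s)).re = (⟪v, u y₀⟫_ℂ).re := by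
    refine hpull (fun z => (g z + h z).re = (⟪v, u y₀⟫_ℂ).re) ?_
    filter_upwards [hev] with y' h1 h2
    rw [← hconst v hvK y' y₀ h2 hy₀, (h1 h2).1]
    simp
  have him : ∀ᶠ s in 𝓝 (0 : Cm n), (-Complex.I * (g (ψ s) - h (ψ s))).re =
      (⟪Complex.I • v, u y₀⟫_ℂ).re := by
    refine hpull (fun z => (-Complex.I * (g z - h z)).re = (⟪Complex.I • v, u y₀⟫_ℂ).re) ?_
    filter_upwards [hev] with y' h1 h2
    rw [← hconst _ hcI y' y₀ h2 hy₀, inner_smul_left, (h1 h2).1]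
    simp
    ring
  set η : Cm n := fderiv ℂ φ (e₀ (p y₀)) ξ₀ with hη
  have hη1 : fderiv ℂ ψ 0 η = ξ₀ := by
    have h1 := (hvert.self_of_nhds rfl).2 ξ₀ hξ₀
    rwa [hφ0] at h1
  have hψd : DifferentiableAt ℂ ψ 0 := hψ.differentiableAt
  have hgd : DifferentiableAt ℂ g (ψ 0) := by rw [hψ0]; exact hg.differentiableAt
  have hhd : DifferentiableAt ℂ h (ψ 0) := by rw [hψ0]; exact hh.differentiableAt
  have hgc : HasFDerivAt (fun s => g (ψ s)) ((fderiv ℂ g (ψ 0)).comp (fderiv ℂ ψ 0)) 0 :=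
    hgd.hasFDerivAt.comp 0 hψd.hasFDerivAt
  have hhc : HasFDerivAt (fun s => h (ψ s)) ((fderiv ℂ h (ψ 0)).comp (fderiv ℂ ψ 0)) 0 :=
    hhd.hasFDerivAt.comp 0 hψd.hasFDerivAt
  have e1 := fderiv_zero_of_re (hgc.add hhc).differentiableAt hre η
  have e2 := fderiv_zero_of_re ((hgc.sub hhc).const_mul (-Complex.I)).differentiableAt him η
  rw [(hgc.add hhc).fderiv] at e1
  rw [((hgc.sub hhc).const_mul (-Complex.I)).fderiv] at e2
  have e3 : fderiv ℂ g (e₀ (p y₀)) ξ₀ + fderiv ℂ h (e₀ (p y₀)) ξ₀ = 0 := by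
    have : ((fderiv ℂ g (ψ 0)).comp (fderiv ℂ ψ 0) + (fderiv ℂ h (ψ 0)).comp (fderiv ℂ ψ 0)) η =
      fderiv ℂ g (e₀ (p y₀)) ξ₀ + fderiv ℂ h (e₀ (p y₀)) ξ₀ := by
      rw [ContinuousLinearMap.add_apply, ContinuousLinearMap.comp_apply,
        ContinuousLinearMap.comp_apply, hη1, hψ0]
    rw [← this]
    exact e1
  have e4 : -Complex.I * (fderiv ℂ g (e₀ (p y₀)) ξ₀ - fderiv ℂ h (e₀ (p y₀)) ξ₀) = 0 := by
    have : (-Complex.I • ((fderiv ℂ g (ψ 0)).comp (fderiv ℂ ψ 0) -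
        (fderiv ℂ h (ψ 0)).comp (fderiv ℂ ψ 0))) η =
      -Complex.I * (fderiv ℂ g (e₀ (p y₀)) ξ₀ - fderiv ℂ h (e₀ (p y₀)) ξ₀) := by
      rw [ContinuousLinearMap.smul_apply, ContinuousLinearMap.sub_apply,
        ContinuousLinearMap.comp_apply,
        ContinuousLinearMap.comp_apply, hη1, hψ0, smul_eq_mul]
    rw [← this]
    exact e2
  have e5 : fderiv ℂ g (e₀ (p y₀)) ξ₀ - fderiv ℂ h (e₀ (p y₀)) ξ₀ = 0 := by
    rcases mul_eq_zero.1 e4 with h1 | h1
    · exact absurd h1 (neg_ne_zero.2 Complex.I_ne_zero)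
    · exact h1
  have e6 : fderiv ℂ g (e₀ (p y₀)) ξ₀ = 0 := by
    have h1 : (2 : ℂ) * fderiv ℂ g (e₀ (p y₀)) ξ₀ = 0 := by linear_combination e3 + e5
    rcases mul_eq_zero.1 h1 with h2 | h2
    · exact absurd h2 two_ne_zero
    · exact h2
  have e7 := (hev.self_of_nhds hy₀).2 ξ₀ hξ₀
  rw [e6, ← hv] at e7
  exact inner_self_eq_zero.1 e7.symm

end

end Vale.Agent.P284.H885.Ker
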