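import Vale.Agent.P284.H672.ExS
import Vale.Agent.P284.H494.PerL
import Vale.Agent.P284.H661.Lim1

/-!
# P284 (helper885), MF(I), the limit: translates of `h` in charts of the covering space
-/

open scoped Manifold ContDiff Topology ENNReal
open Filter Set Metric

noncomputable section

namespace Vale.Agent.P284.H885.Lim

open Vale.Agent.P272.K Vale.Agent.P284.H573 Vale.Agent.P284.H894.G Vale.Agent.P284.H894.W
  Vale.Agent.P284.H494 Vale.Agent.P284.H10 Vale.Agent.P284.H672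

/-- the minor of the differential on the vectors `ξ` -/
def dt {m q : ℕ} (L : Cm m →L[ℂ] Cm q) (ξ : Fin q → Cm m) : ℂ :=
  (Matrix.of fun i j => L (ξ j) i).det

theorem dt_eq {m q : ℕ} (L : Cm m →L[ℂ] Cm q) (ξ : Fin q → Cm m) :
    dt L ξ = Matrix.detRowAlternating (fun j => L (ξ j)) := by
  have h1 : (Matrix.of fun i j => L (ξ j) i) = (Matrix.of fun j => L (ξ j)).transpose := by
    ext i j; rfl
  rw [dt, h1, Matrix.det_transpose]
  rfl

theorem dt_comp {m k q : ℕ} (L : Cm m →L[ℂ] Cm q) (T : Cm k →L[ℂ] Cm m) (ξ : Fin q → Cm k) :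
    dt (L.comp T) ξ = ∑ I : Fin q → Fin m, (∏ j, T (ξ j) (I j)) *
      dt L (fun j => Pi.single (I j) 1) := by
  have h1 : ∀ j, (L.comp T) (ξ j) = ∑ i : Fin m, T (ξ j) i • L (Pi.single i 1) := by
    intro j
    have h2 : T (ξ j) = ∑ i : Fin m, T (ξ j) i • (Pi.single i (1 : ℂ) : Cm m) := by
      ext i'
      simp [Finset.sum_apply, Pi.single_apply]
    rw [ContinuousLinearMap.comp_apply]
    conv_lhs => rw [h2]
    rw [map_sum]
    simp only [_root_.map_smul]
  rw [dt_eq]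
  have h3 : (fun j => (L.comp T) (ξ j)) = fun j => ∑ i : Fin m, T (ξ j) i • L (Pi.single i 1) :=
    funext h1
  rw [h3]
  have h4 := (Matrix.detRowAlternating (R := ℂ) (n := Fin q)).toMultilinearMap.map_sum
    (fun j i => T (ξ j) i • L (Pi.single i 1))
  refine h4.trans ?_
  refine Finset.sum_congr rfl fun I _ => ?_
  have h5 := (Matrix.detRowAlternating (R := ℂ) (n := Fin q)).toMultilinearMap.map_smul_univ
    (fun j => T (ξ j) (I j)) (fun j => L (Pi.single (I j) 1))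
  refine h5.trans ?_
  rw [smul_eq_mul, dt_eq]
  rfl

section
variable {n q : ℕ} {X : Type} [TopologicalSpace X] [ChartedSpace (Cm n) X] {E : Type}
  [TopologicalSpace E] {p : E → X} {Γ : Type} [Group Γ] [MulAction Γ E]
  {w : Chart n X → Cm n → Matrix (Fin n) (Fin n) ℂ} {F : E → Cm q} {c : Γ → Cm q}
  {e e' : Chart n X} {ε ε' : OpenPartialHomeomorph E (Cm n)}

theorem ch_analytic {B : ℝ} (hε : IsCh p e ε) (hF : HolB p w F B) {z : Cm n} (hz : z ∈ ε.target) :
    AnalyticAt ℂ (F ∘ ε.symm) z :=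
  Vale.Agent.P281.MF.analyticAt_of_differentiableOn ε.open_target (hε.diff hF) hz

theorem ch_ep (hε : IsCh p e ε) {z : Cm n} (hz : z ∈ ε.target) : e (p (ε.symm z)) = z := by
  rw [← hε.eq _ (ε.map_target hz), ε.right_inv hz]

/-- the translate of a chart -/
theorem ch_shift (hp : IsGalois Γ p) (hP : Per p w F c) (hε : IsCh p e ε) {y : E}
    (hy : y ∈ ε.source) (g : Γ) :
    ∀ᶠ y' in 𝓝 (g • y), F y' = (fun z => (F ∘ ε.symm) z + c g) (e (p y')) := by
  have h1 : Tendsto (fun y' => g⁻¹ • y') (𝓝 (g • y)) (𝓝 y) := by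
    have := (hp.cont g⁻¹).tendsto (g • y)
    simpa using this
  filter_upwards [h1.eventually (hε.ev (F := F) hy)] with y' hy'
  have h3 := hP.equiv g (g⁻¹ • y')
  rw [smul_inv_smul] at h3
  rw [h3, hy', p_smul' hp]

variable [IsManifold 𝓘(ℂ, Cm n) ω X]

/-- **(b')** regular points are dense in the charts -/
theorem dense_ch [ConnectedSpace E] (hp : IsGalois Γ p) (hP : Per p w F c)
    (hex : ∃ y, Reg (n := n) p F y) (ε : OpenPartialHomeomorph E (Cm n)) :
    ε.target ⊆ closure {z | Reg (n := n) p F (ε.symm z)} := by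
  have hd : Dense {y : E | Reg (n := n) p F y} := by
    rcases Nat.eq_zero_or_pos q with h0 | h0
    · subst h0
      have : {y : E | Reg (n := n) p F y} = univ := by
        ext y
        simp only [mem_univ, iff_true]
        intro e f _ _ v
        exact ⟨0, Subsingleton.elim _ _⟩
      rw [this]
      exact dense_univ
    · obtain ⟨B, hB⟩ := hP.hol
      exact reg_dense h0 hp.cov hB hex
  intro z hz
  rw [_root_.mem_closure_iff]
  intro O hO hzO
  have h1 : IsOpen (ε.source ∩ ε ⁻¹' O) := ε.isOpen_inter_preimage hO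
  obtain ⟨y, hy1, hy2⟩ := hd.inter_open_nonempty _ h1
    ⟨ε.symm z, ε.map_target hz, by rw [mem_preimage, ε.right_inv hz]; exact hzO⟩
  refine ⟨ε y, hy1.2, ?_⟩
  show Reg (n := n) p F (ε.symm (ε y))
  rw [ε.left_inv hy1.1]
  exact hy2

/-- **(b)** the translates of `h` extend -/
theorem ext_shift [ConnectedSpace E] (hp : IsGalois Γ p) (hP : Per p w F c)
    (hex : ∃ y, Reg (n := n) p F y) {W : Type} [NormedAddCommGroup W] [InnerProductSpace ℂ W]
    {H : E → W} (hH : SheetHol n p F H) (hε : IsCh p e ε) (g : Γ) (ξ : Fin q → Cm n) :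
    ∃ φ : Cm n → W, (∀ z ∈ ε.target, AnalyticAt ℂ φ z) ∧
      ∀ z ∈ ε.target, Reg (n := n) p F (ε.symm z) →
        (Matrix.of fun i j => fderiv ℂ (F ∘ ε.symm) z (ξ j) i).det • H (g • ε.symm z) = φ z := by
  obtain ⟨B, hB⟩ := hP.hol
  obtain ⟨Φ, h1, h2⟩ := H661.Lim.exists_ext (U := ε.target)
    (A := {z | Reg (n := n) p F (ε.symm z)})
    (f := fun z => (Matrix.of fun i j => fderiv ℂ (F ∘ ε.symm) z (ξ j) i).det • H (g • ε.symm z))
    ε.open_target (dense_ch hp hP hex ε) (by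
      intro z₀ hz₀
      have hy₀ := ε.map_target hz₀
      set y₀ := g • ε.symm z₀ with hy₀'
      have hpe : e (p y₀) = z₀ := by rw [hy₀', p_smul' hp, ch_ep hε hz₀]
      have hAt : At e (p y₀) := by rw [hy₀', p_smul' hp]; exact hε.at hy₀
      have hf'an : AnalyticAt ℂ (fun z => (F ∘ ε.symm) z + c g) (e (p y₀)) := by
        rw [hpe]
        exact (ch_analytic hε hB hz₀).add analyticAt_const
      obtain ⟨φ, h3, h4⟩ := hH.ext y₀ e (fun z => (F ∘ ε.symm) z + c g) hAt hf'an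
        (ch_shift hp hP hε hy₀ g) ξ
      rw [hpe] at h3
      refine ⟨φ, h3, ?_⟩
      have h5 : Tendsto (fun z => g • ε.symm z) (𝓝 z₀) (𝓝 y₀) :=
        (hp.cont g).continuousAt.comp (ε.continuousAt_symm hz₀)
      filter_upwards [h5.eventually h4, ε.open_target.mem_nhds hz₀] with z hz hzt hzR
      have h6 := hz ((hP.reg_smul_iff hp g _).2 hzR)
      rw [p_smul' hp, ch_ep hε hzt] at h6
      rw [← h6, fderiv_add_const])
  exact ⟨Φ, h1, fun z hz hzR => (h2 z hz hzR).symm⟩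

/-- **(c)** growth of the translates of `h` in charts -/
theorem growth_ch (hP : Per p w F c) {h : E → ℂ} (hX : ExFun n Γ p F c h) :
    ∃ k : ℕ, ∀ (e : Chart n X) (ε : OpenPartialHomeomorph E (Cm n)), IsCh p e ε →
      ∀ (ξ : Fin q → Cm n), ∀ z₀ ∈ ε.target, ∃ C : ℝ, ∀ᶠ z in 𝓝 z₀,
        Reg (n := n) p F (ε.symm z) → ∀ g : Γ,
          ‖(Matrix.of fun i j => fderiv ℂ (F ∘ ε.symm) z (ξ j) i).det * h (g • ε.symm z)‖ ≤
            C * (1 + ‖c g‖) ^ k := by
  obtain ⟨B, hB⟩ := hP.hol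
  obtain ⟨k, hk⟩ := hX.growth
  refine ⟨k, fun e ε hε ξ z₀ hz₀ => ?_⟩
  have hy₀ := ε.map_target hz₀
  have hpe : e (p (ε.symm z₀)) = z₀ := ch_ep hε hz₀
  obtain ⟨C, hC⟩ := hk (ε.symm z₀) e (F ∘ ε.symm) (hε.at hy₀)
    (by rw [hpe]; exact ch_analytic hε hB hz₀) (hε.ev hy₀) ξ
  refine ⟨C, ?_⟩
  have h5 : Tendsto ε.symm (𝓝 z₀) (𝓝 (ε.symm z₀)) := ε.continuousAt_symm hz₀
  filter_upwards [h5.eventually hC, ε.open_target.mem_nhds hz₀] with z hz hzt hzR g
  have h6 := hz hzR g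
  rwa [ch_ep hε hzt] at h6

/-- the differential of `F` in two charts related by `g` -/
theorem fderiv_ch (hp : IsGalois Γ p) (hP : Per p w F c) (hε : IsCh p e ε) (hε' : IsCh p e' ε')
    {g : Γ} {y : E} (hy : y ∈ ε.source) (hy' : g • y ∈ ε'.source) :
    fderiv ℂ (F ∘ ε.symm) (ε y) =
      (fderiv ℂ (F ∘ ε'.symm) (ε' (g • y))).comp (fderiv ℂ (fun z => e' (e.symm z)) (ε y)) := by
  obtain ⟨B, hB⟩ := hP.hol
  have ha := hε.at hy
  have ha' := hε'.at hy'
  rw [p_smul' hp] at ha'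
  have hey : ε y = e (p y) := hε.eq y hy
  have hey' : ε' (g • y) = e' (p y) := by rw [hε'.eq _ hy', p_smul' hp]
  have hτ := transition_differentiableAt ha ha'
  have h0 : e' (e.symm (ε y)) = ε' (g • y) := by rw [hey, e.left_inv ha.2, hey']
  -- near `ε y`
  have hc1 : Tendsto ε.symm (𝓝 (ε y)) (𝓝 y) := by
    have := ε.continuousAt_symm (ε.map_source hy)
    unfold ContinuousAt at this
    rwa [ε.left_inv hy] at this
  have hc2 : Tendsto (fun z => g • ε.symm z) (𝓝 (ε y)) (𝓝 (g • y)) :=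
    ((hp.cont g).tendsto y).comp hc1
  have hev : (F ∘ ε.symm) =ᶠ[𝓝 (ε y)] fun z => (F ∘ ε'.symm) (e' (e.symm z)) - c g := by
    filter_upwards [ε.open_target.mem_nhds (ε.map_source hy),
      hc2.eventually (ε'.open_source.mem_nhds hy')] with z hz hz'
    have h1 := hε.at (ε.map_target hz)
    have h2 : e.symm z = p (ε.symm z) := by
      rw [← e.left_inv h1.2, ch_ep hε hz]
    have h3 : e' (e.symm z) = ε' (g • ε.symm z) := by
      rw [h2, hε'.eq _ hz', p_smul' hp]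
    rw [h3, Function.comp_apply, Function.comp_apply, ε'.left_inv hz', hP.equiv, add_sub_cancel_right]
  rw [hev.fderiv_eq, fderiv_sub_const]
  have hd : DifferentiableAt ℂ (F ∘ ε'.symm) (e' (e.symm (ε y))) := by
    rw [h0]
    exact (ch_analytic hε' hB (ε'.map_source hy')).differentiableAt
  have h5 : fderiv ℂ (fun z => (F ∘ ε'.symm) (e' (e.symm z))) (ε y) =
      (fderiv ℂ (F ∘ ε'.symm) (e' (e.symm (ε y)))).comp (fderiv ℂ (fun z => e' (e.symm z)) (ε y)) :=
    fderiv_comp (g := F ∘ ε'.symm) (f := fun z => e' (e.symm z)) _ hd (by rw [hey]; exact hτ)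
  rw [h5, h0]

/-- **(f)** change of charts -/
theorem dt_change (hp : IsGalois Γ p) (hP : Per p w F c) (hε : IsCh p e ε) (hε' : IsCh p e' ε')
    {g : Γ} {y : E} (hy : y ∈ ε.source) (hy' : g • y ∈ ε'.source) (ξ : Fin q → Cm n) :
    ∃ C : ℝ, 0 ≤ C ∧ ∀ᶠ y' in 𝓝 y,
      ‖(Matrix.of fun i j => fderiv ℂ (F ∘ ε.symm) (ε y') (ξ j) i).det‖ ≤
        C * ∑ I : Fin q → Fin n, ‖(Matrix.of fun i j =>
          fderiv ℂ (F ∘ ε'.symm) (ε' (g • y')) (Pi.single (I j) 1) i).det‖ := by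
  have ha := hε.at hy
  have ha' := hε'.at hy'
  rw [p_smul' hp] at ha'
  have hey : ε y = e (p y) := hε.eq y hy
  -- the transition map is analytic near `ε y`
  obtain ⟨M, hM0, hM⟩ : ∃ M : ℝ, 0 ≤ M ∧ ∀ᶠ y' in 𝓝 y, ∀ j,
      ‖fderiv ℂ (fun z => e' (e.symm z)) (ε y') (ξ j)‖ ≤ M := by
    have h1 : ∀ᶠ z in 𝓝 (e (p y)), DifferentiableAt ℂ (fun z => e' (e.symm z)) z := by
      filter_upwards [ha.nhds_at ha'] with z hz
      have h2 := transition_differentiableAt hz.2.1 hz.2.2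
      rwa [e.right_inv hz.1] at h2
    obtain ⟨U, hU, hUo, hz⟩ := _root_.eventually_nhds_iff.1 h1
    have h3 : AnalyticAt ℂ (fun z => e' (e.symm z)) (e (p y)) :=
      Vale.Agent.P281.MF.analyticAt_of_differentiableOn hUo
        (fun z hz => (hU z hz).differentiableWithinAt) hz
    have h4 : ContinuousAt (fderiv ℂ fun z => e' (e.symm z)) (e (p y)) := h3.fderiv.continuousAt
    rw [← hey] at h4
    have h5 : ContinuousAt (fun y' => fderiv ℂ (fun z => e' (e.symm z)) (ε y')) y :=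
      ContinuousAt.comp (g := fderiv ℂ fun z => e' (e.symm z)) h4 (ε.continuousAt hy)
    set N := ‖fderiv ℂ (fun z => e' (e.symm z)) (ε y)‖ + 1 with hN
    have h6 : ∀ᶠ y' in 𝓝 y, ‖fderiv ℂ (fun z => e' (e.symm z)) (ε y')‖ < N :=
      h5.norm.eventually (gt_mem_nhds (by rw [hN]; linarith))
    have hN0 : 0 ≤ N := by positivity
    refine ⟨N * ∑ j, ‖ξ j‖, mul_nonneg hN0 (Finset.sum_nonneg fun _ _ => norm_nonneg _), ?_⟩
    filter_upwards [h6] with y' h7 j
    refine (ContinuousLinearMap.le_opNorm _ _).trans ?_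
    exact mul_le_mul h7.le (Finset.single_le_sum (f := fun j => ‖ξ j‖)
      (fun _ _ => norm_nonneg _) (Finset.mem_univ j)) (norm_nonneg _) hN0
  refine ⟨M ^ q, pow_nonneg hM0 q, ?_⟩
  have hc2 : ∀ᶠ y' in 𝓝 y, g • y' ∈ ε'.source :=
    ((hp.cont g).tendsto y).eventually (ε'.open_source.mem_nhds hy')
  filter_upwards [hM, hc2, ε.open_source.mem_nhds hy] with y' h1 h2 h3
  have h4 := fderiv_ch hp hP hε hε' h3 h2
  have h5 : (Matrix.of fun i j => fderiv ℂ (F ∘ ε.symm) (ε y') (ξ j) i).det =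
      dt (fderiv ℂ (F ∘ ε.symm) (ε y')) ξ := rfl
  rw [h5, h4, dt_comp, Finset.mul_sum]
  refine (norm_sum_le _ _).trans (Finset.sum_le_sum fun I _ => ?_)
  rw [norm_mul]
  refine mul_le_mul_of_nonneg_right ?_ (norm_nonneg _)
  rw [norm_prod]
  calc ∏ j, ‖fderiv ℂ (fun z => e' (e.symm z)) (ε y') (ξ j) (I j)‖ ≤ ∏ _j : Fin q, M :=
        Finset.prod_le_prod (fun _ _ => norm_nonneg _) fun j _ =>
          (norm_le_pi_norm _ (I j)).trans (h1 j)
    _ = M ^ q := by simp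

end

end Vale.Agent.P284.H885.Lim
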