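import Vale.Agent.P284.H885.Etale
import Mathlib.Geometry.Manifold.MFDeriv.SpecificFunctions

/-!
# P284, module COV (helper885), part 2: pull-back of metrics, of weights, of maps by an étale map
-/

open scoped Manifold ContDiff Topology ComplexOrder
open Filter Set

noncomputable section

namespace Vale.Agent.P284.H885

open Vale.Agent.P272.K

variable {n : ℕ} {X Y : Type} [TopologicalSpace X] [TopologicalSpace Y]
  [ChartedSpace (Cm n) X] [ChartedSpace (Cm n) Y] {π : Y → X}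

/-- pull-back of an object `T` which is given in the charts of `X` -/
def pull {α : Sort*} (π : Y → X) (T : Chart n X → α) : Chart n Y → α := fun e' => T (base π e')

lemma Etale.isHermitian (h : Etale n π) {w : Chart n X → Cm n → Matrix (Fin n) (Fin n) ℂ}
    (hw : IsHermitian w) : IsHermitian (pull π w) where
  smooth e' y he i j := by
    rw [h.apply_base he]
    exact hw.smooth _ _ (h.at_base he) i j
  posDef e' y he := by
    rw [h.apply_base he]
    exact hw.posDef _ _ (h.at_base he)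
  change e' e'' y he he' := by
    rw [h.apply_base he, h.apply_base he', h.jacM he he']
    exact hw.change _ _ _ (h.at_base he) (h.at_base he')

/-- the pull-back of a Kähler metric -/
theorem Etale.isKahler (h : Etale n π) {w : Chart n X → Cm n → Matrix (Fin n) (Fin n) ℂ}
    (hw : IsKahler w) : IsKahler (pull π w) where
  toIsHermitian := h.isHermitian hw.toIsHermitian
  closed e' y he i j k := by
    rw [h.apply_base he]
    exact hw.closed _ _ (h.at_base he) i j k

/-- the pull-back of a metric on the canonical bundle -/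
theorem Etale.isCanonicalMetric (h : Etale n π) {φ : Chart n X → Cm n → ℝ}
    (hφ : IsCanonicalMetric φ) : IsCanonicalMetric (pull π φ) where
  smooth e' y he := by
    rw [h.apply_base he]
    exact hφ.smooth _ _ (h.at_base he)
  change e' e'' y he he' := by
    rw [h.apply_base he, h.apply_base he', h.jacM he he']
    exact hφ.change _ _ _ (h.at_base he) (h.at_base he')

lemma Etale.contMDiff [IsManifold 𝓘(ℂ, Cm n) ω X] [IsManifold 𝓘(ℂ, Cm n) ω Y] (h : Etale n π) :
    ContMDiff 𝓘(ℂ, Cm n) 𝓘(ℂ, Cm n) ω π := by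
  intro y
  have hx : At (chartAt (Cm n) (π y)) (π y) := ⟨chart_mem_atlas _ _, mem_chart_source _ _⟩
  obtain ⟨e', he', hb⟩ := h.exists_branch hx
  have h1 := chart_contMDiffAt he'
  have h2 := chart_symm_contMDiffAt hx.1 (w := e' y) (hb.target he'.mem_target)
  have h3 := ContMDiffAt.comp y (g := (chartAt (Cm n) (π y)).symm) h2 h1
  refine h3.congr_of_eventuallyEq ?_
  filter_upwards [e'.open_source.mem_nhds he'.2] with y' hy'
  rw [Function.comp_apply, hb.apply]
  exact ((chartAt (Cm n) (π y)).left_inv (hb.source hy')).symm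

section maps

variable {F : Type*} [NormedAddCommGroup F] [NormedSpace ℂ F] {H : Type*} [TopologicalSpace H]
  {I : ModelWithCorners ℂ F H} {M : Type*} [TopologicalSpace M] [ChartedSpace H M]

/-- a continuous map to `Y` is holomorphic if its composition with `π` is -/
lemma Etale.contMDiffAt_of_comp [IsManifold 𝓘(ℂ, Cm n) ω X] [IsManifold 𝓘(ℂ, Cm n) ω Y]
    (h : Etale n π) {g : M → Y} {a : M} (hg : ContinuousAt g a)
    (hc : ContMDiffAt I 𝓘(ℂ, Cm n) ω (fun t => π (g t)) a) :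
    ContMDiffAt I 𝓘(ℂ, Cm n) ω g a := by
  have hx : At (chartAt (Cm n) (π (g a))) (π (g a)) := ⟨chart_mem_atlas _ _, mem_chart_source _ _⟩
  set e := chartAt (Cm n) (π (g a)) with he
  obtain ⟨e', he', hb⟩ := h.exists_branch hx
  have h1 := chart_contMDiffAt hx
  have h2 := ContMDiffAt.comp a (g := e) h1 hc
  have h3 := chart_symm_contMDiffAt he'.1 he'.mem_target
  rw [hb.apply] at h3
  have h4 := ContMDiffAt.comp a (g := e'.symm) h3 h2
  refine h4.congr_of_eventuallyEq ?_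
  filter_upwards [hg.eventually (e'.open_source.mem_nhds he'.2)] with t ht
  rw [Function.comp_apply, Function.comp_apply, ← hb.apply, e'.left_inv ht]

lemma Etale.contMDiff_of_comp [IsManifold 𝓘(ℂ, Cm n) ω X] [IsManifold 𝓘(ℂ, Cm n) ω Y]
    (h : Etale n π) {g : M → Y} (hg : Continuous g)
    (hc : ContMDiff I 𝓘(ℂ, Cm n) ω fun t => π (g t)) : ContMDiff I 𝓘(ℂ, Cm n) ω g := fun a =>
  h.contMDiffAt_of_comp hg.continuousAt (hc a)

/-- the differential of an étale map is bijective -/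
lemma Etale.mfderiv_bijective [IsManifold 𝓘(ℂ, Cm n) ω X] [IsManifold 𝓘(ℂ, Cm n) ω Y]
    (h : Etale n π) (y : Y) :
    Function.Bijective (mfderiv 𝓘(ℂ, Cm n) 𝓘(ℂ, Cm n) π y) := by
  have hx : At (chartAt (Cm n) (π y)) (π y) := ⟨chart_mem_atlas _ _, mem_chart_source _ _⟩
  set e := chartAt (Cm n) (π y) with he
  obtain ⟨e', he', hb⟩ := h.exists_branch hx
  have h3 := chart_symm_contMDiffAt he'.1 he'.mem_target
  rw [hb.apply] at h3
  -- the local inverse of `π`
  have hs : ContMDiffAt 𝓘(ℂ, Cm n) 𝓘(ℂ, Cm n) ω (fun x => e'.symm (e x)) (π y) :=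
    ContMDiffAt.comp (π y) (g := e'.symm) h3 (chart_contMDiffAt hx)
  have hs0 : e'.symm (e (π y)) = y := by rw [← hb.apply]; exact e'.left_inv he'.2
  have hπ : MDifferentiableAt 𝓘(ℂ, Cm n) 𝓘(ℂ, Cm n) π y :=
    (h.contMDiff y).mdifferentiableAt (by simp)
  have hsd : MDifferentiableAt 𝓘(ℂ, Cm n) 𝓘(ℂ, Cm n) (fun x => e'.symm (e x)) (π y) :=
    hs.mdifferentiableAt (by simp)
  have h5 : (fun y' => e'.symm (e (π y'))) =ᶠ[𝓝 y] id := by
    filter_upwards [e'.open_source.mem_nhds he'.2] with y' hy'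
    rw [← hb.apply]; exact e'.left_inv hy'
  have h6 : (fun x => π (e'.symm (e x))) =ᶠ[𝓝 (π y)] id := by
    have h7 : ∀ᶠ x in 𝓝 (π y), e x ∈ e'.target := by
      have h8 : ContinuousAt e (π y) := e.continuousAt hx.2
      refine h8.eventually (e'.open_target.mem_nhds ?_)
      rw [← hb.apply]; exact he'.mem_target
    filter_upwards [h7, e.open_source.mem_nhds hx.2] with x hx1 hx2
    rw [hb.symm_apply hx1]; exact e.left_inv hx2
  constructor
  · have h8 : mfderiv 𝓘(ℂ, Cm n) 𝓘(ℂ, Cm n) (fun y' => e'.symm (e (π y'))) y =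
        ContinuousLinearMap.id ℂ _ := by
      rw [h5.mfderiv_eq]; exact mfderiv_id
    have h9 := mfderiv_comp y (g := fun x => e'.symm (e x)) hsd hπ
    have h10 : ∀ v, mfderiv 𝓘(ℂ, Cm n) 𝓘(ℂ, Cm n) (fun x => e'.symm (e x)) (π y)
        (mfderiv 𝓘(ℂ, Cm n) 𝓘(ℂ, Cm n) π y v) = v := by
      intro v
      have h11 := congrArg (fun L => L v) h9
      have h12 := congrArg (fun L => L v) h8
      exact h11.symm.trans h12
    exact Function.LeftInverse.injective h10
  · have h8 : mfderiv 𝓘(ℂ, Cm n) 𝓘(ℂ, Cm n) (fun x => π (e'.symm (e x))) (π y) =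
        ContinuousLinearMap.id ℂ _ := by
      rw [h6.mfderiv_eq]; exact mfderiv_id
    have hπ' : MDifferentiableAt 𝓘(ℂ, Cm n) 𝓘(ℂ, Cm n) π (e'.symm (e (π y))) := by
      rw [hs0]; exact hπ
    have h9 := mfderiv_comp (π y) (g := π) (f := fun x => e'.symm (e x)) hπ' hsd
    intro v
    have h11 := congrArg (fun L => L v) h9
    have h12 := congrArg (fun L => L v) h8
    refine ⟨mfderiv 𝓘(ℂ, Cm n) 𝓘(ℂ, Cm n) (fun x => e'.symm (e x)) (π y) v, ?_⟩
    have h13 : mfderiv 𝓘(ℂ, Cm n) 𝓘(ℂ, Cm n) π (e'.symm (e (π y)))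
        (mfderiv 𝓘(ℂ, Cm n) 𝓘(ℂ, Cm n) (fun x => e'.symm (e x)) (π y) v) = v :=
      h11.symm.trans h12
    have h14 : ∀ y₂, y₂ = y → (mfderiv 𝓘(ℂ, Cm n) 𝓘(ℂ, Cm n) π y₂ : Cm n → Cm n)
      = mfderiv 𝓘(ℂ, Cm n) 𝓘(ℂ, Cm n) π y := by
      rintro y₂ rfl; rfl
    rw [← h14 _ hs0]
    exact h13

/-- the rank of a map to `Y` is the rank of its composition with `π` -/
lemma Etale.mfderiv_comp [IsManifold 𝓘(ℂ, Cm n) ω X] [IsManifold 𝓘(ℂ, Cm n) ω Y]
    (h : Etale n π) {g : M → Y} {a : M} (hg : MDifferentiableAt I 𝓘(ℂ, Cm n) g a) :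
    mfderiv I 𝓘(ℂ, Cm n) (fun t => π (g t)) a =
      (mfderiv 𝓘(ℂ, Cm n) 𝓘(ℂ, Cm n) π (g a)).comp (mfderiv I 𝓘(ℂ, Cm n) g a) :=
  _root_.mfderiv_comp a (g := π) ((h.contMDiff (g a)).mdifferentiableAt (by simp)) hg

lemma Etale.surjective_iff [IsManifold 𝓘(ℂ, Cm n) ω X] [IsManifold 𝓘(ℂ, Cm n) ω Y]
    (h : Etale n π) {g : M → Y} {a : M} (hg : MDifferentiableAt I 𝓘(ℂ, Cm n) g a) :
    Function.Surjective (mfderiv I 𝓘(ℂ, Cm n) (fun t => π (g t)) a) ↔
      Function.Surjective (mfderiv I 𝓘(ℂ, Cm n) g a) := by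
  have hb := h.mfderiv_bijective (g a)
  rw [h.mfderiv_comp hg]
  constructor
  · intro hs v
    obtain ⟨u, hu⟩ := hs (mfderiv 𝓘(ℂ, Cm n) 𝓘(ℂ, Cm n) π (g a) v)
    exact ⟨u, hb.1 hu⟩
  · intro hs
    exact hb.2.comp hs

lemma Etale.injective_iff [IsManifold 𝓘(ℂ, Cm n) ω X] [IsManifold 𝓘(ℂ, Cm n) ω Y]
    (h : Etale n π) {g : M → Y} {a : M} (hg : MDifferentiableAt I 𝓘(ℂ, Cm n) g a) :
    Function.Injective (mfderiv I 𝓘(ℂ, Cm n) (fun t => π (g t)) a) ↔
      Function.Injective (mfderiv I 𝓘(ℂ, Cm n) g a) := by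
  have hb := h.mfderiv_bijective (g a)
  rw [h.mfderiv_comp hg]
  constructor
  · intro hs
    exact Function.Injective.of_comp (f := mfderiv 𝓘(ℂ, Cm n) 𝓘(ℂ, Cm n) π (g a)) hs
  · intro hs
    exact hb.1.comp hs

end maps

end Vale.Agent.P284.H885
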