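import Vale.Agent.P284.H885.Ker2
import Vale.Agent.P284.H378.CS
import Vale.Agent.P281.MF.Hol

/-!
# P284 (helper885), D_K: the regular fibre `F = t` as a complex manifold
-/

open scoped Manifold ContDiff Topology InnerProductSpace ComplexConjugate
open Filter Set Metric

noncomputable section

namespace Vale.Agent.P284.H885.DK

open Vale.Agent.P272.K Vale.Agent.P284.H894.G Vale.Agent.P284.H894.V Vale.Agent.P284.H894.W
  Vale.Agent.P284.H213.Grp Vale.Agent.P284.H619 Vale.Agent.P284.H10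

/-- Straightening of a submersion: a chart `Φ = (f, ℓ)` of `ℂⁿ` near `z₁`. -/
theorem exists_Phi {n q d : ℕ} (hd : n = q + d) {f : Cm n → Cm q} {z₁ : Cm n}
    (hf : AnalyticAt ℂ f z₁) (hs : Function.Surjective (fderiv ℂ f z₁)) :
    ∃ Φ : OpenPartialHomeomorph (Cm n) (Cm q × Cm d), z₁ ∈ Φ.source ∧ (∀ z, (Φ z).1 = f z) ∧
      (Φ z₁).2 = 0 ∧
      (∀ z ∈ Φ.source, AnalyticAt ℂ Φ z) ∧ ∀ w ∈ Φ.target, AnalyticAt ℂ Φ.symm w := by
  classical
  set L : Cm n →L[ℂ] Cm q := fderiv ℂ f z₁ with hL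
  let N : Submodule ℂ (Cm n) := LinearMap.ker (L : Cm n →ₗ[ℂ] Cm q)
  have hdim : Module.finrank ℂ N = d := by
    have h1 := LinearMap.finrank_range_add_finrank_ker (L : Cm n →ₗ[ℂ] Cm q)
    have h2 : LinearMap.range (L : Cm n →ₗ[ℂ] Cm q) = ⊤ := LinearMap.range_eq_top.2 hs
    rw [h2, finrank_top] at h1
    simp only [Module.finrank_fintype_fun_eq_card, Fintype.card_fin] at h1
    have h3 : Module.finrank ℂ (LinearMap.ker (L : Cm n →ₗ[ℂ] Cm q)) = d := by omega
    exact h3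
  obtain ⟨P, hP⟩ : ∃ P : Cm n →L[ℂ] N, ∀ x : N, P x = x :=
    Submodule.ClosedComplemented.of_finiteDimensional_quotient
      (Submodule.closed_of_finiteDimensional N)
  let j : N ≃L[ℂ] Cm d := ContinuousLinearEquiv.ofFinrankEq (by simp [hdim])
  set Q : Cm n →L[ℂ] Cm d := (j : N →L[ℂ] Cm d).comp P with hQ
  have hbij : Function.Bijective (L.prod Q) := by
    constructor
    · rw [injective_iff_map_eq_zero]
      intro v hv
      have h1 : L v = 0 := congrArg Prod.fst hv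
      have h2 : Q v = 0 := congrArg Prod.snd hv
      have h2' : P v = 0 := by
        have : j (P v) = 0 := h2
        simpa using this
      have h3 : v ∈ N := h1
      have h4 : P v = ⟨v, h3⟩ := hP ⟨v, h3⟩
      rw [h4] at h2'
      exact congrArg Subtype.val h2'
    · rintro ⟨a, b⟩
      obtain ⟨v, hv⟩ := hs a
      refine ⟨v - P v + (j.symm b : N), Prod.ext ?_ ?_⟩
      · show L (v - P v + (j.symm b : N)) = a
        have h5 : L (P v : Cm n) = 0 := (P v).2
        have h6 : L ((j.symm b : N) : Cm n) = 0 := (j.symm b : N).2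
        rw [map_add, map_sub, h5, h6, sub_zero, add_zero]
        exact hv
      · show j (P (v - P v + (j.symm b : N))) = b
        rw [map_add P, map_sub P, hP, hP, sub_self, zero_add]
        exact j.apply_symm_apply b
  let i : Cm n ≃L[ℂ] (Cm q × Cm d) := ContinuousLinearEquiv.ofBijective (L.prod Q)
    (LinearMap.ker_eq_bot.2 hbij.1) (LinearMap.range_eq_top.2 hbij.2)
  let G : Cm n → Cm q × Cm d := fun z => (f z, Q (z - z₁))
  have hGan : ∀ z, AnalyticAt ℂ f z → AnalyticAt ℂ G z := fun z hz =>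
    hz.prod ((Q.analyticAt _).comp (analyticAt_id.sub analyticAt_const))
  have hGd : HasStrictFDerivAt G (i : Cm n →L[ℂ] (Cm q × Cm d)) z₁ := by
    have h1 : HasStrictFDerivAt f L z₁ := hf.hasStrictFDerivAt
    have h2 : HasStrictFDerivAt (fun z => Q (z - z₁)) Q z₁ := by
      have h3 : HasStrictFDerivAt (fun z : Cm n => z - z₁) (ContinuousLinearMap.id ℂ (Cm n)) z₁ :=
        (hasStrictFDerivAt_id z₁).sub_const z₁
      have h4 : HasStrictFDerivAt Q Q (z₁ - z₁) := Q.hasStrictFDerivAt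
      exact HasStrictFDerivAt.comp (g := Q) (f := fun z : Cm n => z - z₁) z₁ h4 h3
    exact h1.prodMk h2
  let Φ₀ := hGd.toOpenPartialHomeomorph G
  have ha : z₁ ∈ Φ₀.source := hGd.mem_toOpenPartialHomeomorph_source
  have hG0 : ∀ z, Φ₀ z = G z := fun z => rfl
  have hsymm : AnalyticAt ℂ Φ₀.symm (Φ₀ z₁) :=
    OpenPartialHomeomorph.analyticAt_symm' Φ₀ ha (hGan z₁ hf) (hGd.hasFDerivAt.fderiv)
  -- restrict the source and the target
  let Φ₁ := Φ₀.restrOpen {z | AnalyticAt ℂ f z} (isOpen_analyticAt ℂ f)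
  have hV : IsOpen {w | AnalyticAt ℂ Φ₀.symm w} := isOpen_analyticAt ℂ Φ₀.symm
  let Φ₂ := (Φ₁.symm.restrOpen {w | AnalyticAt ℂ Φ₀.symm w} hV).symm
  have hsrc : ∀ z, z ∈ Φ₂.source → z ∈ Φ₀.source ∧ AnalyticAt ℂ f z := by
    intro z hz
    have h1 : z ∈ (Φ₁.symm.restrOpen {w | AnalyticAt ℂ Φ₀.symm w} hV).target := hz
    have h2 : z ∈ Φ₁.source := by
      have := (Φ₁.symm.restrOpen {w | AnalyticAt ℂ Φ₀.symm w} hV).map_target h1
      rw [OpenPartialHomeomorph.restrOpen_source] at this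
      have h3 := Φ₁.map_target this.1
      have h4 : Φ₁.symm ((Φ₁.symm.restrOpen {w | AnalyticAt ℂ Φ₀.symm w} hV).symm z) = z :=
        (Φ₁.symm.restrOpen {w | AnalyticAt ℂ Φ₀.symm w} hV).right_inv h1
      rw [h4] at h3
      exact h3
    rw [OpenPartialHomeomorph.restrOpen_source] at h2
    exact h2
  refine ⟨Φ₂, ?_, fun z => rfl, ?_, fun z hz => hGan z (hsrc z hz).2, ?_⟩
  · show z₁ ∈ (Φ₁.symm.restrOpen {w | AnalyticAt ℂ Φ₀.symm w} hV).target
    have h1 : z₁ ∈ Φ₁.source := by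
      rw [OpenPartialHomeomorph.restrOpen_source]
      exact ⟨ha, hf⟩
    have h2 : Φ₁ z₁ ∈ (Φ₁.symm.restrOpen {w | AnalyticAt ℂ Φ₀.symm w} hV).source := by
      rw [OpenPartialHomeomorph.restrOpen_source]
      exact ⟨Φ₁.map_source h1, hsymm⟩
    have h3 := (Φ₁.symm.restrOpen {w | AnalyticAt ℂ Φ₀.symm w} hV).map_source h2
    have h4 : (Φ₁.symm.restrOpen {w | AnalyticAt ℂ Φ₀.symm w} hV) (Φ₁ z₁) = z₁ := Φ₁.left_inv h1
    rw [h4] at h3
    exact h3
  · show Q (z₁ - z₁) = 0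
    rw [sub_self, map_zero]
  · intro w hw
    have h1 : w ∈ (Φ₁.symm.restrOpen {w | AnalyticAt ℂ Φ₀.symm w} hV).source := hw
    rw [OpenPartialHomeomorph.restrOpen_source] at h1
    exact h1.2

section
variable {n q d : ℕ} {X : Type} [TopologicalSpace X] [ChartedSpace (Cm n) X]
  {E : Type} [TopologicalSpace E] {p : E → X}
  {w : Chart n X → Cm n → Matrix (Fin n) (Fin n) ℂ} {B : ℝ} {F : E → Cm q} {t : Cm q}

/-- `κ` is a chart of the fibre `F = t`, given by the chart `e` of `X`. -/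
structure FC (p : E → X) (F : E → Cm q) (t : Cm q)
    (κ : OpenPartialHomeomorph (F ⁻¹' {t}) (Cm d)) (e : Chart n X) (φ : Cm n → Cm d) : Prop where
  mem : ∀ y ∈ κ.source, At e (p (y : E))
  an : ∀ s ∈ κ.target, AnalyticAt ℂ (fun s => e (p (κ.symm s : E))) s
  eq : ∀ y ∈ κ.source, κ y = φ (e (p (y : E)))
  φan : ∀ y ∈ κ.source, AnalyticAt ℂ φ (e (p (y : E)))
  /-- the tangent vectors are vertical -/
  tan : ∀ s ∈ κ.target, ∀ η, fderiv ℂ (fun s => e (p (κ.symm s : E))) s η ∈ VS p F (κ.symm s : E) e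
  /-- all vertical vectors are tangent vectors -/
  sur : ∀ s ∈ κ.target, ∀ ξ ∈ VS p F (κ.symm s : E) e,
    fderiv ℂ (fun s => e (p (κ.symm s : E))) s (fderiv ℂ φ (e (p (κ.symm s : E))) ξ) = ξ

/-- existence of charts of the fibre, with a ball as target -/
theorem exists_fc (hd : n = q + d) (hp : IsCoveringMap p) (hF : HolB p w F B)
    (y₁ : F ⁻¹' {t}) (hreg : Reg (n := n) p F (y₁ : E)) {O : Set (F ⁻¹' {t})} (hO : O ∈ 𝓝 y₁) :
    ∃ (κ : OpenPartialHomeomorph (F ⁻¹' {t}) (Cm d)) (e : Chart n X) (φ : Cm n → Cm d),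
      FC p F t κ e φ ∧ y₁ ∈ κ.source ∧ κ.source ⊆ O ∧ κ y₁ = 0 ∧ ∃ r > 0, κ.target = ball 0 r := by
  classical
  obtain ⟨e, ε, hε, hy₁, -, -⟩ := exists_ch (n := n) hp (y₁ : E) univ_mem
  have ht : F (y₁ : E) = t := y₁.2
  have hfan : AnalyticAt ℂ (F ∘ ε.symm) (ε y₁) :=
    Vale.Agent.P281.MF.analyticAt_of_differentiableOn ε.open_target (hε.diff hF) (ε.map_source hy₁)
  have hfs := (hreg e _ (hε.at hy₁) (hε.ev hy₁))
  rw [← hε.eq _ hy₁] at hfs
  obtain ⟨Φ, h1, h2, h20, h3, h4⟩ := exists_Phi hd hfan hfs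
  -- the inverse
  have hmemF : ∀ s : Cm d, (t, s) ∈ Φ.target → F (ε.symm (Φ.symm (t, s))) = t := by
    intro s hs
    have h5 := h2 (Φ.symm (t, s))
    rw [Φ.right_inv hs] at h5
    exact h5.symm
  let inv : Cm d → F ⁻¹' {t} := fun s => if h : F (ε.symm (Φ.symm (t, s))) = t then
    ⟨ε.symm (Φ.symm (t, s)), h⟩ else y₁
  have hinv : ∀ s : Cm d, (t, s) ∈ Φ.target → ((inv s : F ⁻¹' {t}) : E) = ε.symm (Φ.symm (t, s)) := by
    intro s hs
    show ((if h : F (ε.symm (Φ.symm (t, s))) = t then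
      (⟨ε.symm (Φ.symm (t, s)), h⟩ : F ⁻¹' {t}) else y₁ : F ⁻¹' {t}) : E) = _
    rw [dif_pos (hmemF s hs)]
  have hpt : ∀ y : F ⁻¹' {t}, (y : E) ∈ ε.source → (Φ (ε y)).1 = t := by
    intro y hy
    rw [h2, Function.comp_apply, ε.left_inv hy]
    exact y.2
  have hpt' : ∀ y : F ⁻¹' {t}, (y : E) ∈ ε.source → (t, (Φ (ε y)).2) = Φ (ε y) := fun y hy =>
    Prod.ext (hpt y hy).symm rfl
  have hcont : Continuous (fun s : Cm d => ((t, s) : Cm q × Cm d)) := by fun_prop
  have hcE : ContinuousOn (fun y : F ⁻¹' {t} => ε (y : E)) {y | (y : E) ∈ ε.source} :=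
    ε.continuousOn.comp continuous_subtype_val.continuousOn fun y hy => hy
  have hcS : ContinuousOn (fun s : Cm d => Φ.symm (t, s)) {s | (t, s) ∈ Φ.target} :=
    Φ.continuousOn_symm.comp hcont.continuousOn fun s hs => hs
  let κ₀ : OpenPartialHomeomorph (F ⁻¹' {t}) (Cm d) :=
    { toFun := fun y => (Φ (ε (y : E))).2
      invFun := inv
      source := {y | (y : E) ∈ ε.source ∧ ε (y : E) ∈ Φ.source}
      target := {s | (t, s) ∈ Φ.target ∧ Φ.symm (t, s) ∈ ε.target}
      map_source' := by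
        rintro y ⟨hy1, hy2⟩
        refine ⟨?_, ?_⟩
        · show (t, (Φ (ε (y : E))).2) ∈ Φ.target
          rw [hpt' y hy1]; exact Φ.map_source hy2
        · show Φ.symm (t, (Φ (ε (y : E))).2) ∈ ε.target
          rw [hpt' y hy1, Φ.left_inv hy2]; exact ε.map_source hy1
      map_target' := by
        rintro s ⟨hs1, hs2⟩
        refine ⟨?_, ?_⟩
        · show ((inv s : F ⁻¹' {t}) : E) ∈ ε.source
          rw [hinv s hs1]; exact ε.map_target hs2
        · show ε ((inv s : F ⁻¹' {t}) : E) ∈ Φ.source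
          rw [hinv s hs1, ε.right_inv hs2]; exact Φ.map_target hs1
      left_inv' := by
        rintro y ⟨hy1, hy2⟩
        apply Subtype.ext
        have h5 : (t, (Φ (ε (y : E))).2) ∈ Φ.target := by
          rw [hpt' y hy1]; exact Φ.map_source hy2
        rw [hinv _ h5, hpt' y hy1, Φ.left_inv hy2, ε.left_inv hy1]
      right_inv' := by
        rintro s ⟨hs1, hs2⟩
        show (Φ (ε ((inv s : F ⁻¹' {t}) : E))).2 = s
        rw [hinv s hs1, ε.right_inv hs2, Φ.right_inv hs1]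
      open_source := by
        have := hcE.isOpen_inter_preimage (ε.open_source.preimage continuous_subtype_val)
          Φ.open_source
        exact this
      open_target := by
        have := hcS.isOpen_inter_preimage (Φ.open_target.preimage hcont) ε.open_target
        exact this
      continuousOn_toFun := by
        refine continuous_snd.comp_continuousOn ?_
        exact Φ.continuousOn.comp (hcE.mono fun y hy => hy.1) fun y hy => hy.2
      continuousOn_invFun := by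
        rw [Topology.IsInducing.subtypeVal.continuousOn_iff]
        have h5 : ContinuousOn (fun s : Cm d => ε.symm (Φ.symm (t, s)))
            {s | (t, s) ∈ Φ.target ∧ Φ.symm (t, s) ∈ ε.target} :=
          ε.continuousOn_symm.comp (hcS.mono fun s hs => hs.1) fun s hs => hs.2
        exact h5.congr fun s hs => hinv s hs.1 }
  have hκy₁ : κ₀ y₁ = 0 := h20
  have hy₁κ : y₁ ∈ κ₀.source := ⟨hy₁, h1⟩
  -- the maps
  have hα : ∀ s, s ∈ κ₀.target → ∀ᶠ s' in 𝓝 s, e (p ((κ₀.symm s' : F ⁻¹' {t}) : E)) =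
      Φ.symm (t, s') := by
    intro s hs
    filter_upwards [κ₀.open_target.mem_nhds hs] with s' hs'
    have h5 : ((κ₀.symm s' : F ⁻¹' {t}) : E) = ε.symm (Φ.symm (t, s')) := hinv s' hs'.1
    rw [h5, ← hε.eq _ (ε.map_target hs'.2), ε.right_inv hs'.2]
  have hΦs : ∀ s, s ∈ κ₀.target → AnalyticAt ℂ (fun s' : Cm d => Φ.symm (t, s')) s := fun s hs =>
    AnalyticAt.comp (g := Φ.symm) (f := fun s' : Cm d => ((t, s') : Cm q × Cm d)) (h4 _ hs.1)
      (analyticAt_const.prod analyticAt_id)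
  have hFC : FC p F t κ₀ e (fun z => (Φ z).2) := by
    refine ⟨fun y hy => hε.at hy.1, fun s hs => (hΦs s hs).congr ?_, fun y hy => ?_, fun y hy => ?_,
      fun s hs η => ?_, fun s hs ξ hξ => ?_⟩
    · exact (hα s hs).mono fun _ h => h.symm
    · rw [← hε.eq _ hy.1]; rfl
    · rw [← hε.eq _ hy.1]
      exact analyticAt_snd.comp (h3 _ hy.2)
    · -- tangent vectors are vertical
      set y := κ₀.symm s with hy
      have hys : y ∈ κ₀.source := κ₀.map_target hs
      have hev := hε.ev (F := F) hys.1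
      rw [mem_VS hp (hε.at hys.1) hev]
      have hep : e (p (y : E)) = Φ.symm (t, s) := (hα s hs).self_of_nhds
      have h6 : DifferentiableAt ℂ (F ∘ ε.symm) (e (p (y : E))) := by
        rw [← hε.eq _ hys.1]
        exact (hε.diff hF _ (ε.map_source hys.1)).differentiableAt
          (ε.open_target.mem_nhds (ε.map_source hys.1))
      have h7 : DifferentiableAt ℂ (fun s => e (p ((κ₀.symm s : F ⁻¹' {t}) : E))) s :=
        ((hΦs s hs).congr ((hα s hs).mono fun _ h => h.symm)).differentiableAt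
      have h8 : HasFDerivAt (fun s' => (F ∘ ε.symm) (e (p ((κ₀.symm s' : F ⁻¹' {t}) : E))))
          ((fderiv ℂ (F ∘ ε.symm) (e (p (y : E)))).comp
            (fderiv ℂ (fun s => e (p ((κ₀.symm s : F ⁻¹' {t}) : E))) s)) s :=
        HasFDerivAt.comp (g := F ∘ ε.symm) (f := fun s => e (p ((κ₀.symm s : F ⁻¹' {t}) : E))) s
          h6.hasFDerivAt h7.hasFDerivAt
      have h9 : HasFDerivAt (fun s' => (F ∘ ε.symm) (e (p ((κ₀.symm s' : F ⁻¹' {t}) : E))))
          (0 : Cm d →L[ℂ] Cm q) s := by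
        refine (hasFDerivAt_const t s).congr_of_eventuallyEq ?_
        filter_upwards [hα s hs, κ₀.open_target.mem_nhds hs] with s' a b
        rw [a]
        exact hmemF s' b.1
      exact congrArg (fun M => M η) (h8.unique h9)
    · -- all vertical vectors
      set y := κ₀.symm s with hy
      have hys : y ∈ κ₀.source := κ₀.map_target hs
      have hev := hε.ev (F := F) hys.1
      have hep : e (p (y : E)) = Φ.symm (t, s) := (hα s hs).self_of_nhds
      have hξ' := (mem_VS hp (hε.at hys.1) hev).1 hξ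
      set z := e (p (y : E)) with hz
      have hzs : z ∈ Φ.source := by rw [hep]; exact Φ.map_target hs.1
      have hzΦ : Φ z = (t, s) := by rw [hep]; exact Φ.right_inv hs.1
      have h6 : HasFDerivAt Φ (fderiv ℂ Φ z) z := (h3 z hzs).differentiableAt.hasFDerivAt
      have h7 : HasFDerivAt Φ.symm (fderiv ℂ Φ.symm (t, s)) (Φ z) := by
        rw [hzΦ]; exact (h4 _ hs.1).differentiableAt.hasFDerivAt
      have h8 : HasFDerivAt (fun z => Φ.symm (Φ z)) ((fderiv ℂ Φ.symm (t, s)).comp (fderiv ℂ Φ z)) z :=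
        HasFDerivAt.comp (g := Φ.symm) z h7 h6
      have h9 : HasFDerivAt (fun z => Φ.symm (Φ z)) (ContinuousLinearMap.id ℂ (Cm n)) z := by
        refine (hasFDerivAt_id z).congr_of_eventuallyEq ?_
        filter_upwards [Φ.open_source.mem_nhds hzs] with z' hz' using Φ.left_inv hz'
      have h10 : fderiv ℂ Φ.symm (t, s) (fderiv ℂ Φ z ξ) = ξ :=
        congrArg (fun M => M ξ) (h8.unique h9)
      -- components of `DΦ ξ`
      have h11 : (fderiv ℂ Φ z ξ).1 = 0 := by
        have h12 : HasFDerivAt (fun z => (Φ z).1) ((ContinuousLinearMap.fst ℂ (Cm q) (Cm d)).comp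
            (fderiv ℂ Φ z)) z := (ContinuousLinearMap.fst ℂ (Cm q) (Cm d)).hasFDerivAt.comp z h6
        have h13 : (fun z => (Φ z).1) = F ∘ ε.symm := funext h2
        rw [h13] at h12
        have h14 := congrArg (fun M => M ξ) h12.fderiv
        rw [← hξ']
        exact h14.symm
      have h15 : fderiv ℂ (fun z => (Φ z).2) z ξ = (fderiv ℂ Φ z ξ).2 := by
        have h12 : HasFDerivAt (fun z => (Φ z).2) ((ContinuousLinearMap.snd ℂ (Cm q) (Cm d)).comp
            (fderiv ℂ Φ z)) z := (ContinuousLinearMap.snd ℂ (Cm q) (Cm d)).hasFDerivAt.comp z h6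
        rw [h12.fderiv]; rfl
      have h16 : fderiv ℂ (fun s => e (p ((κ₀.symm s : F ⁻¹' {t}) : E))) s =
          (fderiv ℂ Φ.symm (t, s)).comp (ContinuousLinearMap.inr ℂ (Cm q) (Cm d)) := by
        have h17 : HasFDerivAt (fun s' : Cm d => ((t, s') : Cm q × Cm d))
            (ContinuousLinearMap.inr ℂ (Cm q) (Cm d)) s := hasFDerivAt_prodMk_right t s
        have h18 : HasFDerivAt (fun s' : Cm d => Φ.symm (t, s'))
            ((fderiv ℂ Φ.symm (t, s)).comp (ContinuousLinearMap.inr ℂ (Cm q) (Cm d))) s :=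
          HasFDerivAt.comp (g := Φ.symm) s (h4 _ hs.1).differentiableAt.hasFDerivAt h17
        exact (h18.congr_of_eventuallyEq (hα s hs)).fderiv
      rw [h16, h15]
      show fderiv ℂ Φ.symm (t, s) ((0 : Cm q), (fderiv ℂ Φ z ξ).2) = ξ
      rw [← h11]
      exact h10
  -- shrink the target to a ball
  have hOs : (κ₀.target ∩ κ₀.symm ⁻¹' (interior O)) ∈ 𝓝 (0 : Cm d) := by
    have h5 : IsOpen (κ₀.target ∩ κ₀.symm ⁻¹' (interior O)) :=
      κ₀.symm.isOpen_inter_preimage isOpen_interior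
    refine h5.mem_nhds ⟨?_, ?_⟩
    · rw [← hκy₁]; exact κ₀.map_source hy₁κ
    · show κ₀.symm 0 ∈ interior O
      rw [← hκy₁, κ₀.left_inv hy₁κ]
      exact mem_interior_iff_mem_nhds.2 hO
  obtain ⟨r, hr, hball⟩ := Metric.mem_nhds_iff.1 hOs
  let κ := (κ₀.symm.restrOpen (ball 0 r) isOpen_ball).symm
  have hκt : κ.target = ball 0 r := by
    show (κ₀.symm.restrOpen (ball 0 r) isOpen_ball).source = _
    rw [OpenPartialHomeomorph.restrOpen_source]
    exact inter_eq_right.2 fun s hs => (hball hs).1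
  have hκs : ∀ y ∈ κ.source, y ∈ κ₀.source ∧ κ₀ y ∈ ball (0 : Cm d) r := by
    intro y hy
    have h5 : y ∈ (κ₀.symm.restrOpen (ball 0 r) isOpen_ball).target := hy
    have h6 := κ.map_source hy
    rw [hκt] at h6
    have h7 : κ.symm (κ y) = y := κ.left_inv hy
    have h8 : κ₀.symm (κ y) = y := h7
    refine ⟨?_, h6⟩
    rw [← h8]
    exact κ₀.map_target (hball h6).1
  refine ⟨κ, e, fun z => (Φ z).2, ⟨fun y hy => hFC.mem y (hκs y hy).1, fun s hs => ?_,
    fun y hy => hFC.eq y (hκs y hy).1, fun y hy => hFC.φan y (hκs y hy).1, fun s hs => ?_,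
    fun s hs => ?_⟩, ?_, ?_, hκy₁, r, hr, hκt⟩
  · rw [hκt] at hs
    exact hFC.an s (hball hs).1
  · rw [hκt] at hs
    exact hFC.tan s (hball hs).1
  · rw [hκt] at hs
    exact hFC.sur s (hball hs).1
  · have h5 : (0 : Cm d) ∈ κ.target := by rw [hκt]; exact mem_ball_self hr
    have h6 := κ.map_target h5
    have h7 : κ.symm 0 = y₁ := by
      show κ₀.symm 0 = y₁
      rw [← hκy₁]; exact κ₀.left_inv hy₁κ
    rwa [h7] at h6
  · intro y hy
    obtain ⟨h5, h6⟩ := hκs y hy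
    have h7 := (hball h6).2
    have h8 : κ₀.symm (κ₀ y) = y := κ₀.left_inv h5
    rw [mem_preimage, h8] at h7
    exact interior_subset h7

/-- transition maps are analytic -/
theorem FC.trans [IsManifold 𝓘(ℂ, Cm n) ω X] {κ₁ κ₂ : OpenPartialHomeomorph (F ⁻¹' {t}) (Cm d)}
    {e₁ e₂ : Chart n X} {φ₁ φ₂ : Cm n → Cm d} (h₁ : FC p F t κ₁ e₁ φ₁) (h₂ : FC p F t κ₂ e₂ φ₂)
    {s : Cm d} (hs : s ∈ κ₁.target) (hs' : κ₁.symm s ∈ κ₂.source) :
    AnalyticAt ℂ (fun s => κ₂ (κ₁.symm s)) s := by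
  have hat₁ := h₁.mem _ (κ₁.map_target hs)
  have hat₂ := h₂.mem _ hs'
  have hc : Tendsto κ₁.symm (𝓝 s) (𝓝 (κ₁.symm s)) := κ₁.continuousAt_symm hs
  have hτ : AnalyticAt ℂ (fun z => e₂ (e₁.symm z)) (e₁ (p (κ₁.symm s : E))) := by
    have h1 : ∀ᶠ z in 𝓝 (e₁ (p (κ₁.symm s : E))),
        DifferentiableAt ℂ (fun z => e₂ (e₁.symm z)) z := by
      filter_upwards [hat₁.nhds_at hat₂] with z hz
      have h2 := transition_differentiableAt hz.2.1 hz.2.2
      rwa [e₁.right_inv hz.1] at h2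
    obtain ⟨U, hU, hUo, hz⟩ := _root_.eventually_nhds_iff.1 h1
    exact Vale.Agent.P281.MF.analyticAt_of_differentiableOn hUo
      (fun z hz => (hU z hz).differentiableWithinAt) hz
  have h0 : e₂ (e₁.symm (e₁ (p (κ₁.symm s : E)))) = e₂ (p (κ₁.symm s : E)) := by
    rw [e₁.left_inv hat₁.2]
  have h3 : AnalyticAt ℂ φ₂ (e₂ (e₁.symm (e₁ (p (κ₁.symm s : E))))) := by
    rw [h0]; exact h₂.φan _ hs'
  have h4 : AnalyticAt ℂ (fun s' => φ₂ (e₂ (e₁.symm (e₁ (p (κ₁.symm s' : E)))))) s :=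
    AnalyticAt.comp (g := fun z => φ₂ (e₂ (e₁.symm z))) (f := fun s' => e₁ (p (κ₁.symm s' : E)))
      (AnalyticAt.comp (g := φ₂) (f := fun z => e₂ (e₁.symm z)) h3 hτ) (h₁.an s hs)
  refine h4.congr ?_
  filter_upwards [hc.eventually (κ₂.open_source.mem_nhds hs'), κ₁.open_target.mem_nhds hs]
    with s' a b
  have hb := h₁.mem _ (κ₁.map_target b)
  rw [e₁.left_inv hb.2, h₂.eq _ a]

end

end Vale.Agent.P284.H885.DK
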