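import Vale.Agent.P284.H885.DK1
import Mathlib.MeasureTheory.Integral.CurveIntegral.Poincare

/-!
# P284 (helper885), D_K: local primitives of `Θ` on the regular fibre
-/

open scoped Manifold ContDiff Topology InnerProductSpace ComplexConjugate
open Filter Set Metric

noncomputable section

namespace Vale.Agent.P284.H885.DK

open Vale.Agent.P272.K Vale.Agent.P284.H894.G Vale.Agent.P284.H894.V Vale.Agent.P284.H894.W
  Vale.Agent.P284.H213.Grp Vale.Agent.P284.H619 Vale.Agent.P284.H10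

section
variable {n q d : ℕ} {X : Type} [TopologicalSpace X] [ChartedSpace (Cm n) X]
  {E : Type} [TopologicalSpace E] {p : E → X}
  {w : Chart n X → Cm n → Matrix (Fin n) (Fin n) ℂ} {B : ℝ} {F : E → Cm q} {t : Cm q}
  {κ κ' : OpenPartialHomeomorph (F ⁻¹' {t}) (Cm d)} {e e' : Chart n X} {φ φ' : Cm n → Cm d}
  {W : Type} [NormedAddCommGroup W] [InnerProductSpace ℂ W]
  {Θ : E → Chart n X → (Cm n →L[ℂ] W)} {u : E → W}

/-- the parametrisation in the chart of `X` -/
def al (p : E → X) (κ : OpenPartialHomeomorph (F ⁻¹' {t}) (Cm d)) (e : Chart n X) (s : Cm d) : Cm n :=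
  e (p (κ.symm s : E))

/-- the form `Θ` in the chart of the fibre -/
def th (p : E → X) (κ : OpenPartialHomeomorph (F ⁻¹' {t}) (Cm d)) (e : Chart n X)
    (Θ : E → Chart n X → (Cm n →L[ℂ] W)) (s : Cm d) : Cm d →L[ℂ] W :=
  (Θ (κ.symm s : E) e).comp (fderiv ℂ (al p κ e) s)

theorem FC.al_an (h : FC p F t κ e φ) {s : Cm d} (hs : s ∈ κ.target) : AnalyticAt ℂ (al p κ e) s :=
  h.an s hs

theorem FC.tan' (h : FC p F t κ e φ) {s : Cm d} (hs : s ∈ κ.target) (η : Cm d) :
    fderiv ℂ (al p κ e) s η ∈ VS p F (κ.symm s : E) e := h.tan s hs η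

/-- pull-back of a germ at a point of the fibre to the chart -/
theorem fib_tendsto (κ : OpenPartialHomeomorph (F ⁻¹' {t}) (Cm d)) {s : Cm d}
    (hs : s ∈ κ.target) : Tendsto (fun s => (κ.symm s : E)) (𝓝 s) (𝓝 (κ.symm s : E)) :=
  (continuous_subtype_val.tendsto _).comp (κ.continuousAt_symm hs)

theorem fib_ev (κ : OpenPartialHomeomorph (F ⁻¹' {t}) (Cm d)) {s : Cm d}
    (hs : s ∈ κ.target) {Q : E → Prop} (hQ : ∀ᶠ y in 𝓝 (κ.symm s : E), F y = t → Q y) :
    ∀ᶠ s' in 𝓝 s, Q (κ.symm s' : E) := by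
  filter_upwards [(fib_tendsto κ hs).eventually hQ] with s' h
  exact h (κ.symm s').2

/-- `θ` is analytic -/
theorem th_an (h : FC p F t κ e φ) (hpot : VPot p F t W Θ u) {s : Cm d} (hs : s ∈ κ.target) :
    AnalyticAt ℂ (th p κ e Θ) s := by
  have hys := κ.map_target hs
  obtain ⟨A, hA, hev⟩ := hpot.hol (κ.symm s : E) e (κ.symm s).2 (h.mem _ hys)
  have h1 := fib_ev κ hs hev
  have h2 : AnalyticAt ℂ (fun s' => A (al p κ e s')) s :=
    AnalyticAt.comp (g := A) (f := al p κ e) hA (h.al_an hs)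
  have h3 : AnalyticAt ℂ (fderiv ℂ (al p κ e)) s := (h.al_an hs).fderiv
  have h0 : AnalyticAt ℂ (fun x : (Cm n →L[ℂ] W) × (Cm d →L[ℂ] Cm n) => x.1.comp x.2)
      (A (al p κ e s), fderiv ℂ (al p κ e) s) :=
    (ContinuousLinearMap.compL ℂ (Cm d) (Cm n) W).analyticAt_bilinear _
  have h4 : AnalyticAt ℂ (fun s' => (A (al p κ e s')).comp (fderiv ℂ (al p κ e) s')) s :=
    AnalyticAt.comp (f := fun s' => (A (al p κ e s'), fderiv ℂ (al p κ e) s')) h0 (h2.prod h3)
  refine h4.congr ?_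
  filter_upwards [h1, κ.open_target.mem_nhds hs] with s' h5 h6
  ext1 η
  exact (h5 _ (h.tan' h6 η)).symm

/-- `θ` is closed -/
theorem th_closed [CompleteSpace W] (h : FC p F t κ e φ) (hpot : VPot p F t W Θ u) {s : Cm d}
    (hs : s ∈ κ.target) (η ζ : Cm d) :
    fderiv ℂ (th p κ e Θ) s η ζ = fderiv ℂ (th p κ e Θ) s ζ η := by
  have hys := κ.map_target hs
  refine ext_inner_left ℂ fun v => ?_
  obtain ⟨g, h', hg, -, hev⟩ := hpot.pot (κ.symm s : E) e (κ.symm s).2 (h.mem _ hys) v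
  have h1 := fib_ev κ hs hev
  have hgα : AnalyticAt ℂ (fun s' => g (al p κ e s')) s :=
    AnalyticAt.comp (g := g) (f := al p κ e) hg (h.al_an hs)
  have hgev : ∀ᶠ s' in 𝓝 s, AnalyticAt ℂ g (al p κ e s') :=
    ((h.al_an hs).continuousAt.tendsto).eventually hg.eventually_analyticAt
  have h2 : fderiv ℂ (fun s' => g (al p κ e s')) =ᶠ[𝓝 s]
      fun s' => (innerSL ℂ v).comp (th p κ e Θ s') := by
    filter_upwards [h1, hgev, κ.open_target.mem_nhds hs] with s' a1 a2 a3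
    ext1 ξ
    have h3 : HasFDerivAt (fun s' => g (al p κ e s')) ((fderiv ℂ g (al p κ e s')).comp
        (fderiv ℂ (al p κ e) s')) s' :=
      HasFDerivAt.comp (g := g) (f := al p κ e) s' a2.differentiableAt.hasFDerivAt
        (h.al_an a3).differentiableAt.hasFDerivAt
    rw [h3.fderiv]
    exact a1.2 _ (h.tan' a3 ξ)
  have h4 : IsSymmSndFDerivAt ℂ (fun s' => g (al p κ e s')) s :=
    (hgα.contDiffAt (n := ω)).isSymmSndFDerivAt (by simp)
  have h5 : HasFDerivAt (fun s' => (innerSL ℂ v).comp (th p κ e Θ s'))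
      ((ContinuousLinearMap.compL ℂ (Cm d) W ℂ (innerSL ℂ v)).comp
        (fderiv ℂ (th p κ e Θ) s)) s :=
    (ContinuousLinearMap.compL ℂ (Cm d) W ℂ (innerSL ℂ v)).hasFDerivAt.comp s
      (th_an h hpot hs).differentiableAt.hasFDerivAt
  have h6 : fderiv ℂ (fderiv ℂ (fun s' => g (al p κ e s'))) s =
      (ContinuousLinearMap.compL ℂ (Cm d) W ℂ (innerSL ℂ v)).comp
        (fderiv ℂ (th p κ e Θ) s) := by
    rw [h2.fderiv_eq, h5.fderiv]
  have h7 := h4 η ζ
  rw [h6] at h7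
  exact h7

/-- **local primitives** -/
theorem exists_prim [CompleteSpace W] (h : FC p F t κ e φ) (hpot : VPot p F t W Θ u)
    (hconv : Convex ℝ κ.target) :
    ∃ P : Cm d → W, ∀ s ∈ κ.target, HasFDerivAt P (th p κ e Θ s) s ∧ AnalyticAt ℂ P s := by
  have hd : ∀ s ∈ κ.target, DifferentiableAt ℂ (th p κ e Θ) s := fun s hs =>
    (th_an h hpot hs).differentiableAt
  have hd1 : DifferentiableOn ℝ (th p κ e Θ) κ.target := fun s hs =>
    ((hd s hs).restrictScalars ℝ).differentiableWithinAt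
  have hd2 : ∀ s ∈ κ.target, ∀ η ζ : Cm d, fderiv ℝ (th p κ e Θ) s η ζ =
      fderiv ℝ (th p κ e Θ) s ζ η := by
    intro s hs η ζ
    rw [(hd s hs).fderiv_restrictScalars ℝ]
    exact th_closed h hpot hs η ζ
  obtain ⟨P, hP⟩ := hconv.exists_forall_hasFDerivAt_of_fderiv_symmetric κ.open_target hd1 hd2
  refine ⟨P, fun s hs => ⟨hP s hs, ?_⟩⟩
  exact Vale.Agent.P281.MF.analyticAt_of_differentiableOn κ.open_target
    (fun s hs => (hP s hs).differentiableAt.differentiableWithinAt) hs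

/-- change of charts for `θ` -/
theorem th_change [IsManifold 𝓘(ℂ, Cm n) ω X] (h : FC p F t κ e φ) (h' : FC p F t κ' e' φ')
    (hpot : VPot p F t W Θ u) {s : Cm d}
    (hs : s ∈ κ.target) (hs' : κ.symm s ∈ κ'.source) :
    th p κ e Θ s = (th p κ' e' Θ (κ' (κ.symm s))).comp (fderiv ℂ (fun s => κ' (κ.symm s)) s) := by
  set s₁ := κ' (κ.symm s) with hs₁
  have hs₁t : s₁ ∈ κ'.target := κ'.map_source hs'
  have hpt : κ'.symm s₁ = κ.symm s := κ'.left_inv hs'
  have hat := h.mem _ (κ.map_target hs)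
  have hat' := h'.mem _ hs'
  -- `α' ∘ (κ' ∘ κ.symm) = τ ∘ α` near `s`
  have htr := h.trans h' hs hs'
  have hev : (fun s' => al p κ' e' (κ' (κ.symm s'))) =ᶠ[𝓝 s]
      fun s' => e' (e.symm (al p κ e s')) := by
    filter_upwards [(κ.continuousAt_symm hs).eventually (κ'.open_source.mem_nhds hs'),
      κ.open_target.mem_nhds hs] with s' a b
    have hb := h.mem _ (κ.map_target b)
    show e' (p (κ'.symm (κ' (κ.symm s')) : E)) = e' (e.symm (e (p (κ.symm s' : E))))
    rw [κ'.left_inv a, e.left_inv hb.2]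
  have h1 : HasFDerivAt (fun s' => al p κ' e' (κ' (κ.symm s')))
      ((fderiv ℂ (al p κ' e') s₁).comp (fderiv ℂ (fun s => κ' (κ.symm s)) s)) s :=
    HasFDerivAt.comp (g := al p κ' e') (f := fun s => κ' (κ.symm s)) s
      (h'.al_an hs₁t).differentiableAt.hasFDerivAt htr.differentiableAt.hasFDerivAt
  have h2 : HasFDerivAt (fun s' => e' (e.symm (al p κ e s')))
      ((fderiv ℂ (fun z => e' (e.symm z)) (al p κ e s)).comp (fderiv ℂ (al p κ e) s)) s :=
    HasFDerivAt.comp (g := fun z => e' (e.symm z)) (f := al p κ e) s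
      (transition_differentiableAt hat hat').hasFDerivAt
      (h.al_an hs).differentiableAt.hasFDerivAt
  have h3 := (h1.congr_of_eventuallyEq hev.symm).unique h2
  ext1 η
  have h4 := hpot.change (κ.symm s : E) e e' (κ.symm s).2 hat hat' _ (h.tan' hs η)
  show Θ (κ.symm s : E) e (fderiv ℂ (al p κ e) s η) =
    Θ (κ'.symm s₁ : E) e' (fderiv ℂ (al p κ' e') s₁ (fderiv ℂ (fun s => κ' (κ.symm s)) s η))
  rw [hpt, h4]
  congr 1
  exact (congrArg (fun M => M η) h3).symm

end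

end Vale.Agent.P284.H885.DK
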