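import Vale.Agent.P284.H885.DK2
import Vale.Agent.P284.H885.DKS
import Vale.Agent.P284.H619.Nul2

/-!
# P284 (helper885), D_K: the regular fibre as a manifold, and the local primitives `Fp`
-/

open scoped Manifold ContDiff Topology InnerProductSpace ComplexConjugate
open Filter Set Metric

noncomputable section

namespace Vale.Agent.P284.H885.DK

open Vale.Agent.P272.K Vale.Agent.P284.H894.G Vale.Agent.P284.H894.V Vale.Agent.P284.H894.W
  Vale.Agent.P284.H213.Grp Vale.Agent.P284.H619 Vale.Agent.P284.H10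

section
variable {n q d : ℕ} {X : Type} [TopologicalSpace X] [ChartedSpace (Cm n) X]
  {E : Type} [TopologicalSpace E] {p : E → X} {F : E → Cm q} {t : Cm q}

/-- Charts at all points of the fibre. -/
def HCh (d : ℕ) (n : ℕ) {q : ℕ} {X : Type} [TopologicalSpace X] [ChartedSpace (Cm n) X]
    {E : Type} [TopologicalSpace E] (p : E → X) (F : E → Cm q) (t : Cm q) : Prop :=
  ∀ y : F ⁻¹' {t}, ∃ (κ : OpenPartialHomeomorph (F ⁻¹' {t}) (Cm d)) (e : Chart n X)
    (φ : Cm n → Cm d), FC p F t κ e φ ∧ y ∈ κ.source ∧ κ y = 0 ∧ ∃ r > 0, κ.target = ball 0 r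

theorem hch_of (hd : n = q + d) (hp : IsCoveringMap p)
    {w : Chart n X → Cm n → Matrix (Fin n) (Fin n) ℂ} {B : ℝ} (hF : HolB p w F B)
    (hreg : ∀ y, F y = t → Reg (n := n) p F y) : HCh d n p F t := by
  intro y
  obtain ⟨κ, e, φ, h1, h2, -, h3, h4⟩ := exists_fc hd hp hF y (hreg y y.2) univ_mem
  exact ⟨κ, e, φ, h1, h2, h3, h4⟩

/-- the preferred chart -/
def ka (h : HCh d n p F t) (y : F ⁻¹' {t}) : OpenPartialHomeomorph (F ⁻¹' {t}) (Cm d) :=
  (h y).choose

/-- the chart of `X` -/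
def ee (h : HCh d n p F t) (y : F ⁻¹' {t}) : Chart n X := (h y).choose_spec.choose

/-- the coordinate map -/
def ph (h : HCh d n p F t) (y : F ⁻¹' {t}) : Cm n → Cm d := (h y).choose_spec.choose_spec.choose

theorem ka_fc (h : HCh d n p F t) (y : F ⁻¹' {t}) : FC p F t (ka h y) (ee h y) (ph h y) :=
  (h y).choose_spec.choose_spec.choose_spec.1

theorem ka_mem (h : HCh d n p F t) (y : F ⁻¹' {t}) : y ∈ (ka h y).source :=
  (h y).choose_spec.choose_spec.choose_spec.2.1

theorem ka_zero (h : HCh d n p F t) (y : F ⁻¹' {t}) : ka h y y = 0 :=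
  (h y).choose_spec.choose_spec.choose_spec.2.2.1

theorem ka_ball (h : HCh d n p F t) (y : F ⁻¹' {t}) : ∃ r > 0, (ka h y).target = ball 0 r :=
  (h y).choose_spec.choose_spec.choose_spec.2.2.2

theorem ka_zero_mem (h : HCh d n p F t) (y : F ⁻¹' {t}) : (0 : Cm d) ∈ (ka h y).target := by
  rw [← ka_zero h y]
  exact (ka h y).map_source (ka_mem h y)

theorem ka_symm_zero (h : HCh d n p F t) (y : F ⁻¹' {t}) : (ka h y).symm 0 = y := by
  rw [← ka_zero h y]
  exact (ka h y).left_inv (ka_mem h y)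

/-- the fibre is a manifold -/
@[reducible] def fibCS (h : HCh d n p F t) : ChartedSpace (Cm d) (F ⁻¹' {t}) where
  atlas := range (ka h)
  chartAt := ka h
  mem_chart_source := ka_mem h
  chart_mem_atlas y := ⟨y, rfl⟩

theorem fib_manifold [IsManifold 𝓘(ℂ, Cm n) ω X] (h : HCh d n p F t) :
    letI := fibCS h; IsManifold 𝓘(ℂ, Cm d) ω (F ⁻¹' {t}) := by
  letI := fibCS h
  refine isManifold_of_contDiffOn 𝓘(ℂ, Cm d) ω (F ⁻¹' {t}) fun κ κ' hκ hκ' z hz => ?_
  obtain ⟨y, rfl⟩ := hκ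
  obtain ⟨y', rfl⟩ := hκ'
  have hz' : z ∈ ((ka h y).symm ≫ₕ (ka h y')).source := by simpa using hz.1
  rw [OpenPartialHomeomorph.trans_source] at hz'
  exact ((ka_fc h y).trans (ka_fc h y') hz'.1 hz'.2).contDiffAt.contDiffWithinAt

variable {W : Type} [NormedAddCommGroup W] [InnerProductSpace ℂ W] [CompleteSpace W]
  {Θ : E → Chart n X → (Cm n →L[ℂ] W)} {u : E → W}

theorem exists_P (h : HCh d n p F t) (hpot : VPot p F t W Θ u) (y : F ⁻¹' {t}) :
    ∃ P : Cm d → W, ∀ s ∈ (ka h y).target, HasFDerivAt P (th p (ka h y) (ee h y) Θ s) s ∧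
      AnalyticAt ℂ P s := by
  obtain ⟨r, -, hr⟩ := ka_ball h y
  exact exists_prim (ka_fc h y) hpot (by rw [hr]; exact convex_ball _ _)

open Classical in
/-- the local primitives `∫_x^y Θ` -/
def Fp (h : HCh d n p F t) (hpot : VPot p F t W Θ u) (x y : F ⁻¹' {t}) : W :=
  if y ∈ (ka h x).source then
    (exists_P h hpot x).choose (ka h x y) - (exists_P h hpot x).choose 0 else 0

theorem Fp_self (h : HCh d n p F t) (hpot : VPot p F t W Θ u) (x : F ⁻¹' {t}) :
    Fp h hpot x x = 0 := by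
  rw [Fp, if_pos (ka_mem h x), ka_zero, sub_self]

variable [IsManifold 𝓘(ℂ, Cm n) ω X]

/-- the derivative of `Fp x` in any chart -/
theorem Fp_deriv (h : HCh d n p F t) (hpot : VPot p F t W Θ u) (x : F ⁻¹' {t})
    {κ' : OpenPartialHomeomorph (F ⁻¹' {t}) (Cm d)} {e' : Chart n X} {φ' : Cm n → Cm d}
    (h' : FC p F t κ' e' φ') {s : Cm d} (hs : s ∈ κ'.target) (hs' : κ'.symm s ∈ (ka h x).source) :
    HasFDerivAt (fun s => Fp h hpot x (κ'.symm s)) (th p κ' e' Θ s) s ∧
      AnalyticAt ℂ (fun s => Fp h hpot x (κ'.symm s)) s := by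
  set P := (exists_P h hpot x).choose with hP
  have hPs := (exists_P h hpot x).choose_spec
  have hs₁ : ka h x (κ'.symm s) ∈ (ka h x).target := (ka h x).map_source hs'
  have hev : (fun s => Fp h hpot x (κ'.symm s)) =ᶠ[𝓝 s]
      fun s => P (ka h x (κ'.symm s)) - P 0 := by
    filter_upwards [(κ'.continuousAt_symm hs).eventually ((ka h x).open_source.mem_nhds hs')]
      with s' hs''
    exact if_pos hs''
  have htr := h'.trans (ka_fc h x) hs hs'
  constructor
  · have h1 : HasFDerivAt (fun s => P (ka h x (κ'.symm s)))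
        ((th p (ka h x) (ee h x) Θ (ka h x (κ'.symm s))).comp
          (fderiv ℂ (fun s => ka h x (κ'.symm s)) s)) s :=
      HasFDerivAt.comp (g := P) (f := fun s => ka h x (κ'.symm s)) s (hPs _ hs₁).1
        htr.differentiableAt.hasFDerivAt
    have h2 := (h1.sub_const (P 0)).congr_of_eventuallyEq hev
    rwa [← th_change h' (ka_fc h x) hpot hs hs'] at h2
  · have h1 : AnalyticAt ℂ (fun s => P (ka h x (κ'.symm s))) s :=
      AnalyticAt.comp (g := P) (f := fun s => ka h x (κ'.symm s)) (hPs _ hs₁).2 htr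
    exact (h1.sub analyticAt_const).congr hev.symm

/-- two functions on a chart with the same derivative near a point -/
theorem eq_of_deriv {V G : Type*} [NormedAddCommGroup V] [NormedSpace ℂ V] [NormedAddCommGroup G]
    [NormedSpace ℂ G] {f g : V → G} {L : V → (V →L[ℂ] G)} {s₀ : V}
    (hf : ∀ᶠ s in 𝓝 s₀, HasFDerivAt f (L s) s) (hg : ∀ᶠ s in 𝓝 s₀, HasFDerivAt g (L s) s)
    (h0 : f s₀ = g s₀) : ∀ᶠ s in 𝓝 s₀, f s = g s := by
  obtain ⟨ε, hε, hb⟩ := Metric.eventually_nhds_iff_ball.1 (hf.and hg)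
  filter_upwards [ball_mem_nhds s₀ hε] with s hs
  have h1 : ∀ x ∈ ball s₀ ε, HasFDerivWithinAt (fun s => f s - g s) (0 : V →L[ℂ] G) (ball s₀ ε) x := by
    intro x hx
    have := ((hb x hx).1.sub (hb x hx).2)
    rw [sub_self] at this
    exact this.hasFDerivWithinAt
  have h2 := (convex_ball s₀ ε).norm_image_sub_le_of_norm_hasFDerivWithin_le (C := 0) h1
    (fun x _ => by rw [norm_zero]) (mem_ball_self hε) hs
  rw [zero_mul, norm_le_zero_iff, h0, sub_self, sub_zero, sub_eq_zero] at h2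
  exact h2

/-- the cocycle property -/
theorem Fp_add (h : HCh d n p F t) (hpot : VPot p F t W Θ u) (x x' : F ⁻¹' {t})
    (hx' : x' ∈ (ka h x).source) :
    ∀ᶠ y in 𝓝 x', Fp h hpot x y = Fp h hpot x x' + Fp h hpot x' y := by
  have hfc := ka_fc h x'
  have h0 := ka_zero_mem h x'
  have hc : Tendsto (ka h x').symm (𝓝 0) (𝓝 x') := by
    have := (ka h x').continuousAt_symm h0
    unfold ContinuousAt at this
    rwa [ka_symm_zero] at this
  have h1 : ∀ᶠ s in 𝓝 (0 : Cm d), HasFDerivAt (fun s => Fp h hpot x ((ka h x').symm s))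
      (th p (ka h x') (ee h x') Θ s) s := by
    filter_upwards [(ka h x').open_target.mem_nhds h0,
      hc.eventually ((ka h x).open_source.mem_nhds hx')] with s a b
    exact (Fp_deriv h hpot x hfc a b).1
  have h2 : ∀ᶠ s in 𝓝 (0 : Cm d), HasFDerivAt
      (fun s => Fp h hpot x x' + Fp h hpot x' ((ka h x').symm s))
      (th p (ka h x') (ee h x') Θ s) s := by
    filter_upwards [(ka h x').open_target.mem_nhds h0,
      hc.eventually ((ka h x').open_source.mem_nhds (ka_mem h x'))] with s a b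
    exact (Fp_deriv h hpot x' hfc a b).1.const_add _
  have h3 := eq_of_deriv h1 h2 (by rw [ka_symm_zero, Fp_self, add_zero])
  have h4 : Tendsto (ka h x') (𝓝 x') (𝓝 0) := by
    have := (ka h x').continuousAt (ka_mem h x')
    unfold ContinuousAt at this
    rwa [ka_zero] at this
  filter_upwards [h4.eventually h3, (ka h x').open_source.mem_nhds (ka_mem h x')] with y a b
  rwa [(ka h x').left_inv b] at a

/-- `Fp` is a family of local primitives -/
theorem prim_Fp (h : HCh d n p F t) (hpot : VPot p F t W Θ u) :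
    letI := fibCS h; Prim d (Fp h hpot) := by
  letI := fibCS h
  refine ⟨Fp_self h hpot, fun x => ?_, fun x => ?_⟩
  · filter_upwards [(ka h x).open_source.mem_nhds (ka_mem h x)] with y hy
    show AnalyticAt ℂ (fun s => Fp h hpot x ((ka h y).symm s)) (ka h y y)
    rw [ka_zero]
    exact (Fp_deriv h hpot x (ka_fc h y) (ka_zero_mem h y) (by rw [ka_symm_zero]; exact hy)).2
  · filter_upwards [(ka h x).open_source.mem_nhds (ka_mem h x)] with x' hx'
    exact Fp_add h hpot x x' hx'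

/-- the derivative of the primitives -/
theorem dM_Fp (h : HCh d n p F t) (hpot : VPot p F t W Θ u) (x : F ⁻¹' {t}) (η : Cm d) :
    letI := fibCS h; dM d (Fp h hpot x) x η =
      Θ (x : E) (ee h x) (fderiv ℂ (al p (ka h x) (ee h x)) 0 η) := by
  letI := fibCS h
  have h1 := (Fp_deriv h hpot x (ka_fc h x) (ka_zero_mem h x)
    (by rw [ka_symm_zero]; exact ka_mem h x)).1
  have h2 : dM d (Fp h hpot x) x = th p (ka h x) (ee h x) Θ 0 := by
    show fderiv ℂ (fun s => Fp h hpot x ((ka h x).symm s)) (ka h x x) = _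
    rw [ka_zero]
    exact h1.fderiv
  rw [h2]
  show Θ ((ka h x).symm 0 : E) (ee h x) _ = _
  rw [ka_symm_zero]
  rfl

/-! ### the action of `K` -/

variable {Γ : Type} [Group Γ] [MulAction Γ E] {K : Subgroup Γ}

/-- the action on the fibre -/
@[reducible] def fibAct (hK : ∀ k ∈ K, ∀ y, F (k • y) = F y) : MulAction K (F ⁻¹' {t}) where
  smul k y := ⟨(k : Γ) • (y : E), by
    have h1 : F y = t := y.2
    show F ((k : Γ) • (y : E)) = t
    rw [hK k k.2, h1]⟩
  one_smul y := Subtype.ext (one_smul Γ (y : E))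
  mul_smul k k' y := Subtype.ext (mul_smul (k : Γ) (k' : Γ) (y : E))

omit [IsManifold 𝓘(ℂ, Cm n) ω X] [ChartedSpace (Cm n) X] in
theorem fibAct_coe (hK : ∀ k ∈ K, ∀ y, F (k • y) = F y) (k : K) (y : F ⁻¹' {t}) :
    letI := fibAct (t := t) hK; ((k • y : F ⁻¹' {t}) : E) = (k : Γ) • (y : E) := rfl

/-- the translate of a chart of the fibre -/
def kap (hp : IsGalois Γ p) (hK : ∀ k ∈ K, ∀ y, F (k • y) = F y)
    (κ : OpenPartialHomeomorph (F ⁻¹' {t}) (Cm d)) (k : K) :
    OpenPartialHomeomorph (F ⁻¹' {t}) (Cm d) :=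
  letI := fibAct (t := t) hK
  (Homeomorph.toOpenPartialHomeomorph
    { toFun := fun y => k⁻¹ • y
      invFun := fun y => k • y
      left_inv := fun y => smul_inv_smul k y
      right_inv := fun y => inv_smul_smul k y
      continuous_toFun := ((hp.cont ((k⁻¹ : K) : Γ)).comp continuous_subtype_val).subtype_mk _
      continuous_invFun := ((hp.cont (k : Γ)).comp continuous_subtype_val).subtype_mk _ }).trans κ

omit [IsManifold 𝓘(ℂ, Cm n) ω X] [ChartedSpace (Cm n) X] in
theorem kap_symm (hp : IsGalois Γ p) (hK : ∀ k ∈ K, ∀ y, F (k • y) = F y)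
    (κ : OpenPartialHomeomorph (F ⁻¹' {t}) (Cm d)) (k : K) (s : Cm d) :
    letI := fibAct (t := t) hK; (kap hp hK κ k).symm s = k • κ.symm s := rfl

omit [IsManifold 𝓘(ℂ, Cm n) ω X] [ChartedSpace (Cm n) X] in
theorem kap_apply (hp : IsGalois Γ p) (hK : ∀ k ∈ K, ∀ y, F (k • y) = F y)
    (κ : OpenPartialHomeomorph (F ⁻¹' {t}) (Cm d)) (k : K) (y : F ⁻¹' {t}) :
    letI := fibAct (t := t) hK; (kap hp hK κ k) y = κ (k⁻¹ • y) := rfl

omit [IsManifold 𝓘(ℂ, Cm n) ω X] [ChartedSpace (Cm n) X] in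
theorem kap_source (hp : IsGalois Γ p) (hK : ∀ k ∈ K, ∀ y, F (k • y) = F y)
    (κ : OpenPartialHomeomorph (F ⁻¹' {t}) (Cm d)) (k : K) (y : F ⁻¹' {t}) :
    letI := fibAct (t := t) hK; y ∈ (kap hp hK κ k).source ↔ k⁻¹ • y ∈ κ.source := by
  simp [kap, OpenPartialHomeomorph.trans_source]

omit [IsManifold 𝓘(ℂ, Cm n) ω X] [ChartedSpace (Cm n) X] in
theorem kap_target (hp : IsGalois Γ p) (hK : ∀ k ∈ K, ∀ y, F (k • y) = F y)
    (κ : OpenPartialHomeomorph (F ⁻¹' {t}) (Cm d)) (k : K) :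
    (kap hp hK κ k).target = κ.target := by
  simp [kap, OpenPartialHomeomorph.trans_target]

omit [IsManifold 𝓘(ℂ, Cm n) ω X] in
theorem kap_fc (hp : IsGalois Γ p) (hK : ∀ k ∈ K, ∀ y, F (k • y) = F y)
    {κ : OpenPartialHomeomorph (F ⁻¹' {t}) (Cm d)} {e : Chart n X} {φ : Cm n → Cm d}
    (h : FC p F t κ e φ) (k : K) : FC p F t (kap hp hK κ k) e φ := by
  letI := fibAct (t := t) hK
  have hpk : ∀ (g : K) (y : F ⁻¹' {t}), p ((g • y : F ⁻¹' {t}) : E) = p (y : E) := fun g y =>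
    p_smul' hp (g : Γ) (y : E)
  have hα : (fun s => e (p (((kap hp hK κ k).symm s : F ⁻¹' {t}) : E))) =
      fun s => e (p ((κ.symm s : F ⁻¹' {t}) : E)) := by
    funext s
    rw [kap_symm, hpk]
  have hVS : ∀ y : F ⁻¹' {t}, VS p F ((k • y : F ⁻¹' {t}) : E) e = VS p F (y : E) e := fun y =>
    VS_smul hp (hK k k.2) (y : E) e
  refine ⟨fun y hy => ?_, fun s hs => ?_, fun y hy => ?_, fun y hy => ?_, fun s hs η => ?_,
    fun s hs ξ hξ => ?_⟩
  · rw [kap_source] at hy
    have := h.mem _ hy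
    rwa [hpk] at this
  · rw [kap_target] at hs
    rw [hα]
    exact h.an s hs
  · rw [kap_source] at hy
    rw [kap_apply, h.eq _ hy, hpk]
  · rw [kap_source] at hy
    have := h.φan _ hy
    rwa [hpk] at this
  · rw [kap_target] at hs
    rw [hα, kap_symm, hVS]
    exact h.tan s hs η
  · rw [kap_target] at hs
    rw [kap_symm, hVS] at hξ
    rw [hα, kap_symm, hpk]
    exact h.sur s hs ξ hξ

/-- equivariance of `Fp` -/
theorem Fp_smul (h : HCh d n p F t) (hpot : VPot p F t W Θ u) (hp : IsGalois Γ p)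
    (hK : ∀ k ∈ K, ∀ y, F (k • y) = F y) {π : Γ →* (W ≃ₗᵢ[ℂ] W)}
    (hform : ∀ k ∈ K, ∀ y e, F y = t → At e (p y) → ∀ ξ ∈ VS p F y e, Θ (k • y) e ξ = π k (Θ y e ξ))
    (k : K) (x : F ⁻¹' {t}) :
    letI := fibAct (t := t) hK
    ∀ᶠ y in 𝓝 x, Fp h hpot (k • x) (k • y) = π k (Fp h hpot x y) := by
  letI := fibAct (t := t) hK
  have hfc := ka_fc h x
  have hfc' := kap_fc hp hK hfc k
  have h0 := ka_zero_mem h x
  have hc : Tendsto (ka h x).symm (𝓝 0) (𝓝 x) := by
    have := (ka h x).continuousAt_symm h0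
    unfold ContinuousAt at this
    rwa [ka_symm_zero] at this
  have hcont : Continuous fun y : F ⁻¹' {t} => k • y :=
    ((hp.cont (k : Γ)).comp continuous_subtype_val).subtype_mk _
  have hc' : Tendsto (fun s => k • (ka h x).symm s) (𝓝 0) (𝓝 (k • x)) := (hcont.tendsto x).comp hc
  have hth : ∀ s ∈ (ka h x).target, th p (kap hp hK (ka h x) k) (ee h x) Θ s =
      ((π k).toContinuousLinearEquiv : W →L[ℂ] W).comp (th p (ka h x) (ee h x) Θ s) := by
    intro s hs
    have hα : al p (kap hp hK (ka h x) k) (ee h x) = al p (ka h x) (ee h x) := by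
      funext s
      show ee h x (p ((k • (ka h x).symm s : F ⁻¹' {t}) : E)) = _
      rw [fibAct_coe hK, p_smul' hp]
      rfl
    ext1 η
    show Θ ((k • (ka h x).symm s : F ⁻¹' {t}) : E) (ee h x)
      (fderiv ℂ (al p (kap hp hK (ka h x) k) (ee h x)) s η) = π k (Θ ((ka h x).symm s : E) (ee h x)
      (fderiv ℂ (al p (ka h x) (ee h x)) s η))
    rw [hα, fibAct_coe hK]
    exact hform k k.2 _ _ ((ka h x).symm s).2 (hfc.mem _ ((ka h x).map_target hs)) _
      (hfc.tan' hs η)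
  have h1 : ∀ᶠ s in 𝓝 (0 : Cm d), HasFDerivAt (fun s => Fp h hpot (k • x) (k • (ka h x).symm s))
      (((π k).toContinuousLinearEquiv : W →L[ℂ] W).comp (th p (ka h x) (ee h x) Θ s)) s := by
    filter_upwards [(ka h x).open_target.mem_nhds h0,
      hc'.eventually ((ka h (k • x)).open_source.mem_nhds (ka_mem h (k • x)))] with s a b
    have := (Fp_deriv h hpot (k • x) hfc' (s := s) (by rw [kap_target]; exact a) b).1
    rw [hth s a] at this
    exact this
  have h2 : ∀ᶠ s in 𝓝 (0 : Cm d), HasFDerivAt (fun s => π k (Fp h hpot x ((ka h x).symm s)))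
      (((π k).toContinuousLinearEquiv : W →L[ℂ] W).comp (th p (ka h x) (ee h x) Θ s)) s := by
    filter_upwards [(ka h x).open_target.mem_nhds h0,
      hc.eventually ((ka h x).open_source.mem_nhds (ka_mem h x))] with s a b
    exact ((π k).toContinuousLinearEquiv : W →L[ℂ] W).hasFDerivAt.comp s
      (Fp_deriv h hpot x hfc a b).1
  have h3 := eq_of_deriv h1 h2 (by rw [ka_symm_zero, Fp_self, Fp_self, map_zero])
  have h4 : Tendsto (ka h x) (𝓝 x) (𝓝 0) := by
    have := (ka h x).continuousAt (ka_mem h x)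
    unfold ContinuousAt at this
    rwa [ka_zero] at this
  filter_upwards [h4.eventually h3, (ka h x).open_source.mem_nhds (ka_mem h x)] with y a b
  rwa [(ka h x).left_inv b] at a

/-- the action is holomorphic -/
theorem act_smooth (h : HCh d n p F t) (hp : IsGalois Γ p)
    (hK : ∀ k ∈ K, ∀ y, F (k • y) = F y) (k : K) :
    letI := fibAct (t := t) hK
    letI := fibCS h
    ContMDiff 𝓘(ℂ, Cm d) 𝓘(ℂ, Cm d) ω fun x : F ⁻¹' {t} => k • x := by
  letI := fibAct (t := t) hK
  letI := fibCS h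
  have hcont : Continuous fun y : F ⁻¹' {t} => k • y :=
    ((hp.cont (k : Γ)).comp continuous_subtype_val).subtype_mk _
  intro x
  rw [contMDiffAt_iff]
  refine ⟨hcont.continuousAt, ?_⟩
  have hfc' := kap_fc hp hK (ka_fc h x) k
  have hs : (0 : Cm d) ∈ (kap hp hK (ka h x) k).target := by
    rw [kap_target]; exact ka_zero_mem h x
  have hs' : (kap hp hK (ka h x) k).symm 0 ∈ (ka h (k • x)).source := by
    rw [kap_symm, ka_symm_zero]; exact ka_mem h (k • x)
  have h1 := hfc'.trans (ka_fc h (k • x)) hs hs'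
  have h2 : AnalyticAt ℂ (fun s => ka h (k • x) (k • (ka h x).symm s)) (ka h x x) := by
    rw [ka_zero]; exact h1
  have h3 : ContDiffWithinAt ℂ ω (fun s => ka h (k • x) (k • (ka h x).symm s)) (range 𝓘(ℂ, Cm d))
      (ka h x x) := h2.contDiffAt.contDiffWithinAt
  exact h3

end

end Vale.Agent.P284.H885.DK
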