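import Vale.Agent.P284.H885.DK3
import Vale.Agent.P284.H885.Ker2
import Vale.Agent.P284.H221.C7

/-!
# P284 (helper885), D_K: charts of `X` on the fibre, thin sets and slides
-/

open scoped Manifold ContDiff Topology InnerProductSpace ComplexConjugate
open Filter Set Metric

noncomputable section

namespace Vale.Agent.P284.H885.DK

open Vale.Agent.P272.K Vale.Agent.P284.H894.G Vale.Agent.P284.H894.V Vale.Agent.P284.H894.W
  Vale.Agent.P284.H213.Grp Vale.Agent.P284.H619 Vale.Agent.P284.H10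

section
variable {n q d : ℕ} {X : Type} [TopologicalSpace X] [ChartedSpace (Cm n) X]
  {E : Type} [TopologicalSpace E] {p : E → X} {F : E → Cm q} {t : Cm q}
  {w : Chart n X → Cm n → Matrix (Fin n) (Fin n) ℂ} {B : ℝ}

/-- transition maps of `X` are analytic -/
theorem tr_an [IsManifold 𝓘(ℂ, Cm n) ω X] {e₁ e₂ : Chart n X} {x : X} (h₁ : At e₁ x)
    (h₂ : At e₂ x) : AnalyticAt ℂ (fun z => e₂ (e₁.symm z)) (e₁ x) := by
  have h1 : ∀ᶠ z in 𝓝 (e₁ x), DifferentiableAt ℂ (fun z => e₂ (e₁.symm z)) z := by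
    filter_upwards [h₁.nhds_at h₂] with z hz
    have h2 := transition_differentiableAt hz.2.1 hz.2.2
    rwa [e₁.right_inv hz.1] at h2
  obtain ⟨U, hU, hUo, hz⟩ := _root_.eventually_nhds_iff.1 h1
  exact Vale.Agent.P281.MF.analyticAt_of_differentiableOn hUo
    (fun z hz => (hU z hz).differentiableWithinAt) hz

variable {κ : OpenPartialHomeomorph (F ⁻¹' {t}) (Cm d)} {e e' : Chart n X} {φ : Cm n → Cm d}

/-- the parametrisation in another chart of `X`, derivative -/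
theorem al_ch [IsManifold 𝓘(ℂ, Cm n) ω X] (h : FC p F t κ e φ) {s : Cm d}
    (hs : s ∈ κ.target) (he' : At e' (p (κ.symm s : E))) :
    AnalyticAt ℂ (al p κ e') s ∧ fderiv ℂ (al p κ e') s =
      (fderiv ℂ (fun z => e' (e.symm z)) (e (p (κ.symm s : E)))).comp (fderiv ℂ (al p κ e) s) := by
  have hat := h.mem _ (κ.map_target hs)
  have h1 : AnalyticAt ℂ (fun s => e' (e.symm (al p κ e s))) s :=
    AnalyticAt.comp (g := fun z => e' (e.symm z)) (f := al p κ e) (tr_an hat he') (h.al_an hs)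
  have hev : (fun s => e' (e.symm (al p κ e s))) =ᶠ[𝓝 s] al p κ e' := by
    filter_upwards [κ.open_target.mem_nhds hs] with s' b
    have hb := h.mem _ (κ.map_target b)
    show e' (e.symm (e (p (κ.symm s' : E)))) = e' (p (κ.symm s' : E))
    rw [e.left_inv hb.2]
  refine ⟨h1.congr hev, ?_⟩
  have h2 : HasFDerivAt (fun s' => e' (e.symm (al p κ e s')))
      ((fderiv ℂ (fun z => e' (e.symm z)) (al p κ e s)).comp (fderiv ℂ (al p κ e) s)) s :=
    HasFDerivAt.comp (g := fun z => e' (e.symm z)) (f := al p κ e) s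
      (transition_differentiableAt hat he').hasFDerivAt
      (h.al_an hs).differentiableAt.hasFDerivAt
  exact (h2.congr_of_eventuallyEq hev.symm).fderiv

/-- the tangent vectors are vertical, in all charts -/
theorem al_tan [IsManifold 𝓘(ℂ, Cm n) ω X] (hp : IsCoveringMap p) (hF : HolB p w F B)
    (h : FC p F t κ e φ) {s : Cm d}
    (hs : s ∈ κ.target) (he' : At e' (p (κ.symm s : E))) (η : Cm d) :
    fderiv ℂ (al p κ e') s η ∈ VS p F (κ.symm s : E) e' := by
  rw [(al_ch h hs he').2]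
  exact Ker.vs_change hp hF (h.mem _ (κ.map_target hs)) he' (h.tan' hs η)

/-- all vertical vectors are tangent vectors, in all charts -/
theorem al_sur [IsManifold 𝓘(ℂ, Cm n) ω X] (hp : IsCoveringMap p) (hF : HolB p w F B)
    (h : FC p F t κ e φ) {s : Cm d}
    (hs : s ∈ κ.target) (he' : At e' (p (κ.symm s : E))) {ξ : Cm n}
    (hξ : ξ ∈ VS p F (κ.symm s : E) e') : ∃ η, fderiv ℂ (al p κ e') s η = ξ := by
  have hat := h.mem _ (κ.map_target hs)
  have h1 := Ker.vs_change hp hF he' hat hξ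
  refine ⟨fderiv ℂ φ (e (p (κ.symm s : E))) (fderiv ℂ (fun z => e (e'.symm z))
    (e' (p (κ.symm s : E))) ξ), ?_⟩
  rw [(al_ch h hs he').2]
  have h2 : fderiv ℂ (al p κ e) s (fderiv ℂ φ (e (p (κ.symm s : E))) (fderiv ℂ
      (fun z => e (e'.symm z)) (e' (p (κ.symm s : E))) ξ)) = fderiv ℂ (fun z => e (e'.symm z))
      (e' (p (κ.symm s : E))) ξ := h.sur s hs _ h1
  rw [ContinuousLinearMap.comp_apply, h2]
  -- the two transition maps are inverse to each other
  have h3 : HasFDerivAt (fun z => e' (e.symm (e (e'.symm z))))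
      ((fderiv ℂ (fun z => e' (e.symm z)) (e (p (κ.symm s : E)))).comp
        (fderiv ℂ (fun z => e (e'.symm z)) (e' (p (κ.symm s : E))))) (e' (p (κ.symm s : E))) := by
    refine HasFDerivAt.comp (g := fun z => e' (e.symm z)) (f := fun z => e (e'.symm z)) _ ?_
      (transition_differentiableAt he' hat).hasFDerivAt
    rw [e'.left_inv he'.2]
    exact (transition_differentiableAt hat he').hasFDerivAt
  have h4 : (fun z => e' (e.symm (e (e'.symm z)))) =ᶠ[𝓝 (e' (p (κ.symm s : E)))] id := by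
    filter_upwards [he'.nhds_at hat] with z hz
    show e' (e.symm (e (e'.symm z))) = z
    rw [e.left_inv hz.2.2.2, e'.right_inv hz.1]
  have h5 := (h3.congr_of_eventuallyEq h4.symm).unique (hasFDerivAt_id _)
  exact congrArg (fun M => M ξ) h5

variable {W : Type} [NormedAddCommGroup W] [InnerProductSpace ℂ W] [CompleteSpace W]
  {Θ : E → Chart n X → (Cm n →L[ℂ] W)} {u : E → W}

omit [CompleteSpace W] in
/-- `θ` in another chart of `X` -/
theorem th_ch [IsManifold 𝓘(ℂ, Cm n) ω X] (h : FC p F t κ e φ)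
    (hpot : VPot p F t W Θ u) {s : Cm d}
    (hs : s ∈ κ.target) (he' : At e' (p (κ.symm s : E))) (η : Cm d) :
    th p κ e Θ s η = Θ (κ.symm s : E) e' (fderiv ℂ (al p κ e') s η) := by
  rw [(al_ch h hs he').2]
  exact hpot.change (κ.symm s : E) e e' (κ.symm s).2 (h.mem _ (κ.map_target hs)) he' _
    (h.tan' hs η)

omit [ChartedSpace (Cm n) X] in
/-- neighbourhoods in the fibre -/
theorem ev_fib {x : F ⁻¹' {t}} {Q : E → Prop} :
    (∀ᶠ y : F ⁻¹' {t} in 𝓝 x, Q y) ↔ ∀ᶠ y in 𝓝 (x : E), F y = t → Q y := by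
  rw [nhds_subtype_eq_comap, eventually_comap]
  constructor
  · intro h
    filter_upwards [h] with y hy ht
    exact hy ⟨y, ht⟩ rfl
  · intro h
    filter_upwards [h] with y hy z hz
    rw [hz]
    exact hy (by rw [← hz]; exact z.2)

omit [ChartedSpace (Cm n) X] in
theorem fr_fib {x : F ⁻¹' {t}} {Q : E → Prop} (h : ∃ᶠ y in 𝓝 (x : E), F y = t ∧ Q y) :
    ∃ᶠ y : F ⁻¹' {t} in 𝓝 x, Q y := by
  intro h1
  exact h (((ev_fib (Q := fun y => ¬ Q y)).1 h1).mono fun y hy h3 => hy h3.1 h3.2)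

/-- thin sets -/
theorem thin_fib (h : HCh d n p F t) {𝒢 : Set E}
    (hth : ∀ (y : E) (e : Chart n X), F y = t → At e (p y) → ∃ h : Cm n → ℂ,
      AnalyticAt ℂ h (e (p y)) ∧ (∃ᶠ y' in 𝓝 y, F y' = t ∧ h (e (p y')) ≠ 0) ∧
      ∀ᶠ y' in 𝓝 y, h (e (p y')) ≠ 0 → y' ∈ 𝒢) (x : F ⁻¹' {t}) :
    letI := fibCS h
    ∃ g : F ⁻¹' {t} → ℂ, AnM d g x ∧ (∃ᶠ y in 𝓝 x, g y ≠ 0) ∧
      ∀ᶠ y in 𝓝 x, g y ≠ 0 → (y : E) ∈ 𝒢 := by
  letI := fibCS h
  have hfc := ka_fc h x
  obtain ⟨g, h1, h2, h3⟩ := hth x (ee h x) x.2 (hfc.mem x (ka_mem h x))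
  refine ⟨fun y => g (ee h x (p (y : E))), ?_, fr_fib h2, ?_⟩
  · show AnalyticAt ℂ (fun s => g (al p (ka h x) (ee h x) s)) (ka h x x)
    rw [ka_zero]
    refine AnalyticAt.comp (g := g) (f := al p (ka h x) (ee h x)) ?_ (hfc.al_an (ka_zero_mem h x))
    show AnalyticAt ℂ g (ee h x (p ((ka h x).symm 0 : E)))
    rw [ka_symm_zero]
    exact h1
  · have h4 : ∀ᶠ y : F ⁻¹' {t} in 𝓝 x, (fun y : E => g (ee h x (p y)) ≠ 0 → y ∈ 𝒢) y :=
      ev_fib.2 (h3.mono fun y hy _ => hy)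
    exact h4

/-- the data of a slide, on the fibre -/
theorem slide_fib [IsManifold 𝓘(ℂ, Cm n) ω X] (hp : IsCoveringMap p) (hF : HolB p w F B)
    (h : HCh d n p F t) (hpot : VPot p F t W Θ u) (x : F ⁻¹' {t}) {e : Chart n X} {r : ℕ}
    {b : Cm n → Cm r} {G : Cm r → W} (he : At e (p (x : E))) (hb : AnalyticAt ℂ b (e (p (x : E))))
    (hG : AnalyticAt ℂ G (b (e (p (x : E)))))
    (hsur : ∀ x' : Cm r, ∃ ξ ∈ VS p F (x : E) e, fderiv ℂ b (e (p (x : E))) ξ = x')
    (hev : ∀ᶠ y in 𝓝 (x : E), F y = F (x : E) → ∀ ξ ∈ VS p F y e,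
      Θ y e ξ = fderiv ℂ (fun z => G (b z)) (e (p y)) ξ) :
    letI := fibCS h
    AnM d (fun y : F ⁻¹' {t} => b (e (p (y : E)))) x ∧
      Function.Surjective (dM d (fun y : F ⁻¹' {t} => b (e (p (y : E)))) x) ∧
      (∀ᶠ y : F ⁻¹' {t} in 𝓝 x, Fp h hpot x y =
        G (b (e (p (y : E)))) - G (b (e (p (x : E))))) ∧
      ∀ᶠ x₁ : F ⁻¹' {t} in 𝓝 x, 𝓝 (b (e (p (x₁ : E)))) ≤
        map (fun y : F ⁻¹' {t} => b (e (p (y : E)))) (𝓝 x₁) := by
  letI := fibCS h
  have hfc := ka_fc h x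
  set κ := ka h x with hκ
  have h0 := ka_zero_mem h x
  have hx0 : κ.symm 0 = x := ka_symm_zero h x
  have hxt : F (x : E) = t := x.2
  have he' : At e (p (κ.symm 0 : E)) := by rw [hx0]; exact he
  obtain ⟨ha1, ha2⟩ := al_ch hfc h0 he'
  have hα0 : al p κ e 0 = e (p (x : E)) := by
    show e (p (κ.symm 0 : E)) = _
    rw [hx0]
  have hb0 : AnalyticAt ℂ b (al p κ e 0) := by rw [hα0]; exact hb
  have hG0 : AnalyticAt ℂ G (b (al p κ e 0)) := by rw [hα0]; exact hG
  have hba : AnalyticAt ℂ (fun s => b (al p κ e s)) 0 :=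
    AnalyticAt.comp (g := b) (f := al p κ e) hb0 ha1
  have hc : Tendsto κ.symm (𝓝 0) (𝓝 x) := by
    have := κ.continuousAt_symm h0
    unfold ContinuousAt at this
    rwa [hx0] at this
  have hcE : Tendsto (fun s => (κ.symm s : E)) (𝓝 0) (𝓝 (x : E)) :=
    (continuous_subtype_val.tendsto _).comp hc
  -- near `0` the chart `e` is fine
  have hate : ∀ᶠ s in 𝓝 (0 : Cm d), At e (p (κ.symm s : E)) := by
    have h1 : ∀ᶠ y in 𝓝 (x : E), p y ∈ e.source :=
      hp.continuous.continuousAt.eventually (e.open_source.mem_nhds he.2)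
    filter_upwards [hcE.eventually h1] with s hs
    exact ⟨he.1, hs⟩
  have hsurb : Function.Surjective (fderiv ℂ (fun s => b (al p κ e s)) 0) := by
    intro x'
    obtain ⟨ξ, h1, h2⟩ := hsur x'
    have h1' : ξ ∈ VS p F (κ.symm 0 : E) e := by rw [hx0]; exact h1
    obtain ⟨η, hη⟩ := al_sur hp hF hfc h0 he' h1'
    refine ⟨η, ?_⟩
    have h3 : HasFDerivAt (fun s => b (al p κ e s)) ((fderiv ℂ b (al p κ e 0)).comp
        (fderiv ℂ (al p κ e) 0)) 0 :=
      HasFDerivAt.comp (g := b) (f := al p κ e) 0 hb0.differentiableAt.hasFDerivAt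
        ha1.differentiableAt.hasFDerivAt
    rw [h3.fderiv, ContinuousLinearMap.comp_apply, hη, hα0, h2]
  refine ⟨?_, ?_, ?_, ?_⟩
  · show AnalyticAt ℂ (fun s => b (al p κ e s)) (κ x)
    rw [hκ, ka_zero]
    exact hba
  · show Function.Surjective (fderiv ℂ (fun s => b (al p κ e s)) (κ x))
    rw [hκ, ka_zero]
    exact hsurb
  · -- the two potentials agree
    have h1 : ∀ᶠ s in 𝓝 (0 : Cm d), HasFDerivAt (fun s => Fp h hpot x (κ.symm s))
        (th p κ (ee h x) Θ s) s := by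
      filter_upwards [κ.open_target.mem_nhds h0,
        hc.eventually (κ.open_source.mem_nhds (ka_mem h x))] with s a b
      exact (Fp_deriv h hpot x hfc a b).1
    have hev' : ∀ᶠ s in 𝓝 (0 : Cm d), ∀ ξ ∈ VS p F (κ.symm s : E) e,
        Θ (κ.symm s : E) e ξ = fderiv ℂ (fun z => G (b z)) (e (p (κ.symm s : E))) ξ := by
      filter_upwards [hcE.eventually hev] with s hs
      exact hs (by rw [hxt]; exact (κ.symm s).2)
    have hGb : ∀ᶠ s in 𝓝 (0 : Cm d), AnalyticAt ℂ (fun z => G (b z)) (al p κ e s) := by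
      have h2 : AnalyticAt ℂ (fun z => G (b z)) (al p κ e 0) :=
        AnalyticAt.comp (g := G) (f := b) hG0 hb0
      exact ha1.continuousAt.tendsto.eventually h2.eventually_analyticAt
    have h2 : ∀ᶠ s in 𝓝 (0 : Cm d), HasFDerivAt
        (fun s => G (b (al p κ e s)) - G (b (e (p (x : E))))) (th p κ (ee h x) Θ s) s := by
      filter_upwards [κ.open_target.mem_nhds h0, hate, hev', hGb] with s a1 a2 a3 a4
      have h3 : HasFDerivAt (fun s => G (b (al p κ e s)))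
          ((fderiv ℂ (fun z => G (b z)) (al p κ e s)).comp (fderiv ℂ (al p κ e) s)) s :=
        HasFDerivAt.comp (g := fun z => G (b z)) (f := al p κ e) s
          a4.differentiableAt.hasFDerivAt (al_ch hfc a1 a2).1.differentiableAt.hasFDerivAt
      have h4 : (fderiv ℂ (fun z => G (b z)) (al p κ e s)).comp (fderiv ℂ (al p κ e) s) =
          th p κ (ee h x) Θ s := by
        ext1 η
        rw [th_ch hfc hpot a1 a2 η]
        exact (a3 _ (al_tan hp hF hfc a1 a2 η)).symm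
      rw [h4] at h3
      exact h3.sub_const _
    have h3 := eq_of_deriv h1 h2 (by
      show Fp h hpot x (κ.symm 0) = G (b (al p κ e 0)) - G (b (e (p (x : E))))
      rw [hx0, Fp_self, hα0, sub_self])
    have h4 : Tendsto κ (𝓝 x) (𝓝 0) := by
      have := κ.continuousAt (ka_mem h x)
      unfold ContinuousAt at this
      rwa [hκ, ka_zero] at this
    filter_upwards [h4.eventually h3, κ.open_source.mem_nhds (ka_mem h x)] with y a b'
    have h5 : κ.symm (κ y) = y := κ.left_inv b'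
    have h6 : al p κ e (κ y) = e (p (y : E)) := by
      show e (p (κ.symm (κ y) : E)) = _
      rw [h5]
    rw [h5, h6] at a
    exact a
  · have h1 := H221.surj_eventually hba hsurb
    have h4 : Tendsto κ (𝓝 x) (𝓝 0) := by
      have := κ.continuousAt (ka_mem h x)
      unfold ContinuousAt at this
      rwa [hκ, ka_zero] at this
    filter_upwards [h4.eventually h1, h4.eventually hba.eventually_analyticAt,
      κ.open_source.mem_nhds (ka_mem h x)] with x₁ a1 a2 a3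
    have h5 := a2.hasStrictFDerivAt.map_nhds_eq_of_surj (LinearMap.range_eq_top.2 a1)
    have h6 : κ.symm (κ x₁) = x₁ := κ.left_inv a3
    have h7 : al p κ e (κ x₁) = e (p (x₁ : E)) := by
      show e (p (κ.symm (κ x₁) : E)) = _
      rw [h6]
    have h8 : b (al p κ e (κ x₁)) = b (e (p (x₁ : E))) := by rw [h7]
    rw [← h8, ← h5]
    have h9 : Tendsto κ.symm (𝓝 (κ x₁)) (𝓝 x₁) := by
      have := κ.continuousAt_symm (κ.map_source a3)
      unfold ContinuousAt at this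
      rwa [h6] at this
    intro S hS
    exact h9 hS

/-- **slides on the fibre** -/
theorem sl_fib [IsManifold 𝓘(ℂ, Cm n) ω X] (hp : IsCoveringMap p) (hF : HolB p w F B)
    (h : HCh d n p F t) (hpot : VPot p F t W Θ u) {r : ℕ} {U : ℕ → (W →ₗᵢ[ℂ] W)}
    (x : F ⁻¹' {t}) (hs : H378.SlideAt n p F Θ r U (x : E)) :
    letI := fibCS h
    (∃ (b : F ⁻¹' {t} → Cm r) (Gx : Cm r → W), AnM d b x ∧
        Function.Surjective (dM d b x) ∧ AnalyticAt ℂ Gx (b x) ∧
        Function.Injective (fderiv ℂ Gx (b x)) ∧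
        ∀ᶠ y in 𝓝 x, Fp h hpot x y = Gx (b y) - Gx (b x)) ∧
      ∃ c : ℕ → W, Sl (Fp h hpot) atTop U x c := by
  letI := fibCS h
  obtain ⟨e, b, G, he, hb, hG, hinj, hsur, hev, c', ψ, ρ, hρ, hslide, hψ⟩ := hs
  obtain ⟨h1, h2, h3, h4⟩ := slide_fib hp hF h hpot x he hb hG hsur hev
  refine ⟨⟨fun y => b (e (p (y : E))), G, h1, h2, hG, hinj, h3⟩,
    fun j => c' j + U j (G (b (e (p (x : E))))) - G (b (e (p (x : E)))), ?_⟩
  set β : F ⁻¹' {t} → Cm r := fun y => b (e (p (y : E))) with hβ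
  have hβc : ∀ᶠ x₁ in 𝓝 x, ContinuousAt β x₁ := by
    have h5 : ∀ᶠ y in 𝓝 (x : E), AnalyticAt ℂ b (e (p y)) ∧ p y ∈ e.source := by
      have h6 : Tendsto (fun y => e (p y)) (𝓝 (x : E)) (𝓝 (e (p (x : E)))) := tendsto_ep hp he
      exact (h6.eventually hb.eventually_analyticAt).and
        (hp.continuous.continuousAt.eventually (e.open_source.mem_nhds he.2))
    have h6 : ∀ᶠ y : F ⁻¹' {t} in 𝓝 x, (fun y : E => AnalyticAt ℂ b (e (p y)) ∧ p y ∈ e.source) y :=
      ev_fib.2 (h5.mono fun y hy _ => hy)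
    filter_upwards [h6] with x₁ hx₁
    have h7 : ContinuousAt (fun y : E => e (p y)) (x₁ : E) :=
      tendsto_ep hp ⟨he.1, hx₁.2⟩
    exact (ContinuousAt.comp (g := b) (f := fun y : E => e (p y)) hx₁.1.continuousAt h7).comp
      continuous_subtype_val.continuousAt
  have hβx : ∀ᶠ x₁ in 𝓝 x, β x₁ ∈ ball (β x) ρ :=
    hβc.self_of_nhds.eventually (isOpen_ball.mem_nhds (mem_ball_self hρ))
  refine ⟨{x₁ | (∀ᶠ y in 𝓝 x₁, Fp h hpot x y = G (β y) - G (β x)) ∧ 𝓝 (β x₁) ≤ map β (𝓝 x₁) ∧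
    ContinuousAt β x₁ ∧ β x₁ ∈ ball (β x) ρ}, ?_, ?_⟩
  · filter_upwards [eventually_eventually_nhds.2 h3, h4, hβc, hβx] with x₁ a1 a2 a3 a4
    exact ⟨a1, a2, a3, a4⟩
  · rintro x₁ ⟨a1, a2, a3, a4⟩ B hB
    have hB' : B ∩ {y | Fp h hpot x y = G (β y) - G (β x)} ∈ 𝓝 x₁ := inter_mem hB a1
    have h5 : β '' (B ∩ {y | Fp h hpot x y = G (β y) - G (β x)}) ∈ 𝓝 (β x₁) :=
      a2 (image_mem_map hB')
    obtain ⟨δ, hδ, hδB⟩ := Metric.mem_nhds_iff.1 h5
    refine ⟨{y | β y ∈ ball (β x₁) (δ / 2) ∩ ball (β x) ρ ∧ Fp h hpot x y = G (β y) - G (β x)},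
      ?_, ?_⟩
    · have h6 : ball (β x₁) (δ / 2) ∩ ball (β x) ρ ∈ 𝓝 (β x₁) :=
        inter_mem (ball_mem_nhds _ (half_pos hδ)) (isOpen_ball.mem_nhds a4)
      filter_upwards [a3.eventually h6, a1] with y b1 b2
      exact ⟨b1, b2⟩
    · filter_upwards [hslide, hψ (δ / 2) (half_pos hδ)] with j c1 c2
      rintro x' ⟨⟨d1, d2⟩, d3⟩
      have h6 : ψ j (β x') ∈ ball (β x₁) δ := by
        rw [mem_ball]
        have h7 := c2 (β x') d2
        rw [← dist_eq_norm] at h7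
        calc dist (ψ j (β x')) (β x₁) ≤ dist (ψ j (β x')) (β x') + dist (β x') (β x₁) :=
              dist_triangle _ _ _
          _ < δ / 2 + δ / 2 := add_lt_add h7 d1
          _ = δ := by ring
      obtain ⟨x'', ⟨g1, g2⟩, g3⟩ := hδB h6
      refine ⟨x'', g1, ?_⟩
      have h7 : Fp h hpot x x'' = G (β x'') - G (β x) := g2
      have h8 := c1 (β x') d2
      rw [h7, g3, d3, ← h8, map_sub]
      show U j (G (β x')) + c' j - G (β x) = U j (G (β x')) - U j (G (β x)) +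
        (c' j + U j (G (β x)) - G (β x))
      abel

end

end Vale.Agent.P284.H885.DK
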